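import Vale.Agent.P155I.Sk
import Vale.Agent.P155S.RegC

/-!
# P155, block (I): the rows REG and BLP
-/

set_option linter.all false

namespace Vale.Agent.P155.Soup

open MeasureTheory Set Metric Vale.Agent.P155 Vale.Agent.P155.Q1 Vale.Agent.P155.BL

/-- **REG** -/
theorem reg : REG := fun _ hW _ hU h2 => P155S.Reg.reg hW hU h2

/-- **BLP** -/
theorem blp : BLP := fun W hW => by
  obtain ⟨D, cD, dD⟩ := TopologicalSpace.exists_countable_dense S1
  filter_upwards [(ae_ball_iff cD).2 fun a _ => P155S.Reg.reg_pt hW a one_pos] with γ h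
  refine (γ.continuous.range_subset_closure_image_dense dD).trans (closure_mono ?_)
  rintro _ ⟨a, ha, rfl⟩
  obtain ⟨r, r0, hr⟩ := h a ha
  refine mem_interior.2 ⟨_, fun v hv => ?_, isOpen_ball, mem_ball_self r0⟩
  rw [fill, mem_setOf_eq, (isCompact_range γ.continuous).isClosed.closure_eq]
  exact isBounded_closedBall.subset (hr v hv)

end Vale.Agent.P155.Soup
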