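import Vale.Agent.P155I.Sk

/-!
# P155, block (I): further statements
-/

set_option linter.all false

namespace Vale.Agent.P155.Soup

open MeasureTheory ProbabilityTheory Set Metric TopologicalSpace Filter Topology Vale.Agent.P155
  Vale.Agent.P155.Q1 Vale.Agent.P155.Tree Vale.Agent.P155.BL Vale.Agent.P155.Uq
  Vale.Agent.P155S.Poi
open scoped NNReal ENNReal

/-- finite unions of connected sets -/
def FinC (S : Set ℂ) : Prop :=
  ∃ s : Set (Set ℂ), s.Finite ∧ (∀ Z ∈ s, IsPreconnected Z) ∧ S = ⋃₀ s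

/-- **F2f**: `F2` for targets with finitely many pieces in `V` -/
def F2f : Prop := ∀ P, Sp0 P → ∀ V Q R, Seed V Q R → FinC (R ∩ V) →
  P {w | Disjoint (closure (Us (pts w) V Q)) R} ≤ L1 V {G : NC | Disjoint (SWR.KK V Q G) R}

/-- **POSf**: `POS` for targets with finitely many pieces in `V` -/
def POSf : Prop := ∀ V Q R, Seed V Q R → FinC (R ∩ V) →
  L1 V {G : NC | Disjoint (SWR.KK V Q G) R} ≠ 0

/-- **GOOD**: almost every soup is good -/
def GOOD : Prop := ∀ P, Sp0 P → ∀ Ω, Dom Ω → ∀ᵐ w ∂P, GoodS Ω (pts w)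

/-- **CYL**: the events that given sets lie in one filled cluster (one closed hole) -/
def CYL : Prop := ∀ P, Sp0 P → ∀ Ω, Dom Ω → ∃ (Y : Cf CL → FU → Prop) (Y' : NC → FU → Prop),
  Measurable Y ∧ Measurable Y' ∧ P.map Y = (L1 Ω).map Y' ∧
  (∀ᵐ w ∂P, ∀ D : FU, Y w D ↔ ∃ K ∈ outer (pts w ∩ LV Ω), (D : Set ℂ) ⊆ K) ∧
  ∀ᵐ G : NC ∂(L1 Ω), ∀ D : FU, Y' G D ↔ ∃ U, IsHole Ω G U ∧ (D : Set ℂ) ⊆ closure U

end Vale.Agent.P155.Soup
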