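import Vale.Agent.P155I.Sk
import Vale.Agent.P155.NT733.YM
import Vale.Agent.P155B.Meas

/-!
# P155, block (I): random sets
-/

namespace Vale.Agent.P155.Soup

open MeasureTheory Set Metric TopologicalSpace Filter Topology Vale.Agent.P155
  Vale.Agent.P155.Q1 Vale.Agent.P155.Tree Vale.Agent.P155.BL Vale.Agent.P155.Uq

variable {X : Type} [MeasurableSpace X] {F F' V T : X → Set ℂ}

theorem ms_ex {ι : Sort*} [Countable ι] {p : ι → X → Prop} (h : ∀ i, MeasurableSet {x | p i x}) :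
    MeasurableSet {x | ∃ i, p i x} := by
  rw [ofPred_exists]
  exact MeasurableSet.iUnion h

theorem ms_all {ι : Sort*} [Countable ι] {p : ι → X → Prop} (h : ∀ i, MeasurableSet {x | p i x}) :
    MeasurableSet {x | ∀ i, p i x} := by
  rw [ofPred_forall]
  exact MeasurableSet.iInter h

theorem ms_congr {p q : X → Prop} (h : MeasurableSet {x | p x}) (e : ∀ x, q x ↔ p x) :
    MeasurableSet {x | q x} := by
  simpa only [e] using h

theorem ex_q {O : Set ℂ} (hO : IsOpen O) (h : O.Nonempty) : ∃ i, denseSeq ℂ i ∈ O :=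
  (denseRange_denseSeq ℂ).exists_mem_open hO h

theorem Hit.const (A : Set ℂ) : Hit fun _ : X => A := fun _ _ => MeasurableSet.const _

theorem ROp.const {A : Set ℂ} (h : IsOpen A) : ROp fun _ : X => A := ⟨fun _ => h, Hit.const _⟩

theorem Hit.cl (h : Hit F) : Hit fun x => closure (F x) := fun O hO =>
  ms_congr (h O hO) fun _ => closure_inter_open_nonempty_iff hO

theorem Hit.union (h : Hit F) (h' : Hit F') : Hit fun x => F x ∪ F' x := fun O hO =>
  ms_congr ((h O hO).union (h' O hO)) fun _ => by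
    rw [union_inter_distrib_right, union_nonempty]
    rfl

theorem Hit.iUnion {ι : Type} [Countable ι] {F : ι → X → Set ℂ} {p : ι → X → Prop}
    (h : ∀ i, Hit (F i)) (hp : ∀ i, MeasurableSet {x | p i x}) :
    Hit fun x => ⋃ i, ⋃ _ : p i x, F i x := fun O hO =>
  ms_congr (ms_ex fun i => (hp i).inter (h i O hO)) fun _ => by
    simp only [iUnion_inter, nonempty_iUnion, exists_prop]
    rfl

theorem Hit.disj₂ (h : Hit F) (h' : Hit F') (hb : ∀ x, Bornology.IsBounded (F x)) :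
    MeasurableSet {x | Disjoint (closure (F x)) (closure (F' x))} := by
  refine ms_congr (ms_all fun k : ℕ => ms_ex fun i : ℕ =>
    (h _ (isOpen_ball (x := denseSeq ℂ i) (ε := 1 / (k + 1)))).inter
      (h' _ (isOpen_ball (x := denseSeq ℂ i) (ε := 1 / (k + 1))))).compl fun x => ⟨fun hd hc => ?_,
    fun hc => Set.disjoint_left.2 fun z h1 h2 => hc fun k => ?_⟩
  · obtain ⟨δ, hδ, hd⟩ := hd.exists_thickenings (hb x).isCompact_closure isClosed_closure
    obtain ⟨k, hk⟩ := exists_nat_one_div_lt hδ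
    obtain ⟨i, ⟨a, a1, a2⟩, b, b1, b2⟩ := hc k
    exact Set.disjoint_left.1 hd
      (mem_thickening_iff.2 ⟨a, subset_closure a1, (mem_ball'.1 a2).trans hk⟩)
      (mem_thickening_iff.2 ⟨b, subset_closure b1, (mem_ball'.1 b2).trans hk⟩)
  · obtain ⟨i, hi⟩ := ex_q isOpen_ball ⟨z, mem_ball_self (Nat.one_div_pos_of_nat (n := k))⟩
    exact ⟨i, (closure_inter_open_nonempty_iff isOpen_ball).1 ⟨z, h1, mem_ball_comm.1 hi⟩,
      (closure_inter_open_nonempty_iff isOpen_ball).1 ⟨z, h2, mem_ball_comm.1 hi⟩⟩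

theorem Hit.disj (h : Hit F) {R : Set ℂ} (hR : IsClosed R) :
    MeasurableSet {x | Disjoint (closure (F x)) R} := by
  refine ms_congr (ms_all fun n : ℕ => (Hit.const (R ∩ closedBall 0 n)).disj₂ h
    fun _ => isBounded_closedBall.subset inter_subset_right) fun x => ?_
  simp only [(hR.inter isClosed_closedBall).closure_eq]
  refine ⟨fun h n => h.symm.mono_left inter_subset_left,
    fun h => Set.disjoint_left.2 fun z h1 h2 => ?_⟩
  obtain ⟨n, hn⟩ := exists_nat_ge ‖z‖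
  exact Set.disjoint_left.1 (h n) ⟨h2, mem_closedBall_zero_iff.2 hn⟩ h1

theorem Hit.sub (h : Hit F) (D : Set ℂ) : MeasurableSet {x | D ⊆ closure (F x)} := by
  obtain ⟨t, h1, h2, h3⟩ := (IsSeparable.of_separableSpace D).exists_countable_dense_subset
  have := h2.to_subtype
  refine ms_congr (ms_all fun d : t => (h.disj (isClosed_singleton (x := d.1))).compl) fun x => ?_
  simp only [mem_ofPred_eq, disjoint_singleton_right, not_not]
  exact ⟨fun h d => h (h1 d.2), fun h => h3.trans (closure_minimal (fun d hd => h ⟨d, hd⟩)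
    isClosed_closure)⟩

theorem coe_toNC {S : Set ℂ} (h : IsCompact S) (h' : S.Nonempty) : (toNC S : Set ℂ) = S := by
  rw [toNC, dif_pos ⟨h, h'⟩]
  rfl

theorem Hit.nc (h : Hit F) (hb : ∀ x, Bornology.IsBounded (F x) ∧ (F x).Nonempty) :
    Measurable fun x => toNC (closure (F x)) :=
  NT733.YM.meas_of_hit fun O hO => ms_congr (h.cl O hO) fun x => by
    rw [coe_toNC (hb x).1.isCompact_closure (hb x).2.closure]

theorem hit_nc {F : X → NC} (h : Measurable F) : Hit fun x => (F x : Set ℂ) := fun _ hO =>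
  h (NonemptyCompacts.isOpen_inter_nonempty_of_isOpen hO).measurableSet

theorem ROp.sub (h : ROp V) {D : Set ℂ} (hD : IsClosed D) : MeasurableSet {x | D ⊆ V x} :=
  ms_congr (h.2.disj hD) fun x => by
    rw [(h.1 x).isClosed_compl.closure_eq, disjoint_compl_left_iff_subset]

theorem ROp.mem (h : ROp V) (z : ℂ) : MeasurableSet {x | z ∈ V x} :=
  ms_congr (h.sub (isClosed_singleton (x := z))) fun _ => singleton_subset_iff.symm

theorem hit_of_mem (ho : ∀ x, IsOpen (V x)) (h : ∀ z, MeasurableSet {x | z ∈ V x}) : Hit V :=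
  fun O hO => ms_congr (ms_ex fun i => (h (denseSeq ℂ i)).inter
    (MeasurableSet.const (denseSeq ℂ i ∈ O))) fun x =>
      ⟨ex_q ((ho x).inter hO), fun ⟨_, h⟩ => ⟨_, h⟩⟩

theorem ROp.hit (h : ROp V) : Hit V := hit_of_mem h.1 h.mem

theorem ROp.diff (h : ROp V) (hT : Hit T) (hc : ∀ x, IsClosed (T x)) : ROp fun x => V x \ T x :=
  ⟨fun x => (h.1 x).sdiff (hc x), by simpa only [compl_sdiff, union_comm] using h.2.union hT⟩

/-- finite unions of small discs -/
def Dq (s : Finset (ℕ × ℕ)) : Set ℂ := ⋃ p ∈ s, closedBall (denseSeq ℂ p.1) (1 / (p.2 + 1))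

theorem mem_comp {U : Set ℂ} (hU : IsOpen U) {z p : ℂ} : p ∈ connectedComponentIn U z ↔
    ∃ s, Dq s ⊆ U ∧ IsPreconnected (Dq s) ∧ z ∈ Dq s ∧ p ∈ Dq s := by
  classical
  refine ⟨fun hp => ?_, fun ⟨s, h1, h2, h3, h4⟩ => h2.subset_connectedComponentIn h3 h1 h4⟩
  refine isPreconnected_connectedComponentIn.induction₂'
    (fun z p => ∃ s, Dq s ⊆ U ∧ IsPreconnected (Dq s) ∧ z ∈ Dq s ∧ p ∈ Dq s) (fun x hx => ?_) ?_
    (mem_connectedComponentIn (connectedComponentIn_nonempty_iff.1 ⟨p, hp⟩)) hp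
  · obtain ⟨δ, hδ, h⟩ := Metric.isOpen_iff.1 hU x (connectedComponentIn_subset _ _ hx)
    obtain ⟨k, hk⟩ := exists_nat_one_div_lt (half_pos hδ)
    obtain ⟨i, hi⟩ := ex_q isOpen_ball ⟨x, mem_ball_self (Nat.one_div_pos_of_nat (n := k))⟩
    have e : Dq {(i, k)} = closedBall (denseSeq ℂ i) (1 / (k + 1)) := by simp [Dq]
    have h1 : Dq {(i, k)} ⊆ U := e ▸ (closedBall_subset_ball' (by
      linarith [mem_ball.1 hi])).trans h
    have h2 : IsPreconnected (Dq {(i, k)}) := e ▸ (convex_closedBall _ _).isPreconnected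
    have h3 : x ∈ Dq {(i, k)} := e ▸ ball_subset_closedBall (mem_ball_comm.1 hi)
    filter_upwards [mem_nhdsWithin_of_mem_nhds (isOpen_ball.mem_nhds (mem_ball_comm.1 hi))] with y hy
    have h4 : y ∈ Dq {(i, k)} := e ▸ ball_subset_closedBall hy
    exact ⟨⟨_, h1, h2, h3, h4⟩, _, h1, h2, h4, h3⟩
  · rintro a b c - - - ⟨s, s1, s2, s3, s4⟩ ⟨t, t1, t2, t3, t4⟩
    have e : Dq (s ∪ t) = Dq s ∪ Dq t := Finset.set_biUnion_union _ _ _
    exact ⟨s ∪ t, e ▸ union_subset s1 t1, e ▸ s2.union b s4 t3 t2, e ▸ Or.inl s3, e ▸ Or.inr t4⟩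

theorem ROp.comp (h : ROp V) (z : ℂ) : ROp fun x => connectedComponentIn (V x) z := by
  have m (p : ℂ) : MeasurableSet {x | p ∈ connectedComponentIn (V x) z} :=
    ms_congr (ms_ex fun s => (h.sub (isClosed_biUnion_finset fun _ _ => isClosed_closedBall)).inter
      (MeasurableSet.const _)) fun x => mem_comp (h.1 x)
  refine ⟨fun x => (h.1 x).connectedComponentIn, fun O hO => ms_congr ((h.2 O hO).union
    (ms_ex fun i => (m (denseSeq ℂ i)).compl.inter (MeasurableSet.const (denseSeq ℂ i ∈ O))))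
    fun x => ⟨fun ⟨p, h1, h2⟩ => ?_, ?_⟩⟩
  · by_cases hp : p ∈ V x
    · obtain ⟨i, hi⟩ := ex_q ((h.1 x).connectedComponentIn.inter hO)
        ⟨p, mem_connectedComponentIn hp, h2⟩
      refine Or.inr ⟨i, fun h3 => h1 ?_, hi.2⟩
      exact ((connectedComponentIn_eq hi.1).trans (connectedComponentIn_eq h3).symm).subset
        (mem_connectedComponentIn hp)
    · exact Or.inl ⟨p, hp, h2⟩
  · rintro (⟨p, h1, h2⟩ | ⟨i, h⟩)
    exacts [⟨p, fun h => h1 (connectedComponentIn_subset _ _ h), h2⟩, ⟨_, h⟩]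

theorem Hit.rop (h : Hit F) : ROp fun x => (closure (F x))ᶜ :=
  ⟨fun _ => isClosed_closure.isOpen_compl, by simpa only [compl_compl] using h.cl⟩

theorem Hit.bdd (h : Hit F) : MeasurableSet {x | Bornology.IsBounded (F x)} := by
  refine ms_congr (ms_ex fun n : ℕ => (h _ (isClosed_closedBall (x := (0 : ℂ))
    (ε := n)).isOpen_compl).compl) fun x => ?_
  simp only [mem_ofPred_eq, not_nonempty_iff_eq_empty, ← disjoint_iff_inter_eq_empty,
    disjoint_compl_right_iff_subset]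
  refine ⟨fun h => ?_, fun ⟨n, hn⟩ => isBounded_closedBall.subset hn⟩
  obtain ⟨r, hr⟩ := h.subset_closedBall 0
  obtain ⟨n, hn⟩ := exists_nat_ge r
  exact ⟨n, hr.trans (closedBall_subset_closedBall hn)⟩

theorem Hit.fl (h : Hit F) : Hit fun x => fill (F x) := by
  refine fun O hO => ms_congr ((h.cl O hO).union (ms_ex fun i =>
    (h.rop.comp (denseSeq ℂ i)).hit.bdd.inter (MeasurableSet.const (denseSeq ℂ i ∈ O))))
    fun x => ⟨fun ⟨p, h1, h2⟩ => ?_, ?_⟩
  · by_cases hp : p ∈ closure (F x)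
    · exact Or.inl ⟨p, hp, h2⟩
    · obtain ⟨i, hi⟩ := ex_q ((h.rop.1 x).connectedComponentIn.inter hO)
        ⟨p, mem_connectedComponentIn hp, h2⟩
      exact Or.inr ⟨i, by simpa only [mem_ofPred_eq, ← connectedComponentIn_eq hi.1] using! h1, hi.2⟩
  · rintro (⟨p, h1, h2⟩ | ⟨i, h⟩)
    · refine ⟨p, ?_, h2⟩
      show Bornology.IsBounded (connectedComponentIn _ p)
      rw [connectedComponentIn_eq_empty (by simpa using h1)]
      exact Bornology.isBounded_empty
    · exact ⟨_, h⟩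

theorem hole_iff {V T D : Set ℂ} {d : ℂ} (hd : d ∈ D) {p : Set ℂ → Prop} :
    (∃ W, IsHole V T W ∧ D ⊆ W ∧ p W) ↔
      D ⊆ connectedComponentIn (V \ T) d ∧ p (connectedComponentIn (V \ T) d) := by
  refine ⟨?_, fun h => ⟨_, ⟨d, connectedComponentIn_subset _ _ (h.1 hd), rfl⟩, h⟩⟩
  rintro ⟨_, ⟨z, -, rfl⟩, h1, h2⟩
  rw [← connectedComponentIn_eq (h1 hd)]
  exact ⟨h1, h2⟩

theorem ms_Ex {T : X → Set ℂ → Set ℂ → Set ℂ} {D : Set ℂ} (hD : IsCompact D) (hne : D.Nonempty)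
    (hc : ∀ x V Q, IsClosed (T x V Q)) : ∀ l : List (Set ℂ),
    (∀ Q ∈ l, ∀ V : X → Set ℂ, ROp V → Hit fun x => T x (V x) Q) →
    ∀ V : X → Set ℂ, ROp V → MeasurableSet {x | Ex (T x) D l (V x)}
  | [], _, _, _ => MeasurableSet.const False
  | Q :: l, h, V, hV => by
    obtain ⟨d, hd⟩ := hne
    have h1 := h Q List.mem_cons_self V hV
    have h2 := (hV.diff h1 fun x => hc x _ _).comp d
    refine ms_congr ((h1.sub D).union ((h2.sub hD.isClosed).inter (ms_Ex hD ⟨d, hd⟩ hc l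
      (fun Q hQ => h Q (List.mem_cons_of_mem _ hQ)) _ h2))) fun x => ?_
    rw [Ex, hole_iff hd]
    exact or_congr_left (by rw [mem_ofPred_eq, (hc x _ _).closure_eq])

/-- **TK** -/
theorem tk : TK := fun _ _ =>
  ⟨fun _ h => ⟨h.cl, h.fl, fun _ => h.disj, h.sub, h.nc⟩, fun _ => hit_nc,
    fun _ _ h h' => ⟨h.union h', h.disj₂ h'⟩,
    fun _ h => ⟨h.hit, fun _ => h.sub, fun _ hT hc => (h.diff hT hc).comp⟩,
    fun _ _ l h1 h2 h3 => ms_Ex h1 h2 h3 l⟩

theorem tk_of (_ : FILL) : TK := tk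

end Vale.Agent.P155.Soup
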