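import Vale.Agent.P155I.SB
import Vale.Agent.P155I.TK
import Vale.Agent.P155I.Sk2

/-!
# P155, block (I): the row CARP
-/

set_option linter.all false

namespace Vale.Agent.P155.Soup

open MeasureTheory Set Metric TopologicalSpace Filter Vale.Agent.P155 Vale.Agent.P155.Q1
  Vale.Agent.P155.Tree Vale.Agent.P155.BL Vale.Agent.P155S.Poi Sb

namespace Ca

variable {𝒦 : Set (Set ℂ)} {y : FU → Prop} {Ω : Set ℂ}

theorem un (hy : ∀ D : FU, y D ↔ ∃ K ∈ 𝒦, (D : Set ℂ) ⊆ K) :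
    ⋃ D ∈ {D | y D}, interior (D : Set ℂ) = ⋃ K ∈ 𝒦, interior K := by
  refine (iUnion₂_subset fun D hD => ?_).antisymm (iUnion₂_subset fun K hK z hz => ?_)
  · obtain ⟨K, hK, h⟩ := (hy D).1 hD
    exact (interior_mono h).trans (subset_biUnion_of_mem (u := interior) hK)
  · obtain ⟨D, h1, h2, h3⟩ := exists_rb isOpen_interior hz
    exact mem_iUnion₂.2 ⟨⟨D, rb_fu h1⟩, (hy _).2 ⟨K, hK, h2.trans interior_subset⟩, h3⟩

/-- the interiors are connected -/
def Cn (y : FU → Prop) : Prop := ∀ D₁ D₂ D₃ : FU, y D₃ → (D₁ : Set ℂ) ∪ D₂ ⊆ D₃ ∧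
  (interior (D₁ : Set ℂ)).Nonempty ∧ (interior (D₂ : Set ℂ)).Nonempty → ∃ D : FU, y D ∧
    ∃ S, IsPreconnected S ∧ S ⊆ interior (D : Set ℂ) ∧ (interior (D₁ : Set ℂ) ∩ S).Nonempty ∧
      (S ∩ interior (D₂ : Set ℂ)).Nonempty

theorem meas_Cn [Countable FU] : MeasurableSet {y | Cn y} :=
  measurableSet_setOf.2 (.forall fun _ => .forall fun _ => .forall fun _ =>
    (measurable_pi_apply _).imp (measurable_const.imp
      (.exists fun _ => (measurable_pi_apply _).and measurable_const)))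

theorem cn_iff (hd : 𝒦.Pairwise Disjoint) (hy : ∀ D : FU, y D ↔ ∃ K ∈ 𝒦, (D : Set ℂ) ⊆ K) :
    Cn y ↔ ∀ K ∈ 𝒦, IsPreconnected (interior K) := by
  refine ⟨fun h K hK => isPreconnected_of_forall_pair fun x hx z hz => ?_,
    fun h D₁ D₂ D₃ h3 ⟨h4, ⟨x, hx⟩, z, hz⟩ => ?_⟩
  · obtain ⟨A, a1, a2, a3⟩ := exists_rb isOpen_interior hx
    obtain ⟨B, b1, b2, b3⟩ := exists_rb isOpen_interior hz
    obtain ⟨D, d1, S, s1, s2, s3, s4⟩ := h ⟨A, rb_fu a1⟩ ⟨B, rb_fu b1⟩
      ⟨_, fu_union (rb_fu a1) (rb_fu b1)⟩ ((hy _).2 ⟨K, hK, (union_subset a2 b2).trans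
        interior_subset⟩) ⟨subset_rfl, ⟨x, a3⟩, z, b3⟩
    obtain ⟨K', hK', d2⟩ := (hy D).1 d1
    obtain rfl : K = K' := by
      by_contra e
      obtain ⟨w, w1, w2⟩ := s3
      exact disjoint_left.1 (hd hK hK' e) (interior_subset (a2 (interior_subset w1)))
        (d2 (interior_subset (s2 w2)))
    have c : ∀ A ∈ RB, IsPreconnected (interior A) := by
      rintro _ ⟨i, r, -, rfl⟩
      exact (convex_closedBall _ _).interior.isPreconnected
    exact ⟨interior A ∪ S ∪ interior B, union_subset (union_subset (interior_subset.trans a2)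
      (s2.trans (interior_mono d2))) (interior_subset.trans b2), .inl (.inl a3), .inr b3,
      ((c A a1).union' s3 s1).union' (s4.mono (inter_subset_inter_left _ subset_union_right))
        (c B b1)⟩
  · obtain ⟨K, hK, h5⟩ := (hy D₃).1 h3
    have hx' := interior_mono ((subset_union_left.trans h4).trans h5) hx
    obtain ⟨γ, hγ⟩ := (isOpen_interior.isConnected_iff_isPathConnected.1 ⟨⟨x, hx'⟩, h K hK⟩).joinedIn
      x hx' z (interior_mono ((subset_union_right.trans h4).trans h5) hz)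
    obtain ⟨A, a1, a2, a3, -⟩ := exists_fu (isCompact_range γ.continuous)
      (isConnected_range γ.continuous) isOpen_interior (range_subset_iff.2 hγ)
    exact ⟨⟨A, a1⟩, (hy _).2 ⟨K, hK, a3.trans interior_subset⟩, _,
      (isConnected_range γ.continuous).isPreconnected, a2, ⟨x, hx, γ.source_mem_range⟩,
      z, γ.target_mem_range, hz⟩

theorem coe_carpet (hΩ : Dom Ω) (hK : ∀ K ∈ 𝒦, K ⊆ Ω) :
    (toNC (carpet Ω 𝒦) : Set ℂ) = carpet Ω 𝒦 := by
  refine coe_toNC (hΩ.2.1.isCompact_closure.diff (isOpen_biUnion fun _ _ => isOpen_interior)) ?_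
  obtain ⟨z, hz⟩ := nonempty_frontier_iff.2 ⟨hΩ.2.2.1, fun h =>
    NormedSpace.unbounded_univ ℝ ℂ (h ▸ hΩ.2.1)⟩
  rw [hΩ.1.frontier_eq] at hz
  exact ⟨z, hz.1, fun h => let ⟨K, h1, h2⟩ := mem_iUnion₂.1 h; hz.2 (hK K h1 (interior_subset h2))⟩

theorem holes (hB : Blobs Ω 𝒦) (hc : ∀ K ∈ 𝒦, IsConnected (interior K)) :
    {V | IsHole Ω (carpet Ω 𝒦) V} = interior '' 𝒦 := by
  have e : Ω \ carpet Ω 𝒦 = ⋃ K ∈ 𝒦, interior K := by
    rw [carpet, sdiff_sdiff_right, sdiff_eq_empty.2 subset_closure, empty_union, inter_eq_right]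
    exact iUnion₂_subset fun K hK => interior_subset.trans (hB.sub K hK)
  have h : ∀ K ∈ 𝒦, ∀ z ∈ interior K, connectedComponentIn (⋃ K ∈ 𝒦, interior K) z = interior K := by
    intro K hK z hz
    refine Subset.antisymm ?_ ((hc K hK).isPreconnected.subset_connectedComponentIn hz
      (subset_biUnion_of_mem (u := interior) hK))
    refine isPreconnected_connectedComponentIn.subset_left_of_subset_union isOpen_interior
      (isOpen_biUnion (s := 𝒦 \ {K}) fun _ _ => isOpen_interior) (disjoint_iUnion₂_right.2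
        fun K' h' => (hB.disj hK h'.1 (Ne.symm h'.2)).mono interior_subset interior_subset)
      ((connectedComponentIn_subset _ _).trans (iUnion₂_subset fun K' h' => ?_))
      ⟨z, mem_connectedComponentIn (mem_iUnion₂.2 ⟨K, hK, hz⟩), hz⟩
    by_cases e : K' = K
    · exact e ▸ subset_union_left
    · exact (subset_biUnion_of_mem (u := interior) (s := 𝒦 \ {K}) ⟨h', e⟩).trans subset_union_right
  ext V
  simp only [IsHole, e, mem_setOf_eq]
  constructor
  · rintro ⟨z, hz, rfl⟩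
    obtain ⟨K, hK, hz⟩ := mem_iUnion₂.1 hz
    exact ⟨K, hK, (h K hK z hz).symm⟩
  · rintro ⟨K, hK, rfl⟩
    obtain ⟨z, hz⟩ := (hc K hK).1
    exact ⟨z, mem_iUnion₂.2 ⟨K, hK, hz⟩, (h K hK z hz).symm⟩

end Ca

open Ca in
/-- **CARP** -/
theorem carp_of (hC : CYL) (hG : GOOD) (hS : SB) (hB : GB) (gs : GS) (hL : LAW) (hl : LIST) :
    CARP := by
  intro P hP Ω hΩ
  obtain ⟨Y, Y', mY, mY', e, hY, hY'⟩ := hC P hP Ω hΩ
  have : Countable FU := hl.1.to_subtype
  have mT := hL.2.2 FU (closure Ω) (fun D => interior (D : Set ℂ)) this hΩ.2.1.isCompact_closure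
    fun _ => isOpen_interior
  have h1 : ∀ᵐ G : NC ∂L1 Ω, Cn (Y' G) ∧
      toNC (closure Ω \ ⋃ D ∈ {D | Y' G D}, interior (D : Set ℂ)) = G := by
    filter_upwards [hY', (gs Ω hΩ).2.2.1] with G h g
    obtain ⟨b1, b2, -⟩ := hB Ω G hΩ g
    have h' D : Y' G D ↔ ∃ K ∈ closure '' {U | IsHole Ω G U}, (D : Set ℂ) ⊆ K := by
      rw [h, exists_mem_image]
      rfl
    refine ⟨(cn_iff b1.disj h').2 (forall_mem_image.2 fun U hU => ?_), ?_⟩
    · rw [b2 U hU]
      obtain ⟨z, -, rfl⟩ := hU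
      exact isPreconnected_connectedComponentIn
    have e : closure Ω \ ⋃ K ∈ closure '' {U | IsHole Ω G U}, interior K = G := by
      refine Subset.antisymm (fun z hz => by_contra fun hG => ?_) fun z hz => ⟨g.carp.2.2 hz, ?_⟩
      · by_cases h0 : z ∈ Ω
        · have hU : IsHole Ω G _ := ⟨z, ⟨h0, hG⟩, rfl⟩
          exact hz.2 (mem_iUnion₂.2 ⟨_, ⟨_, hU, rfl⟩, (b2 _ hU).symm ▸
            mem_connectedComponentIn ⟨h0, hG⟩⟩)
        · exact hG (g.carp.2.1 (hΩ.1.frontier_eq ▸ ⟨hz.1, h0⟩))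
      · intro h
        obtain ⟨_, ⟨U, hU, rfl⟩, h⟩ := mem_iUnion₂.1 h
        rw [b2 U hU] at h
        obtain ⟨w, -, rfl⟩ := hU
        exact (connectedComponentIn_subset _ _ h).2 hz
    exact (congrArg (fun S => toNC (closure Ω \ S)) (un h')).trans ((congrArg toNC e).trans
      (SetLike.coe_injective (coe_toNC G.isCompact G.nonempty)))
  refine ⟨_, mT.comp mY, ?_, ?_⟩
  · rw [← Measure.map_map mT mY, e, Measure.map_map mT mY']
    exact (Measure.map_congr (h1.mono fun _ h => h.2)).trans Measure.map_id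
  have h2 : ∀ᵐ w ∂P, Cn (Y w) := by
    rw [← ae_map_iff mY.aemeasurable meas_Cn, e, ae_map_iff mY'.aemeasurable meas_Cn]
    exact h1.mono fun _ h => h.1
  filter_upwards [hY, hG P hP Ω hΩ, h2] with w h g c
  obtain ⟨b1, b2, -⟩ := hS Ω _ hΩ g
  have e := (congrArg (fun S => (toNC (closure Ω \ S) : Set ℂ)) (un h)).trans (coe_carpet hΩ b1.sub)
  refine ⟨e, (congrArg (fun A => {V | IsHole Ω A V}) e).trans (holes b1 fun K hK =>
    ⟨closure_nonempty_iff.1 ((b2 K hK).symm ▸ (b1.conn K hK).1), (cn_iff b1.disj h).1 c K hK⟩),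
    fun F hF => ?_⟩
  rw [frontier, frontier, b2 F hF, interior_interior, (b1.cpt F hF).isClosed.closure_eq]

end Vale.Agent.P155.Soup
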