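import Vale.Agent.P155I.Sk2

/-!
# P155, block (I): the row CYL
-/

set_option linter.all false

namespace Vale.Agent.P155.Soup

open MeasureTheory Set Metric Filter Topology Vale.Agent.P155 Vale.Agent.P155.Q1
  Vale.Agent.P155.Tree Vale.Agent.P155.BL Vale.Agent.P155S.Poi

theorem cyl_gen {X ι : Type} [MeasurableSpace X] (P : Measure X) [IsProbabilityMeasure P]
    {E : ℕ → X → ι → Prop} {Z : X → ι → Prop} (mE : ∀ n D, MeasurableSet {x | E n x D})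
    (h : ∀ᵐ x ∂P, ∀ D, ∀ᶠ n in atTop, E n x D ↔ Z x D) :
    Measurable (fun x D => ∀ᶠ n in atTop, E n x D) ∧
      (∀ᵐ x ∂P, ∀ D, (∀ᶠ n in atTop, E n x D) ↔ Z x D) ∧
      ∀ s : Finset ι, Tendsto (fun n => P {x | ∀ D ∈ s, E n x D}) atTop
        (𝓝 (P {x | ∀ D ∈ s, ∀ᶠ n in atTop, E n x D})) := by
  have m : ∀ D, MeasurableSet {x | ∀ᶠ n in atTop, E n x D} := fun D => by
    simp only [eventually_atTop, setOf_exists, setOf_forall]
    exact .iUnion fun a => .iInter fun n => .iInter fun _ => mE n D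
  have k : ∀ᵐ x ∂P, ∀ D, (∀ᶠ n in atTop, E n x D) ↔ Z x D := h.mono fun x hx D =>
    ⟨fun e => let ⟨_, a, b⟩ := ((hx D).and e).exists; a.1 b, fun e => (hx D).mono fun _ a => a.2 e⟩
  have ms : ∀ (s : Finset ι) (p : X → ι → Prop), (∀ D, MeasurableSet {x | p x D}) →
      MeasurableSet {x | ∀ D ∈ s, p x D} := fun s p hp => by
    simp only [setOf_forall]
    exact s.measurableSet_biInter fun D _ => hp D
  refine ⟨measurable_pi_lambda _ fun D => measurableSet_setOfPred.1 (m D), k, fun s =>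
    tendsto_measure_of_ae_tendsto_indicator_of_isFiniteMeasure atTop (ms s _ m)
      (fun n => ms s _ (mE n)) ?_⟩
  filter_upwards [h, k] with x h1 h2
  filter_upwards [(eventually_all_finset s).2 fun D _ => h1 D] with n hn
  exact forall₂_congr fun D hD => (hn D hD).trans (h2 D).symm

/-- **CYL** -/
theorem cyl_of (rec : REC) (det : DETX) (lst : LIST) (sb : SB) (gb : GB) (good : GOOD) (gs : GS)
    (law : LAW) (tk : TK) (ms : MS) (mg : MG) (fl : FILL) : CYL := by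
  intro P hP Ω hΩ
  have := hP.choose_spec.2.prob
  obtain ⟨_, -, g2, -⟩ := gs Ω hΩ
  obtain ⟨l1, l2, l3, -, l5⟩ := lst
  choose l a1 a2 a3 using fun n : ℕ => l5 Ω hΩ.1 hΩ.2.1 (1 / (n + 1)) (by positivity)
  have cq : ∀ n, ∀ Q ∈ l n, IsCompact Q := fun n Q hQ => (l2 Q (l3 (a3 n Q hQ).1)).1
  have ev : ∀ 𝒦 T, Blobs Ω 𝒦 → (∀ n, Cons T 𝒦 (l n) Ωᶜ) → ∀ D : FU,
      ∀ᶠ n in atTop, Ex T D (l n) Ω ↔ ∃ K ∈ 𝒦, (D : Set ℂ) ⊆ K := fun 𝒦 T hb hc D => by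
    obtain ⟨δ, δ0, hδ⟩ := det Ω 𝒦 hΩ.1 hb D (l2 D D.2).2
    filter_upwards [tendsto_one_div_add_atTop_nhds_zero_nat.eventually_le_const δ0] with n hn
    exact hδ T _ (hc n) (a1 n) (a2 n) fun Q hQ => (a3 n Q hQ).2.trans hn
  have ro : ∀ (X : Type) (_ : MeasurableSpace X), ROp fun _ : X => Ω := fun _ _ =>
    ⟨fun _ => hΩ.1, fun _ _ => .const _⟩
  obtain ⟨b1, b2, b3⟩ := cyl_gen P (E := fun n w (D : FU) => Ex (Ts (pts w)) D (l n) Ω)
    (Z := fun w D => ∃ K ∈ outer (pts w ∩ LV Ω), (D : Set ℂ) ⊆ K)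
    (fun n D => (tk _ _).2.2.2.2 (fun w => Ts (pts w)) D (l n) (l2 D D.2).1 (l2 D D.2).2.nonempty
      (fun _ _ _ => (fl.1 _).2.1) (fun Q hQ V hV => ((tk _ _).1 _ ((tk _ _).2.2.1 _ _
        (fun _ _ => .const _) ((ms.1 _ _ id V measurable_id hV).1 Q (cq n Q hQ).isClosed)).1).2.1)
      _ (ro _ _))
    ((good P hP Ω hΩ).mono fun w hw => ev _ _ (sb Ω _ hΩ hw).1 fun n =>
      (sb Ω _ hΩ hw).2.2 _ (fun Q hQ => (a3 n Q hQ).1) (a1 n))
  obtain ⟨c1, c2, c3⟩ := cyl_gen (L1 Ω) (E := fun n (G : NC) (D : FU) => Ex (Tg G) D (l n) Ω)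
    (Z := fun G D => ∃ U, IsHole Ω G U ∧ (D : Set ℂ) ⊆ closure U)
    (fun n D => (tk _ _).2.2.2.2 (fun G : NC => Tg G) D (l n) (l2 D D.2).1 (l2 D D.2).2.nonempty
      (fun _ _ _ => (fl.1 _).2.1) (fun Q hQ V hV => ((tk _ _).1 _
        (mg.1 _ _ id V measurable_id hV Q (cq n Q hQ))).2.1) _ (ro _ _))
    (g2.mono fun G hG D => by
      simpa using ev _ _ (gb Ω G hΩ hG).1 (fun n => (gb Ω G hΩ hG).2.2 _) D)
  refine ⟨_, _, b1, c1, law.2.1 _ _ _ _ _ P (L1 Ω) _ _ l1.to_subtype ‹_› ‹_› b1 c1 fun s =>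
    tendsto_nhds_unique (b3 s) ((c3 s).congr fun n => ?_), b2, c2⟩
  simpa using (rec P hP (l n) Ω (s.map (.subtype _)) hΩ (a1 n) fun D hD => by
    obtain ⟨D, -, rfl⟩ := Finset.mem_map.1 hD
    exact ⟨(l2 D D.2).1, (l2 D D.2).2.nonempty⟩).symm

end Vale.Agent.P155.Soup
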