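import Vale.Agent.P155I.FILL

/-!
# P155, block (I): the row DETX
-/

namespace Vale.Agent.P155.Soup

open Set Metric TopologicalSpace Vale.Agent.P155 Vale.Agent.P155.Q1 Vale.Agent.P155.Geo
  Vale.Agent.P155.Tree

namespace Det

variable {Ω V W Q D K A : Set ℂ} {𝒦 : Set (Set ℂ)} {T : Set ℂ → Set ℂ → Set ℂ}

theorem closed_uk (h : Blobs Ω 𝒦) (hQ : IsClosed Q) : IsClosed (Q ∪ Uk 𝒦 V Q) := by
  refine isClosed_of_closure_subset fun x hx => ?_
  by_cases hxQ : x ∈ Q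
  · exact .inl hxQ
  obtain ⟨r, hr, h1⟩ := Metric.isOpen_iff.1 hQ.isOpen_compl x hxQ
  have h2 : IsClosed (⋃₀ {K | (K ∈ 𝒦 ∧ r / 4 < diam K) ∧ K ⊆ V ∧ (K ∩ Q).Nonempty}) := by
    rw [sUnion_eq_biUnion]
    exact ((h.fin (r / 4) (by positivity)).subset fun K hK => hK.1).isClosed_biUnion
      fun K hK => (h.cpt K hK.1.1).isClosed
  have h0 : ⋃₀ {K | (K ∈ 𝒦 ∧ r / 4 < diam K) ∧ K ⊆ V ∧ (K ∩ Q).Nonempty} ⊆ Uk 𝒦 V Q :=
    sUnion_subset_sUnion fun K hK => ⟨hK.1.1, hK.2⟩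
  refine .inr (h0 (h2.closure_subset (mem_closure_iff.2 fun O hO hxO => ?_)))
  obtain ⟨y, ⟨h3, h4⟩, h5⟩ := mem_closure_iff.1 hx _ (hO.inter isOpen_ball)
    ⟨hxO, mem_ball_self (half_pos hr)⟩
  rcases h5 with h5 | ⟨K, ⟨h5, h6, p, h7, h8⟩, h9⟩
  · exact absurd h5 (h1 (ball_subset_ball (half_le_self hr.le) h4))
  refine ⟨y, h3, K, ⟨⟨h5, ?_⟩, h6, p, h7, h8⟩, h9⟩
  have h10 : r ≤ dist p x := not_lt.1 fun e => h1 e h8
  have h11 := dist_le_diam_of_mem (h.cpt K h5).isBounded h7 h9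
  have h12 := dist_triangle p y x
  rw [mem_ball] at h4
  linarith

/-- a member which misses `Q` is enclosed or untouched -/
theorem alt (h : Blobs Ω 𝒦) (hQ : IsClosed Q) (hK : K ∈ 𝒦) (hKQ : ¬ (K ∩ Q).Nonempty) :
    K ⊆ Tk 𝒦 V Q ∨ Disjoint K (Tk 𝒦 V Q) := by
  refine sub_or_disj (h.conn K hK).2 ?_
  rw [(closed_uk h hQ).closure_eq, disjoint_left]
  rintro x hx (h1 | ⟨K', h1, h2⟩)
  · exact hKQ ⟨x, hx, h1⟩
  · refine disjoint_left.1 (h.disj hK h1.1 ?_) hx h2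
    rintro rfl
    exact hKQ h1.2.2

theorem sub_tk (hK : K ∈ 𝒦) (hV : K ⊆ V) (hQ : (K ∩ Q).Nonempty) : K ⊆ Tk 𝒦 V Q :=
  fun _ hx => sub_fill (.inr ⟨K, ⟨hK, hV, hQ⟩, hx⟩)

theorem sat_hole (h : Blobs Ω 𝒦) (hQ : IsClosed Q) (hV : Sat 𝒦 V)
    (hW : IsHole V (Tk 𝒦 V Q) W) : Sat 𝒦 W := by
  refine ⟨CI.Holes.hole_open hV.1 isClosed_fill hW, fun K hK => ?_⟩
  rw [or_iff_not_imp_right, not_disjoint_iff]
  rintro ⟨x, hx, hxW⟩
  have h1 := hole_sub hW hxW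
  have h2 : K ⊆ V := (hV.2 K hK).resolve_right fun e => disjoint_left.1 e hx h1.1
  have h3 := (alt (V := V) h hQ hK fun e => h1.2 (sub_tk hK h2 e hx)).resolve_left
    fun e => h1.2 (e hx)
  exact sub_hole hW (h.conn K hK).2 (fun y hy => ⟨h2 hy, disjoint_left.1 h3 hy⟩) hx hxW

theorem disj_hole (hd : Disjoint V A) (hW : IsHole V (Tk 𝒦 V Q) W) : Disjoint W (A ∪ Q) := by
  refine disjoint_left.2 fun x hx => ?_
  rintro (e | e)
  · exact disjoint_left.1 hd (hole_sub hW hx).1 e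
  · exact (hole_sub hW hx).2 (sub_fill (.inl e))

theorem ex_of (h : Blobs Ω 𝒦) (hK : K ∈ 𝒦) (hD : D ⊆ K) : ∀ (l : List (Set ℂ)) (A V : Set ℂ),
    Cons T 𝒦 l A → Adm l A → Sat 𝒦 V → Disjoint V A → K ⊆ V →
    (∃ Q ∈ l, (K ∩ Q).Nonempty) → Ex T D l V
  | [], _, _, _, _, _, _, _, ⟨_, h1, _⟩ => by simp at h1
  | Q :: l, A, V, hc, ha, hV, hd, hKV, ⟨Q', h1, h2⟩ => by
    unfold Ex
    rw [hc.1 V hV hd]
    by_cases h3 : (K ∩ Q).Nonempty
    · exact .inl (hD.trans (sub_tk hK hKV h3))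
    rcases alt (V := V) h ha.1.isClosed hK h3 with h4 | h4
    · exact .inl (hD.trans h4)
    obtain ⟨x, hx⟩ := (h.conn K hK).1
    have h5 : K ⊆ V \ Tk 𝒦 V Q := fun y hy => ⟨hKV hy, disjoint_left.1 h4 hy⟩
    have h6 : IsHole V (Tk 𝒦 V Q) _ := ⟨x, h5 hx, rfl⟩
    have h7 := (h.conn K hK).2.subset_connectedComponentIn hx h5
    refine .inr ⟨_, h6, hD.trans h7, ex_of h hK hD l _ _ hc.2 ha.2.2.2
      (sat_hole h ha.1.isClosed hV h6) (disj_hole hd h6) h7 ⟨Q', ?_, h2⟩⟩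
    rcases List.mem_cons.1 h1 with rfl | h8
    exacts [absurd h2 h3, h8]

theorem of_ex (h : Blobs Ω 𝒦) {p : Set ℂ → Prop}
    (hp : ∀ W Q, IsCompact Q → p Q → ¬ D ⊆ Tk 𝒦 W Q) : ∀ (l : List (Set ℂ)) (A V : Set ℂ),
    Cons T 𝒦 l A → Adm l A → Sat 𝒦 V → Disjoint V A → (∀ Q ∈ l, p Q) → ¬ Ex T D l V
  | [], _, _, _, _, _, _, _ => id
  | Q :: l, A, V, hc, ha, hV, hd, hl => by
    unfold Ex
    rw [hc.1 V hV hd]
    rintro (h1 | ⟨W, h1, -, h2⟩)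
    · exact hp V Q ha.1 (hl Q List.mem_cons_self) h1
    · exact of_ex h hp l _ W hc.2 ha.2.2.2 (sat_hole h ha.1.isClosed hV h1) (disj_hole hd h1)
        (fun Q' e => hl Q' (List.mem_cons_of_mem _ e)) h2

/-- the filling is upper semicontinuous -/
theorem usc (hK : IsCompact K) {y : ℂ} (hy : y ∉ fill K) :
    ∃ ρ : ℝ, 0 < ρ ∧ y ∉ fill (cthickening ρ K) := by
  obtain ⟨R, hR0, hR⟩ := (isBounded_fill hK.isBounded).subset_ball_lt 0 (0 : ℂ)
  have h1 := dom_compl_conn (dom_ball (c := 0) hR0)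
  obtain ⟨p, hp⟩ := h1.1
  obtain ⟨π, hπ⟩ := (isClosed_fill.isOpen_compl.isConnected_iff_isPathConnected.1
    ⟨⟨y, hy⟩, fill_compl_preconn hK.isBounded⟩).joinedIn y hy p fun e => hp (hR e)
  have h2 : IsClosed (range π ∪ (ball (0 : ℂ) R)ᶜ) :=
    (isCompact_range π.continuous).isClosed.union isOpen_ball.isClosed_compl
  obtain ⟨ρ, h3, h4⟩ := hK.exists_cthickening_subset_open h2.isOpen_compl (by
    rintro x hx (⟨t, rfl⟩ | e)
    · exact hπ t (sub_fill hx)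
    · exact e (hR (sub_fill hx)))
  refine ⟨ρ, h3, disj_fill ((isPreconnected_range π.continuous).union p π.target_mem_range hp h1.2)
    (fun e => NormedSpace.unbounded_univ ℝ ℂ ?_) ?_ (.inl π.source_mem_range)⟩
  · rw [← union_compl_self (ball (0 : ℂ) R)]
    exact isBounded_ball.union (e.subset subset_union_right)
  · rw [isClosed_cthickening.closure_eq]
    exact subset_compl_comm.1 h4

theorem pos_all {ι : Type} {s : Set ι} (hs : s.Finite) {p : ι → ℝ → Prop}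
    (h : ∀ i ∈ s, ∃ ρ, 0 < ρ ∧ ∀ t, t ≤ ρ → p i t) : ∃ ρ, 0 < ρ ∧ ∀ i ∈ s, ∀ t, t ≤ ρ → p i t := by
  induction s, hs using Set.Finite.induction_on with
  | empty => exact ⟨1, one_pos, fun _ e => e.elim⟩
  | insert _ _ ih =>
    obtain ⟨ρ, h1, h2⟩ := ih fun i hi => h i (.inr hi)
    obtain ⟨ρ', h3, h4⟩ := h _ (.inl rfl)
    refine ⟨min ρ ρ', lt_min h1 h3, ?_⟩
    rintro i (rfl | hi) t ht
    exacts [h4 t (ht.trans (min_le_right _ _)), h2 i hi t (ht.trans (min_le_left _ _))]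

theorem key (h : Blobs Ω 𝒦) (hD : D.Nontrivial) (hn : ∀ K ∈ 𝒦, ¬ D ⊆ K) :
    ∃ δ : ℝ, 0 < δ ∧ ∀ W Q, IsCompact Q → diam Q ≤ δ → ¬ D ⊆ Tk 𝒦 W Q := by
  obtain ⟨x, hx, y, hy, hne⟩ := hD
  have hd : 0 < dist x y := dist_pos.2 hne
  obtain ⟨ρ, hρ, h1⟩ := pos_all (h.fin (dist x y / 10) (by positivity))
    (p := fun K t => ¬ D ⊆ fill (cthickening t K)) fun K hK => by
      obtain ⟨z, hz, hz'⟩ := not_subset.1 (hn K hK.1)
      obtain ⟨ρ, h1, h2⟩ := usc (h.cpt K hK.1) (y := z) (by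
        rwa [fill_eq (h.cpt K hK.1).isClosed (h.full K hK.1) (h.cpt K hK.1).isBounded])
      exact ⟨ρ, h1, fun t ht e => h2 (fill_mono (cthickening_mono ht K) (e hz))⟩
  set ε := min (ρ / 2) (dist x y / 10) with hε
  have hε0 : 0 < ε := lt_min (half_pos hρ) (by positivity)
  have hε1 : ε ≤ ρ / 2 := min_le_left _ _
  have hε2 : ε ≤ dist x y / 10 := min_le_right _ _
  obtain ⟨δ, hδ, h2⟩ := pos_all ((h.fin ε hε0).prod (h.fin ε hε0))
    (p := fun P t => ∀ a ∈ P.1, ∀ b ∈ P.2, dist a b ≤ t → P.1 = P.2) fun P hP => by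
      by_cases e : P.1 = P.2
      · exact ⟨1, one_pos, fun _ _ _ _ _ _ _ => e⟩
      obtain ⟨δ, h2, h3⟩ := (h.cpt _ hP.2.1).exists_cthickening_subset_open
        (h.cpt _ hP.1.1).isClosed.isOpen_compl
        (subset_compl_iff_disjoint_left.2 (h.disj hP.1.1 hP.2.1 e))
      exact ⟨δ, h2, fun t ht a ha b hb h4 =>
        absurd ha (h3 (mem_cthickening_of_dist_le a b δ _ hb (h4.trans ht)))⟩
  refine ⟨min δ ε, lt_min hδ hε0, fun W Q hQ h3 h4 => ?_⟩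
  have h5 : ∀ a ∈ Q, ∀ b ∈ Q, dist a b ≤ min δ ε := fun a ha b hb =>
    (dist_le_diam_of_mem hQ.isBounded ha hb).trans h3
  have h6 : ∀ q ∈ Q, ∀ K ∈ 𝒦, (K ∩ Q).Nonempty → diam K ≤ ε → K ⊆ closedBall q (2 * ε) := by
    rintro q hq K hK ⟨p, h6, h7⟩ h8 w hw
    have := dist_le_diam_of_mem (h.cpt K hK).isBounded hw h6
    have := (h5 p h7 q hq).trans (min_le_right _ _)
    have := dist_triangle w p q
    rw [mem_closedBall]
    linarith
  have h7 : ∀ q ∈ Q, Q ⊆ closedBall q (2 * ε) := fun q hq w hw => by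
    have := (h5 w hw q hq).trans (min_le_right _ _)
    rw [mem_closedBall]
    linarith
  have h8 : ∀ q, ¬ Q ∪ Uk 𝒦 W Q ⊆ closedBall q (dist x y / 5) := fun q e => by
    have h9 := h4.trans (fill_sub_closedBall e)
    have := mem_closedBall.1 (h9 hx)
    have := mem_closedBall.1 (h9 hy)
    have := dist_triangle_right x y q
    linarith
  by_cases h9 : ∃ K ∈ 𝒦, ε < diam K ∧ (K ∩ Q).Nonempty
  · obtain ⟨K, hK, h10, q, h11, h12⟩ := h9
    have h13 : Q ∪ Uk 𝒦 W Q ⊆ K ∪ closedBall q (2 * ε) := by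
      rintro w (hw | ⟨K', ⟨h13, -, p, h14, h15⟩, hw⟩)
      · exact .inr (h7 q h12 hw)
      rcases le_or_gt (diam K') ε with e | e
      · exact .inr (h6 q h12 K' h13 ⟨p, h14, h15⟩ e hw)
      · have h16 : K' = K := h2 (K', K) ⟨⟨h13, e⟩, hK, h10⟩ δ le_rfl p h14 q h11
          ((h5 p h15 q h12).trans (min_le_left _ _))
        exact .inl (h16 ▸ hw)
    rcases le_or_gt (diam K) (dist x y / 10) with e | e
    · refine h8 q (h13.trans (union_subset (fun w hw => ?_)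
        (closedBall_subset_closedBall (by linarith))))
      have := dist_le_diam_of_mem (h.cpt K hK).isBounded hw h11
      rw [mem_closedBall]
      linarith
    · exact h1 K ⟨hK, e⟩ (2 * ε) (by linarith) (h4.trans (fill_mono (h13.trans (union_subset
        (self_subset_cthickening K) (closedBall_subset_cthickening h11 _)))))
  · push Not at h9
    rcases Q.eq_empty_or_nonempty with rfl | ⟨q, hq⟩
    · refine h8 0 ?_
      rintro w (hw | ⟨K', ⟨-, -, p, -, h15⟩, -⟩)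
      exacts [hw.elim, h15.elim]
    refine h8 q (Subset.trans ?_ (closedBall_subset_closedBall (show 2 * ε ≤ _ by linarith)))
    rintro w (hw | ⟨K', ⟨h13, -, h14⟩, hw⟩)
    · exact h7 q hq hw
    · exact h6 q hq K' h13 h14 (not_lt.1 fun e => h14.ne_empty (h9 K' h13 e)) hw

end Det

open Det in
/-- **DETX** -/
theorem detx_ok : DETX := by
  intro Ω 𝒦 ho h D hD
  have hs : Sat 𝒦 Ω := ⟨ho, fun K hK => .inl (h.sub K hK)⟩
  by_cases hn : ∃ K ∈ 𝒦, D ⊆ K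
  · refine ⟨1, one_pos, fun T l hc ha hcov _ => iff_of_true ?_ hn⟩
    obtain ⟨K, hK, h1⟩ := hn
    obtain ⟨x, hx⟩ := (h.conn K hK).1
    obtain ⟨Q, h2, h3⟩ := hcov x (h.sub K hK hx)
    exact ex_of h hK h1 l _ _ hc ha hs disjoint_compl_right (h.sub K hK) ⟨Q, h2, x, hx, h3⟩
  · obtain ⟨δ, hδ, h1⟩ := key h hD fun K hK e => hn ⟨K, hK, e⟩
    exact ⟨δ, hδ, fun T l hc ha _ hl =>
      iff_of_false (of_ex h h1 l _ _ hc ha hs disjoint_compl_right hl) hn⟩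

theorem detx_of (_ : FILL) : DETX := detx_ok

end Vale.Agent.P155.Soup
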