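import Vale.Agent.P155I.Sk2
import Vale.Agent.P155Z.UL

/-!
# P155, block (I): the laws of nested CLE₄ form a soup family; the final statement
-/

set_option linter.all false

namespace Vale.Agent.P155.Soup

open MeasureTheory ProbabilityTheory Set Metric TopologicalSpace Filter Topology Vale.Agent.P155
  Vale.Agent.P155.Q1 Vale.Agent.P155.Tree Vale.Agent.P155.BL Vale.Agent.P155.Uq
open scoped NNReal ENNReal

/-- **SOUP** -/
theorem soup_of (hX : GX) (hP : PUB) (hLM : LM) : SOUP := by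
  intro μ hμ
  refine ⟨fun Ω hΩ => prob_of_nested (hμ Ω hΩ), fun Ω hΩ => simple_of ul hLM hΩ (hμ Ω hΩ), ?_⟩
  intro Ω hΩ W hW Θ mΘ P L hL
  obtain ⟨κ, h1, h2, h3, h4⟩ := hX μ hμ Ω hΩ
  obtain ⟨A, a1, a2, a3⟩ := (hP Ω hΩ W hW).2 Θ mΘ P L hL
  refine ⟨fun ω => κ (A ω), h1.comp a1, fun ω => h2 _, ?_, ?_⟩
  · rw [← h3, ← a2]
    ext s hs
    rw [Measure.bind_apply (f := fun ω => κ (A ω)) hs (h1.comp a1).aemeasurable,
      Measure.bind_apply hs h1.aemeasurable,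
      lintegral_map (f := fun G => κ G s) ((Measure.measurable_coe hs).comp h1) a1]
  · rw [← a2] at h4
    filter_upwards [a3, ae_of_ae_map a1.aemeasurable h4] with ω k1 k2
    exact ⟨k1.2, k1.1 ▸ k2⟩

/-- the final statement -/
theorem final_soup (hW : ∃ W, IsWiener W) (hP : PUB) (hT : SOUP) (hU : UQS) :
    ((∃ W, IsWiener W) ∧ ∀ W, IsWiener W → ∀ Ω, Dom Ω →
      ∃ (Θ : Type) (_ : MeasurableSpace Θ) (P : Measure Θ) (L : ℕ → Θ → C(S1, ℂ)),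
        IsPoisson P (intensity W Ω) L) ∧
    ∃ μ : Set ℂ → Measure LoopColl, IsSoupCLE μ ∧
      (∀ ν, IsSoupCLE ν → ∀ Ω, Dom Ω → ν Ω = μ Ω) ∧
      ∀ Ω, Dom Ω → (∃ S : Approx Ω, S.Outer) ∧
        ∀ S : Approx Ω, ((∀ F : LoopColl → ℝ, Continuous F → (∃ C, ∀ Γ, |F Γ| ≤ C) →
          Tendsto (fun n => Vale.Agent.P155.Ex (S.T n).V (fun ω => F (LL (S.δ n) (S.a n) ω))) atTop
            (𝓝 (∫ Γ, F Γ ∂(μ Ω)))) ↔ S.Outer) ∧ (IsConnected (closure Ω)ᶜ → S.Outer) := by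
  classical
  refine ⟨⟨hW, fun W h Ω hΩ => (hP Ω hΩ W h).1⟩, ?_⟩
  set μ : Set ℂ → Measure LoopColl := fun Ω =>
    if h : Dom Ω then (exists_nested h).choose else 0 with hμ
  have hn : ∀ Ω, Dom Ω → IsNestedCLE4 Ω (μ Ω) := by
    intro Ω hΩ
    simp only [hμ, dif_pos hΩ]
    exact (exists_nested hΩ).choose_spec
  refine ⟨μ, hT μ hn, fun ν hν Ω hΩ => hU ν μ hν (hT μ hn) Ω hΩ, fun Ω hΩ => ?_⟩
  obtain ⟨h1, μ', -, -, h3, h4⟩ := (QQ.exact_of NT613.vbp2).1 Ω hΩ.1 hΩ.2.1 hΩ.2.2.1 hΩ.2.2.2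
  refine ⟨h1, ?_⟩
  rw [h3 _ (hn Ω hΩ)]
  exact h4

end Vale.Agent.P155.Soup
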