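import Vale.Agent.P155I.FILL
import Vale.Agent.P155Z.UNIQ.Jor

/-!
# P155, block (I): the row GB
-/

namespace Vale.Agent.P155.Soup

open Set Metric TopologicalSpace Vale.Agent.P155 Vale.Agent.P155.Q1 Vale.Agent.P155.Geo
  Vale.Agent.P155.Tree

namespace Gb

/-- an arc does not separate the plane -/
theorem arc {c : AddCircle (1 : ℝ) → ℂ} (hc : Continuous c) (hi : Function.Injective c)
    {V : Set ℂ} (hV : IsOpen V) (hb : Bornology.IsBounded V) {z x : ℂ} (hz : z ∈ V)
    (hz' : z ∉ range c) (hf : frontier V ⊆ range c) (hx : x ∈ range c) (hx' : x ∉ frontier V) :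
    False := by
  obtain ⟨t₀, rfl⟩ := hx
  obtain ⟨t₀, rfl⟩ := QuotientAddGroup.mk_surjective t₀
  obtain ⟨M, -, hM, hM', -⟩ := UQ.lift (φ := fun t => c t - z) (hc.sub continuous_const)
    fun t e => hz' ⟨t, sub_eq_zero.1 e⟩
  have hcc : Continuous fun s : ℝ => c s := hc.comp (AddCircle.continuous_mk' 1)
  set T : Set ℝ := Icc t₀ (t₀ + 1) ∩ (fun s : ℝ => c s) ⁻¹' frontier V with hT
  have hTc : IsCompact T := isCompact_Icc.inter_right (isClosed_frontier.preimage hcc)
  have : CompactSpace T := isCompact_iff_compactSpace.1 hTc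
  have hI : ∀ s ∈ T, s ∈ Ico t₀ (t₀ + 1) := by
    refine fun s hs => ⟨hs.1.1, hs.1.2.lt_of_ne ?_⟩
    rintro rfl
    refine hx' ?_
    have h1 := hs.2
    rwa [mem_preimage, AddCircle.coe_add_period] at h1
  have he : Topology.IsClosedEmbedding fun s : T => c (s : ℝ) :=
    (hcc.comp continuous_subtype_val).isClosedEmbedding fun s s' e => Subtype.ext
      ((AddCircle.coe_eq_coe_iff_of_mem_Ico (hI _ s.2) (hI _ s'.2)).1 (hi e))
  obtain ⟨L, hL⟩ := ContinuousMap.exists_extension' he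
    (⟨fun s => M s, hM.comp continuous_subtype_val⟩ : C(T, ℂ))
  refine one_ne_zero (UQ.eil hV hb hz (a := 1) (h := fun _ => 1) (L := L) continuousOn_const
    (fun _ _ => one_ne_zero) L.continuous fun u hu => ?_)
  obtain ⟨t, rfl⟩ := hf hu
  obtain ⟨⟨s, hs⟩, rfl⟩ := (AddCircle.equivIco 1 t₀).symm.surjective t
  have h1 := congrFun hL ⟨s, Ico_subset_Icc_self hs, hu⟩
  simp only [Function.comp_apply, ContinuousMap.coe_mk] at h1
  rw [zpow_one, mul_one]
  exact (hM' s).symm.trans (congrArg Complex.exp h1.symm)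

variable {U : Set ℂ} {γ : PL}

theorem int_closure (ho : IsOpen U) (hb : Bornology.IsBounded U) (hne : U.Nonempty)
    (hJ : IsJordan γ (frontier U)) : interior (closure U) = U := by
  refine Subset.antisymm (fun x hx => ?_) (interior_maximal subset_closure ho)
  by_contra h
  obtain ⟨z, hz⟩ := hne
  refine arc γ.c.continuous hJ.1 isOpen_interior (hb.closure.subset interior_subset)
    (interior_maximal subset_closure ho hz) (x := x) ?_ ?_ ?_ ?_
  · rw [hJ.2, ho.frontier_eq]
    exact fun e => e.2 hz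
  · rw [hJ.2]
    exact frontier_interior_subset.trans frontier_closure_subset
  · rw [hJ.2, ho.frontier_eq]
    exact ⟨interior_subset hx, h⟩
  · rw [isOpen_interior.frontier_eq]
    exact fun e => e.2 hx

theorem fill_jordan (ho : IsOpen U) (hb : Bornology.IsBounded U) (hne : U.Nonempty)
    (hJ : IsJordan γ (frontier U)) : fill U = closure U := by
  refine Subset.antisymm (fun x hx => ?_) closure_sub_fill
  by_contra h
  obtain ⟨z, hz⟩ := hne
  have hP : IsOpen (connectedComponentIn (closure U)ᶜ x) :=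
    isClosed_closure.isOpen_compl.connectedComponentIn
  have hf : frontier (connectedComponentIn (closure U)ᶜ x) ⊆ range γ.c := by
    rw [hJ.2]
    refine (NT34.Y.frontier_comp isClosed_closure.isOpen_compl).trans ?_
    rw [frontier_compl]
    exact frontier_closure_subset
  by_cases e : range γ.c ⊆ frontier (connectedComponentIn (closure U)ᶜ x)
  · exact UQ.jordan_unique γ.c.continuous hJ.1 ho hP hb hx hJ.2 (e.antisymm hf) hz
      (mem_connectedComponentIn h) (disjoint_left.2 fun w hw hw' =>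
        connectedComponentIn_subset _ _ hw' (subset_closure hw))
  · obtain ⟨y, hy, hy'⟩ := not_subset.1 e
    exact arc γ.c.continuous hJ.1 hP hx (mem_connectedComponentIn h)
      (fun e' => h (frontier_subset_closure (hJ.2 ▸ e'))) hf hy hy'

theorem kk_eq {Ω W Q G : Set ℂ} (hW : Sat (closure '' {U | IsHole Ω G U}) W) (hWΩ : W ⊆ Ω) :
    SWR.KK W Q G = Q ∪ Uk (closure '' {U | IsHole Ω G U}) W Q := by
  have key : ∀ U, IsHole Ω G U → U ⊆ W → IsHole W G U := by
    intro U hU h
    obtain ⟨x, hx⟩ := (hole_conn hU).1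
    have h1 : U ⊆ W \ G := fun w hw => ⟨h hw, (hole_sub hU hw).2⟩
    exact ⟨x, h1 hx, ((hole_conn hU).2.subset_connectedComponentIn hx h1).antisymm
      (sub_hole hU isPreconnected_connectedComponentIn ((connectedComponentIn_subset _ _).trans
        (sdiff_subset_sdiff_left hWΩ)) (mem_connectedComponentIn (h1 hx)) hx)⟩
  unfold SWR.KK Uk
  congr 2
  ext C
  constructor
  · rintro ⟨H, hH, h1, rfl⟩
    obtain ⟨x, hx⟩ := (hole_conn hH).1
    have h2 : x ∈ Ω \ G := sdiff_subset_sdiff_left hWΩ (hole_sub hH hx)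
    have h3 : IsHole Ω G (connectedComponentIn (Ω \ G) x) := ⟨x, h2, rfl⟩
    have h4 := (hW.2 _ ⟨_, h3, rfl⟩).resolve_right fun h => disjoint_left.1 h
      (subset_closure (mem_connectedComponentIn h2)) (hole_sub hH hx).1
    rw [hole_meet hH (key _ h3 (subset_closure.trans h4)) hx (mem_connectedComponentIn h2)]
      at h1 ⊢
    exact ⟨⟨_, h3, rfl⟩, h4, h1⟩
  · rintro ⟨⟨U, hU, rfl⟩, h1, h2⟩
    exact ⟨U, key U hU (subset_closure.trans h1), h2, rfl⟩

theorem cons {Ω G : Set ℂ} : ∀ (l : List (Set ℂ)) (A : Set ℂ), Ωᶜ ⊆ A →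
    Cons (Tg G) (closure '' {U | IsHole Ω G U}) l A
  | [], _, _ => trivial
  | _ :: l, _, h => ⟨fun _ hW hd => congrArg fill (kk_eq hW fun _ hx =>
      not_not.1 fun e => disjoint_left.1 hd hx (h e)), cons l _ (h.trans subset_union_left)⟩

end Gb

open Gb in
/-- **GB** -/
theorem gb_ok : GB := by
  intro Ω G hΩ hG
  have ho : ∀ U, IsHole Ω G U → IsOpen U := fun U hU =>
    CI.Holes.hole_open hΩ.1 G.isCompact.isClosed hU
  have hb : ∀ U, IsHole Ω G U → Bornology.IsBounded U := fun U hU =>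
    hΩ.2.1.subset (CI.Holes.hole_sub hU)
  refine ⟨⟨?_, ?_, ?_, ?_, ?_, fun ε hε => ((hG.nice.fin ε hε).image closure).subset ?_⟩,
    fun U hU => ?_, fun l => cons l _ subset_rfl⟩
  · rintro _ ⟨U, hU, rfl⟩
    exact (hb U hU).isCompact_closure
  · rintro _ ⟨U, hU, rfl⟩
    exact (hole_conn hU).closure
  · rintro _ ⟨U, hU, rfl⟩
    obtain ⟨γ, hγ⟩ := hG.jor U hU
    rw [← fill_jordan (ho U hU) (hb U hU) (hole_conn hU).1 hγ]
    exact fill_compl_preconn (hb U hU)
  · rintro _ ⟨U, hU, rfl⟩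
    exact hG.nice.inside U hU
  · rintro _ ⟨U, hU, rfl⟩ _ ⟨U', hU', rfl⟩ hne
    exact hG.nice.disj U U' hU hU' fun e => hne (e ▸ rfl)
  · rintro _ ⟨⟨U, hU, rfl⟩, h⟩
    exact ⟨U, ⟨hU, by rwa [diam_closure] at h⟩, rfl⟩
  · obtain ⟨γ, hγ⟩ := hG.jor U hU
    exact int_closure (ho U hU) (hb U hU) (hole_conn hU).1 hγ

theorem gb_of (_ : FILL) : GB := gb_ok

end Vale.Agent.P155.Soup
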