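import Vale.Agent.P155I.Sk2

/-!
# P155, block (I): the row GOOD
-/

namespace Vale.Agent.P155.Soup

open MeasureTheory Set Vale.Agent.P155 Vale.Agent.P155.Tree Vale.Agent.P155.BL
  Vale.Agent.P155S.Poi

/-- **GOOD** -/
theorem good_of (hB : BLP) (h1 : S1X) (h2 : S2X) (hR : RA) (hL : LIST) : GOOD := by
  intro P hP Ω hΩ
  have h3 : ∀ᵐ w : Cf CL ∂P, ∀ γ : CL, γ ∈ pts w →
      range γ ⊆ closure (interior (fill (range γ))) := by
    obtain ⟨W, hW, hP⟩ := hP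
    obtain ⟨B, h3, h4, h5⟩ := exists_measurable_superset_of_null (ae_iff.1 (hB W hW))
    filter_upwards [hP.null h4 (by rw [nu, Measure.smul_apply, h5, smul_zero])] with w hw γ hγ
    by_contra hc
    exact disjoint_left.1 ((N_eq_zero h4).1 hw) hγ (h3 hc)
  have h4 : ∀ᵐ w ∂P, ∀ A ∈ FU, IsPreconnected (Ωᶜ ∪ A) → Reg (pts w) Ω A := by
    refine (ae_ball_iff hL.1).2 fun A hA => ?_
    by_cases h : IsPreconnected (Ωᶜ ∪ A)
    · exact (hR P hP Ω A hΩ (hL.2.1 A hA).1 h).mono fun _ e _ => e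
    · exact ae_of_all _ fun _ e => absurd e h
  filter_upwards [h3, h1 P hP Ω hΩ, h2 P hP Ω hΩ, h4] with w a b c d
  exact ⟨a, b, c, d⟩

end Vale.Agent.P155.Soup
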