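import Vale.Agent.P155I.GS
import Vale.Agent.P155Z.Final
import Vale.Agent.P155.Ex795.Meas

/-!
# P155, block (I): nested CLE₄ given its first carpet
-/

set_option linter.all false

namespace Vale.Agent.P155.Soup

open MeasureTheory ProbabilityTheory Set Metric TopologicalSpace Filter Topology Vale.Agent.P155
  Vale.Agent.P155.Q1 Vale.Agent.P155.Tree Vale.Agent.P155.BL Vale.Agent.P155.Uq
open scoped NNReal ENNReal

namespace Gx

/-- mixtures preserve `Given` -/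
theorem mix {μ : Set ℂ → Measure LoopColl} {𝒱 𝒮 : Set (Set ℂ)} (hc : 𝒱.Countable)
    (ho : ∀ V ∈ 𝒱, IsOpen V) {S : Type} [MeasurableSpace S] {η : Measure S}
    [IsProbabilityMeasure η] {κ : S → Measure LoopColl} (mκ : Measurable κ)
    (hκ : ∀ s, IsProbabilityMeasure (κ s)) (h : ∀ᵐ s ∂η, Given μ (κ s) 𝒱 𝒮) :
    Given μ (η.bind κ) 𝒱 𝒮 := by
  obtain ⟨s₀, h₀⟩ := h.exists
  have := lm.1
  have := lm.2.1
  have hp : IsProbabilityMeasure (η.bind κ) := ⟨by
    rw [Measure.bind_apply MeasurableSet.univ mκ.aemeasurable]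
    simp⟩
  have mi : ∀ V ∈ 𝒱, Measurable fun Γ => NCLE.inside Γ V := fun V hV =>
    (lm.2.2.2.2.1 V (ho V hV)).2
  have law : ∀ V ∈ 𝒱, (η.bind κ).map (fun Γ => NCLE.inside Γ V) = μ V := by
    intro V hV
    ext A hA
    rw [Measure.map_apply (mi V hV) hA, Measure.bind_apply (mi V hV hA) mκ.aemeasurable,
      lintegral_congr_ae (g := fun _ => μ V A) (h.mono fun s k => by
        beta_reduce
        rw [← (k.law V hV).2, Measure.map_apply (mi V hV) hA])]
    simp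
  refine ⟨h₀.jordan, ?_, fun m V hV hV' => ?_, fun V hV => ⟨(mi V hV).aemeasurable, law V hV⟩⟩
  · have := hκ s₀
    obtain ⟨Γ₁, h1⟩ := h₀.loops.exists
    have mo : MeasurableSet[borel Loop] (UQ.outs 𝒱) := by
      let : MeasurableSpace Loop := borel Loop
      have : BorelSpace Loop := ⟨rfl⟩
      have e : UQ.outs 𝒱 = ⋂ V ∈ 𝒱, {l | NCLE.LIn l V}ᶜ := by
        ext l
        simp [UQ.outs]
      rw [e]
      exact MeasurableSet.biInter hc fun V hV => (lm.2.2.2.2.1 V (ho V hV)).1.measurableSet.compl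
    have mE : MeasurableSet {Γ | res (UQ.outs 𝒱) Γ = res (UQ.outs 𝒱) Γ₁} :=
      lm.2.2.2.1 _ mo (measurableSet_singleton _)
    have key : ∀ᵐ Γ ∂(η.bind κ), res (UQ.outs 𝒱) Γ = res (UQ.outs 𝒱) Γ₁ := by
      rw [ae_iff, ← compl_setOf, Measure.bind_apply mE.compl mκ.aemeasurable,
        lintegral_congr_ae (g := fun _ => 0) (h.mono fun s k => ?_), lintegral_zero]
      refine k.loops.mono fun Γ k' => ?_
      ext l
      by_cases hl : l ∈ UQ.outs 𝒱
      · simp only [res, if_pos hl]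
        rw [k' l hl, h1 l hl]
      · simp only [res, if_neg hl]
    filter_upwards [key] with Γ k l hl
    have := congrArg (fun Γ : LoopColl => Γ.mult l) k
    simp only [res, if_pos (show l ∈ UQ.outs 𝒱 from hl)] at this
    rw [this, h1 l hl]
  · refine iIndepFun_iff_measure_inter_preimage_eq_mul.2 fun T A hA => ?_
    rw [Measure.bind_apply (T.measurableSet_biInter fun i hi => mi _ (hV' i) (hA i hi))
      mκ.aemeasurable, lintegral_congr_ae (g := fun _ => ∏ i ∈ T, μ (V i) (A i))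
      (h.mono fun s k => ?_)]
    · rw [lintegral_const, measure_univ, mul_one]
      refine Finset.prod_congr rfl fun i hi => ?_
      rw [← law _ (hV' i), Measure.map_apply (mi _ (hV' i)) (hA i hi)]
    · beta_reduce
      rw [iIndepFun_iff_measure_inter_preimage_eq_mul.1 (k.indep m V hV hV') T hA]
      refine Finset.prod_congr rfl fun i hi => ?_
      rw [← (k.law _ (hV' i)).2, Measure.map_apply (mi _ (hV' i)) (hA i hi)]

theorem holes_countable {Ω : Set ℂ} (ho : IsOpen Ω) (K : NC) : {V | IsHole Ω K V}.Countable :=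
  (countable_range fun i => NCLE.hole Ω K (denseSeq ℂ i)).mono fun V hV =>
    mem_range.2 ⟨idx V, Glx.hole_eq hV (Glx.idx_mem ho hV)⟩

theorem height_one (Ω : Set ℂ) (G : ℕ → NC) (ξ : ℕ → ℕ → ℝ) (z : ℂ) :
    height Ω G ξ 1 z = open Classical in
      if z ∈ Ω \ G 1 then ξ 1 (idx (connectedComponentIn (Ω \ G 1) z)) else 0 := by
  unfold height
  rw [Finset.Icc_self, Finset.sum_singleton]

/-- the height of the first level -/
noncomputable def hh (Ω : Set ℂ) (Fr : NC) (p : NC × (ℕ → ℝ)) (z : ℂ) : ℝ :=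
  height Ω (fun _ => p.1 ⊔ Fr) (fun _ i => p.2 i) 1 z

section

variable {Ω : Set ℂ} {Fr : NC}

theorem sup_eq (hF : (Fr : Set ℂ) = frontier Ω) {K : NC} (k : frontier Ω ⊆ (K : Set ℂ)) :
    K ⊔ Fr = K := SetLike.coe_injective (union_eq_left.2 (hF ▸ k))

theorem m1 (Fr : NC) (k : ℕ) : Measurable fun p : NC × (ℕ → ℝ) => p.1 ⊔ Fr :=
  Ex795.meas_sup measurable_fst Fr

theorem m2 (hF : (Fr : Set ℂ) = frontier Ω) (k : ℕ) (p : NC × (ℕ → ℝ)) :
    frontier Ω ⊆ ((p.1 ⊔ Fr : NC) : Set ℂ) := hF ▸ subset_union_right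

theorem m3 (k i : ℕ) : Measurable fun p : NC × (ℕ → ℝ) => p.2 i :=
  (measurable_pi_apply i).comp measurable_snd

theorem mh (ho : IsOpen Ω) (hF : (Fr : Set ℂ) = frontier Ω) :
    Measurable fun q : (NC × (ℕ → ℝ)) × ℂ => hh Ω Fr q.1 q.2 := by
  have h1 : Measurable fun q : ℂ × (NC × (ℕ → ℝ)) => hh Ω Fr q.2 q.1 :=
    Ex795.measurable_height_joint (G := fun _ (p : NC × (ℕ → ℝ)) => p.1 ⊔ Fr)
      (ξ := fun _ i (p : NC × (ℕ → ℝ)) => p.2 i) ho (m1 Fr) (m2 hF) m3 1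
  exact h1.comp (f := fun q : (NC × (ℕ → ℝ)) × ℂ => (q.2, q.1))
    (measurable_snd.prodMk measurable_fst)

theorem hv (hF : (Fr : Set ℂ) = frontier Ω) {p : NC × (ℕ → ℝ)} (k : GoodG Ω p.1) {z : ℂ}
    (hz : z ∈ Ω \ (p.1 : Set ℂ)) :
    hh Ω Fr p z = p.2 (idx (connectedComponentIn (Ω \ p.1) z)) := by
  rw [hh, height_one, sup_eq hF k.carp.2.1, if_pos hz]

theorem typed (ho : IsOpen Ω) (hF : (Fr : Set ℂ) = frontier Ω) {p : NC × (ℕ → ℝ)}
    (k1 : GoodG Ω p.1) (k2 : ∀ i, p.2 i = 1 ∨ p.2 i = -1) : Typed Ω p.1 (hh Ω Fr p) := by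
  refine ⟨k1.carp, k1.null, (mh ho hF).of_uncurry_left (f := hh Ω Fr), fun z => ?_,
    fun z hz => ?_⟩
  · rw [hh, height_one]
    split_ifs
    · exact .inr (k2 _)
    · exact .inl rfl
  · filter_upwards [((ho.sdiff p.1.isCompact.isClosed).connectedComponentIn (x := z)).mem_nhds
      (mem_connectedComponentIn hz)] with w hw
    rw [hv hF k1 hz, hv hF k1 (connectedComponentIn_subset _ _ hw), connectedComponentIn_eq hw]

theorem loc (ho : IsOpen Ω) (hF : (Fr : Set ℂ) = frontier Ω) {Θ : Type} [MeasurableSpace Θ]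
    {P : Measure Θ} {G : ℕ → Θ → NC} {ξ : ℕ → ℕ → Θ → ℝ} (hf : T211Q.FairCarpets P Ω G ξ) :
    Loc (P.map fun x => ((G 1 x, fun i => ξ 1 i x) : NC × (ℕ → ℝ))) Ω Prod.fst (hh Ω Fr) := by
  intro φ hφ
  have hP := hf.prob
  have mf : Measurable fun x => ((G 1 x, fun i => ξ 1 i x) : NC × (ℕ → ℝ)) :=
    (hf.mG 1).prodMk (measurable_pi_lambda _ (hf.mξ 1))
  have a1 : Measurable fun p => ∫ z, hh Ω Fr p z * φ z :=
    Ex795.meas_height ho (m1 Fr) (m2 hF) m3 1 hφ
  have a2 : Measurable fun p : NC × (ℕ → ℝ) => greenEnergy (Ω \ (p.1 : Set ℂ)) φ :=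
    (Glue.meas_green Ω φ).comp measurable_fst
  have a0 : Measurable fun p : NC × (ℕ → ℝ) => Complex.exp (Complex.I * cst *
      (∫ z, hh Ω Fr p z * φ z : ℝ) - greenEnergy (Ω \ (p.1 : Set ℂ)) φ / 2) :=
    Complex.measurable_exp.comp (((Complex.measurable_ofReal.comp a1).const_mul _).sub
      ((Complex.measurable_ofReal.comp a2).div_const _))
  rw [integral_map mf.aemeasurable a0.aestronglyMeasurable]
  have a3 := hf.sc.gff 0 0 (fun i => i.elim0) φ (fun i => i.elim0) hφ (fun _ => 1)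
    continuous_const ⟨1, fun _ => by simp⟩
  have a4 : ∫ x, ((1 : ℝ) : ℂ) * Complex.exp (-greenEnergy (Ω \ G 0 x) φ / 2) ∂P =
      Complex.exp (-greenEnergy Ω φ / 2) := by
    rw [integral_congr_ae (g := fun _ => Complex.exp (-greenEnergy Ω φ / 2))]
    · simp
    · filter_upwards [hf.sc.zero] with x hx
      rw [hx.1, ho.frontier_eq, show Ω \ (closure Ω \ Ω) = Ω from
        sdiff_eq_left.2 disjoint_sdiff_self_right]
      simp
  rw [← a4, ← a3]
  refine integral_congr_ae ?_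
  filter_upwards [hf.sc.zero, hf.sc.mono] with x hx hx'
  have a5 : G 1 x ⊔ Fr = G 1 x := sup_eq hF (hx.1 ▸ (hx' 0).1)
  have a6 : ∀ z, hh Ω Fr (G 1 x, fun i => ξ 1 i x) z =
      height Ω (fun j => G j x) (fun j i => ξ j i x) 1 z := fun z => by
    rw [hh, height_one, height_one, a5]
  have a7 := hx.2 φ hφ
  beta_reduce at a7 ⊢
  simp only [a6, a7, zero_add, cst]
  simp

end

theorem disint {μ : Set ℂ → Measure LoopColl} {Ω : Set ℂ} (ho : IsOpen Ω)
    {P₀ : Measure (NC × (ℕ → ℝ))} [IsProbabilityMeasure P₀] {κ : NC × (ℕ → ℝ) → Measure LoopColl}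
    (mκ : Measurable κ) (hκ : ∀ p, IsProbabilityMeasure (κ p))
    (hG : ∀ᵐ p ∂P₀, Given μ (κ p) {V | IsHole Ω p.1 V} {V | IsHole Ω p.1 V}) :
    ∃ κ' : NC → Measure LoopColl, Measurable κ' ∧ (∀ G, IsProbabilityMeasure (κ' G)) ∧
      P₀.fst.bind κ' = P₀.bind κ ∧
      ∀ᵐ G : NC ∂P₀.fst, Given μ (κ' G) {V | IsHole Ω G V} {V | IsHole Ω G V} := by
  have dis : P₀.fst ⊗ₘ P₀.condKernel = P₀ := P₀.disintegrate _
  have mk : ∀ K : NC, Measurable fun σ : ℕ → ℝ => κ (K, σ) := fun K =>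
    mκ.comp measurable_prodMk_left
  have ap : ∀ (K : NC) (A : Set LoopColl), MeasurableSet A →
      ((P₀.condKernel K).bind fun σ => κ (K, σ)) A = ∫⁻ σ, κ (K, σ) A ∂P₀.condKernel K :=
    fun K A hA => Measure.bind_apply hA (mk K).aemeasurable
  have mκ' : Measurable fun K : NC => (P₀.condKernel K).bind fun σ => κ (K, σ) :=
    Measure.measurable_of_measurable_coe _ fun A hA => by
      simp only [ap _ A hA]
      exact ((Measure.measurable_coe hA).comp mκ).lintegral_kernel_prod_right'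
  refine ⟨_, mκ', fun K => ⟨by simp [ap K _ MeasurableSet.univ]⟩, ?_, ?_⟩
  · ext A hA
    rw [Measure.bind_apply hA mκ'.aemeasurable, Measure.bind_apply hA mκ.aemeasurable]
    simp only [ap _ A hA]
    conv_rhs => rw [← dis]
    exact (Measure.lintegral_compProd ((Measure.measurable_coe hA).comp mκ)).symm
  · rw [← dis] at hG
    filter_upwards [Measure.ae_ae_of_ae_compProd hG] with K hK
    exact mix (holes_countable ho K) (fun V hV => Glx.isOpen_hole ho hV) (mk K)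
      (fun σ => hκ _) hK

end Gx

open Gx in
/-- **GX** -/
theorem gx : GX := by
  intro μ hμ Ω hΩ
  obtain ⟨Θ, m, P, G, ξ, hf⟩ := fair_of (hμ Ω hΩ)
  have hP := hf.prob
  obtain ⟨Fr, hF⟩ : ∃ Fr : NC, (Fr : Set ℂ) = frontier Ω :=
    ⟨⟨⟨frontier Ω, hΩ.2.1.isCompact_closure.of_isClosed_subset isClosed_frontier
      frontier_subset_closure⟩, (topo.1 Ω hΩ).1.nonempty⟩, rfl⟩
  have mf : Measurable fun x => ((G 1 x, fun i => ξ 1 i x) : NC × (ℕ → ℝ)) :=
    (hf.mG 1).prodMk (measurable_pi_lambda _ (hf.mξ 1))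
  have hl := loc hΩ.1 hF hf
  have g2 : ∀ᵐ p ∂(P.map fun x => ((G 1 x, fun i => ξ 1 i x) : NC × (ℕ → ℝ))),
      ∀ i, p.2 i = 1 ∨ p.2 i = -1 := by
    rw [ae_map_iff mf.aemeasurable]
    · exact ae_of_all _ fun x i => hf.pm 1 i x
    · rw [setOf_forall]
      exact MeasurableSet.iInter fun i => (measurableSet_eq_fun (m3 0 i) measurable_const).union
        (measurableSet_eq_fun (m3 0 i) measurable_const)
  have e1 : (P.map fun x => ((G 1 x, fun i => ξ 1 i x) : NC × (ℕ → ℝ))).fst = L1 Ω := by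
    rw [← Gs.l1_eq hΩ hf.sc, Measure.fst, Measure.map_map measurable_fst mf]
    rfl
  have hp := Measure.isProbabilityMeasure_map (μ := P) mf.aemeasurable
  generalize (P.map fun x => ((G 1 x, fun i => ξ 1 i x) : NC × (ℕ → ℝ))) = P₀ at hl g2 e1 hp
  have g1 : ∀ᵐ p ∂P₀, GoodG Ω p.1 := by
    have := (gs Ω hΩ).2.2.1
    rw [← e1] at this
    exact ae_of_ae_map measurable_fst.aemeasurable this
  obtain ⟨κ, mκ, hκ, hb, hG⟩ := glx ul ul2 (model exists_canon_DD) μ hμ Ω hΩ _ inferInstance P₀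
    Prod.fst (hh Ω Fr) hp measurable_fst (mh hΩ.1 hF)
    ((g1.and g2).mono fun p k => typed hΩ.1 hF k.1 k.2) hl
  rw [← e1, ← hb]
  refine disint hΩ.1 mκ hκ ?_
  filter_upwards [hG, g1, g2] with p k1 k2 k3
  have : {V | IsHole Ω p.1 V ∧ ∀ z ∈ V, hh Ω Fr p z ≠ 0} = {V | IsHole Ω p.1 V} := by
    ext V
    refine ⟨fun k => k.1, fun k => ⟨k, fun z hz => ?_⟩⟩
    rw [hv hF k2 (Glx.hole_sub k hz)]
    rcases k3 (idx (connectedComponentIn (Ω \ p.1) z)) with e | e <;> rw [e] <;> norm_num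
  rwa [this] at k1

end Vale.Agent.P155.Soup
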