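import Vale.Agent.P155I.TK
import Vale.Agent.P155H.Fill

/-!
# P155, block (I): laws of fillings
-/

namespace Vale.Agent.P155.Soup

open MeasureTheory Set Metric TopologicalSpace Filter Topology Vale.Agent.P155
  Vale.Agent.P155.Q1 Vale.Agent.P155.Tree Vale.Agent.P155.Uq Vale.Agent.P155.Geo

variable {X X' : Type} [MeasurableSpace X] [MeasurableSpace X'] {P : Measure X} {P' : Measure X'}

theorem ms_cyl {ι : Type} (s : Finset ι) : MeasurableSet {y : ι → Prop | ∀ i ∈ s, y i} := by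
  have : {y : ι → Prop | ∀ i ∈ s, y i} = ⋂ i ∈ s, {y | y i} := by
    ext
    simp
  rw [this]
  exact s.measurableSet_biInter fun i _ => measurableSet_setOfPred.2 (measurable_pi_apply i)

theorem law2 {ι : Type} [IsProbabilityMeasure P] [IsProbabilityMeasure P'] {Y : X → ι → Prop}
    {Y' : X' → ι → Prop} (hY : Measurable Y) (hY' : Measurable Y')
    (h : ∀ s : Finset ι, P {x | ∀ i ∈ s, Y x i} = P' {x | ∀ i ∈ s, Y' x i}) :
    P.map Y = P'.map Y' := by
  classical
  refine ext_of_generate_finite (range fun s : Finset ι => {y : ι → Prop | ∀ i ∈ s, y i})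
    (le_antisymm ?_ (MeasurableSpace.generateFrom_le ?_)) ?_ ?_ ?_
  · refine iSup_le fun i => Measurable.comap_le (@measurable_to_prop _ (_) _ ?_)
    exact MeasurableSpace.measurableSet_generateFrom ⟨{i}, by ext; simp⟩
  · rintro _ ⟨s, rfl⟩
    exact ms_cyl s
  · rintro _ ⟨s, rfl⟩ _ ⟨t, rfl⟩ -
    exact ⟨s ∪ t, by ext; simp [or_imp, forall_and]⟩
  · rintro _ ⟨s, rfl⟩
    rw [Measure.map_apply hY (ms_cyl s), Measure.map_apply hY' (ms_cyl s)]
    exact h s
  · rw [Measure.map_apply hY .univ, Measure.map_apply hY' .univ]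
    simp

theorem Hit.nc' {F : X → Set ℂ} (h : Hit F) (hc : ∀ x, IsCompact (F x)) :
    Measurable fun x => toNC (F x) := by
  refine NT733.YM.meas_of_hit fun O hO => ms_congr ((h O hO).union
    ((h _ isOpen_univ).compl.inter (MeasurableSet.const ((0 : ℂ) ∈ O)))) fun x => ?_
  show _ ↔ (F x ∩ O).Nonempty ∨ ¬ (F x ∩ univ).Nonempty ∧ (0 : ℂ) ∈ O
  rw [inter_univ]
  by_cases hn : (F x).Nonempty
  · simp [coe_toNC (hc x) hn, hn]
  · rw [toNC, dif_neg fun h => hn h.2]
    exact singleton_inter_nonempty.trans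
      ⟨fun h => Or.inr ⟨hn, h⟩, fun h => h.elim (fun h => (hn h.left).elim) And.right⟩

theorem law3 {ι : Type} [Countable ι] {K : Set ℂ} {O : ι → Set ℂ} (hK : IsCompact K)
    (hO : ∀ i, IsOpen (O i)) : Measurable fun y : ι → Prop => toNC (K \ ⋃ i ∈ {i | y i}, O i) := by
  have o (y : ι → Prop) : IsOpen (⋃ i ∈ {i | y i}, O i) := isOpen_biUnion fun i _ => hO i
  refine Hit.nc' (fun U hU => ?_) fun y => hK.diff (o y)
  obtain ⟨F, f1, f2, f3, -⟩ := hU.exists_iUnion_isClosed
  refine ms_congr (ms_all fun n => ms_ex fun s : Finset ι => (ms_cyl s).inter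
    (MeasurableSet.const (K ∩ F n ⊆ ⋃ i ∈ s, O i))).compl fun y => ⟨fun ⟨z, h1, h2⟩ h => ?_,
      fun h => by_contra fun h' => h fun n => ?_⟩
  · obtain ⟨n, hn⟩ := mem_iUnion.1 (f3.symm.subset h2)
    obtain ⟨s, s1, s2⟩ := h n
    obtain ⟨i, hi, h3⟩ := mem_iUnion₂.1 (s2 ⟨h1.1, hn⟩)
    exact h1.2 (mem_biUnion (s1 i hi) h3)
  · obtain ⟨b, b1, b2, b3⟩ := (hK.inter_right (f1 n)).elim_finite_subcover_image
      (b := {i | y i}) (c := O) (fun i _ => hO i) fun z hz => by_contra fun h3 =>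
        h' ⟨z, ⟨hz.1, h3⟩, f2 n hz.2⟩
    exact ⟨b2.toFinset, fun i hi => b1 (b2.mem_toFinset.1 hi), by simpa using b3⟩

theorem closed_Dq (s : Finset (ℕ × ℕ)) : IsClosed (Dq s) :=
  isClosed_biUnion_finset fun _ _ => isClosed_closedBall

theorem fill_eq_diff {U : Set ℂ} {M : ℝ} (hM : 0 < M) (h : U ⊆ ball 0 M) : fill U =
    closedBall 0 M \ ⋃ i ∈ {i : {s // IsPreconnected ((ball (0 : ℂ) (M + 1))ᶜ ∪ Dq s)} |
      Disjoint (closure U) ((ball 0 (M + 1))ᶜ ∪ Dq i.1)}, interior ((ball 0 (M + 1))ᶜ ∪ Dq i.1) := by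
  classical
  have hb : Bornology.IsBounded U := isBounded_ball.subset h
  have h1 : fill U ⊆ closedBall 0 M := fill_sub_closedBall (h.trans ball_subset_closedBall)
  have h2 : closedBall (0 : ℂ) M ⊆ ball 0 (M + 1) := closedBall_subset_ball (lt_add_one M)
  refine Subset.antisymm (fun z hz => ⟨h1 hz, fun h3 => ?_⟩) fun z hz => by_contra fun h3 => hz.2 ?_
  · obtain ⟨i, hi, h4⟩ := mem_iUnion₂.1 h3
    refine disj_fill i.2 (fun h5 => NormedSpace.unbounded_univ ℝ ℂ ?_)
      (subset_compl_iff_disjoint_left.2 hi) (interior_subset h4) hz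
    rw [← union_compl_self (ball 0 (M + 1))]
    exact isBounded_ball.union (h5.subset subset_union_left)
  · have ho : IsOpen (fill U)ᶜ := isClosed_fill.isOpen_compl
    have e1 : ((M + 1 : ℝ) : ℂ) ∈ (ball (0 : ℂ) (M + 1))ᶜ := by
      rw [mem_compl_iff, mem_ball_zero_iff, Complex.norm_real, Real.norm_of_nonneg (by linarith)]
      exact lt_irrefl _
    have e2 : ((M + 1 : ℝ) : ℂ) ∈ (fill U)ᶜ := fun h => e1 (h2 (h1 h))
    obtain ⟨s, s1, s2, s3, s4⟩ := (mem_comp ho).1
      ((fill_compl_preconn hb).subset_connectedComponentIn e2 subset_rfl h3)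
    obtain ⟨δ, hδ, hd⟩ := Metric.isOpen_iff.1 ho z h3
    obtain ⟨k, hk⟩ := exists_nat_one_div_lt (half_pos hδ)
    obtain ⟨i, hi⟩ := ex_q isOpen_ball ⟨z, mem_ball_self (Nat.one_div_pos_of_nat (n := k))⟩
    have e : Dq (insert (i, k) s) = closedBall (denseSeq ℂ i) (1 / (k + 1)) ∪ Dq s :=
      Finset.set_biUnion_insert _ _ _
    have h4 := ball_subset_closedBall (mem_ball_comm.1 hi)
    refine mem_biUnion (x := ⟨insert (i, k) s, (dom_compl_conn (dom_ball (by linarith))).2.union _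
      e1 (e ▸ Or.inr s3) (e ▸ (convex_closedBall _ _).isPreconnected.union z h4 s4 s2)⟩) ?_ ?_
    · refine (subset_compl_iff_disjoint_left.1 (union_subset (compl_subset_compl.2 (h1.trans h2))
        (e.subset.trans (union_subset ((closedBall_subset_ball' ?_).trans hd) s1)))).mono_left
        closure_sub_fill
      linarith [mem_ball.1 hi]
    · exact interior_maximal (ball_subset_closedBall.trans
        ((subset_union_left.trans e.symm.subset).trans subset_union_right)) isOpen_ball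
        (mem_ball_comm.1 hi)

theorem law1 [IsProbabilityMeasure P] [IsProbabilityMeasure P'] {U : X → Set ℂ} {U' : X' → Set ℂ}
    {M : ℝ} (hU : Hit U) (hU' : Hit U') (h1 : ∀ x, (U x).Nonempty ∧ U x ⊆ ball 0 M)
    (h2 : ∀ x, (U' x).Nonempty ∧ U' x ⊆ ball 0 M)
    (h : ∀ R, IsClosed R → IsPreconnected R → (ball 0 (M + 1))ᶜ ⊆ R →
      P {x | Disjoint (closure (U x)) R} = P' {x | Disjoint (closure (U' x)) R}) :
    P.map (fun x => toNC (fill (U x))) = P'.map fun x => toNC (fill (U' x)) := by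
  obtain ⟨x0⟩ := nonempty_of_isProbabilityMeasure P
  have hM : 0 < M := nonempty_ball.1 ((h1 x0).1.mono (h1 x0).2)
  let ι := {s // IsPreconnected ((ball (0 : ℂ) (M + 1))ᶜ ∪ Dq s)}
  have c (i : ι) : IsClosed ((ball (0 : ℂ) (M + 1))ᶜ ∪ Dq i.1) :=
    isOpen_ball.isClosed_compl.union (closed_Dq _)
  have m {X : Type} [MeasurableSpace X] {U : X → Set ℂ} (hU : Hit U) : Measurable
      fun x (i : ι) => Disjoint (closure (U x)) ((ball 0 (M + 1))ᶜ ∪ Dq i.1) :=
    measurable_pi_lambda _ fun i => measurableSet_setOfPred.1 (hU.disj (c i))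
  have hp := (dom_compl_conn (dom_ball (c := 0) (by linarith : 0 < M + 1)))
  have e (s : Finset ι) {A : Set ℂ} (hA : A ⊆ ball 0 M) :
      (∀ i ∈ s, Disjoint (closure A) ((ball 0 (M + 1))ᶜ ∪ Dq i.1)) ↔ Disjoint (closure A)
        ((ball 0 (M + 1))ᶜ ∪ ⋃ i ∈ s, ((ball 0 (M + 1))ᶜ ∪ Dq i.1)) := by
    rw [disjoint_union_right, disjoint_iUnion₂_right, and_iff_right]
    exact disjoint_compl_right_iff_subset.2 ((closure_minimal (hA.trans ball_subset_closedBall)
      isClosed_closedBall).trans (closedBall_subset_ball (lt_add_one M)))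
  have key := law2 (P := P) (P' := P') (m hU) (m hU') fun s => by
    simp only [fun x => e s (h1 x).2, fun x => e s (h2 x).2]
    obtain ⟨z, hz⟩ := hp.1
    refine h _ (isOpen_ball.isClosed_compl.union (isClosed_biUnion_finset fun i _ => c i))
      (isPreconnected_of_forall z ?_) subset_union_left
    rintro y (hy | hy)
    · exact ⟨_, subset_union_left, hz, hy, hp.2⟩
    · obtain ⟨i, hi, hy⟩ := mem_iUnion₂.1 hy
      exact ⟨_, (subset_iUnion₂_of_subset i hi subset_rfl).trans subset_union_right, Or.inl hz, hy,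
        i.2⟩
  have m3 := law3 (isCompact_closedBall (0 : ℂ) M)
    fun i : ι => isOpen_interior (s := (ball (0 : ℂ) (M + 1))ᶜ ∪ Dq i.1)
  have := (Measure.map_map m3 (m hU)).symm.trans
    ((congrArg (Measure.map _) key).trans (Measure.map_map m3 (m hU')))
  simp only [fun x => fill_eq_diff hM (h1 x).2, fun x => fill_eq_diff hM (h2 x).2]
  exact this

/-- **LAW** -/
theorem law : LAW :=
  ⟨fun _ _ _ _ _ _ _ _ _ _ _ => law1, fun _ _ _ _ _ _ _ _ _ _ _ _ => law2, fun _ _ _ _ => law3⟩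

theorem law_of (_ : FILL) (_ : LIST) (_ : TK) : LAW := law

end Vale.Agent.P155.Soup
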