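import Vale.Agent.P155I.SB

/-!
# P155, block (I): the row LIST
-/

namespace Vale.Agent.P155.Soup

open Set Metric TopologicalSpace Vale.Agent.P155 Vale.Agent.P155.Q1 Vale.Agent.P155.Geo
  Vale.Agent.P155.Tree

namespace Lst

theorem rb_count : RB.Countable := by
  refine (countable_range fun p : ℕ × ℚ => closedBall (denseSeq ℂ p.1) (p.2 : ℝ)).mono ?_
  rintro _ ⟨i, r, -, rfl⟩
  exact ⟨(i, r), rfl⟩

theorem fu_count : FU.Countable := by
  refine ((countable_ofPred_finite_subset rb_count).image sUnion).mono ?_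
  rintro _ ⟨s, h1, -, h3, rfl⟩
  exact ⟨s, ⟨h1, h3⟩, rfl⟩

theorem rb_cpt {Q : Set ℂ} (h : Q ∈ RB) : IsCompact Q ∧ IsConnected Q ∧ Q.Nontrivial := by
  obtain ⟨i, r, hr, rfl⟩ := h
  have h0 : (0 : ℝ) < r := by exact_mod_cast hr
  refine ⟨isCompact_closedBall _ _, ⟨⟨_, mem_closedBall_self h0.le⟩,
    (convex_closedBall _ _).isPreconnected⟩, denseSeq ℂ i + (r : ℝ), ?_, _,
    mem_closedBall_self h0.le, ?_⟩
  · rw [mem_closedBall, dist_eq_norm, add_sub_cancel_left, Complex.norm_real,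
      Real.norm_of_nonneg h0.le]
  · intro e
    exact h0.ne' (Complex.ofReal_eq_zero.1 (add_eq_left.1 e))

theorem greedy {Ω : Set ℂ} {s : Set (Set ℂ)} (hs : s.Finite) (h1 : s ⊆ RB)
    (hcov : ∀ z ∈ closure Ω, ∃ Q ∈ s, z ∈ interior Q) (n : ℕ) : ∀ A : Set ℂ, IsClosed A →
    A.Nonempty → Ωᶜ ⊆ A → {Q | Q ∈ s ∧ ¬ Q ⊆ A}.ncard ≤ n →
    ∃ l : List (Set ℂ), Adm l A ∧ (∀ z, z ∉ A → ∃ Q ∈ l, z ∈ Q) ∧ ∀ Q ∈ l, Q ∈ s := by
  induction n using Nat.strong_induction_on with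
  | _ n ih =>
    intro A hA hne hΩ hn
    by_cases h : A = univ
    · exact ⟨[], trivial, fun z hz => absurd (h ▸ mem_univ z) hz, fun _ e => by simp at e⟩
    obtain ⟨x, hx⟩ := nonempty_frontier_iff.2 ⟨hne, h⟩
    rw [frontier_eq_closure_inter_closure, hA.closure_eq] at hx
    obtain ⟨Q, hQ, h2⟩ := hcov x (closure_mono (compl_subset_comm.1 hΩ) hx.2)
    obtain ⟨h3, h4, -⟩ := rb_cpt (h1 hQ)
    obtain ⟨y, h5, h6⟩ := mem_closure_iff.1 hx.2 _ isOpen_interior h2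
    have h0 : {Q' | Q' ∈ s ∧ ¬ Q' ⊆ A ∪ Q} ⊂ {Q' | Q' ∈ s ∧ ¬ Q' ⊆ A} := by
      refine ⟨fun Q' e => ⟨e.1, fun e' => e.2 (e'.trans subset_union_left)⟩, fun e => ?_⟩
      exact (@e Q ⟨hQ, fun e' => h6 (e' (interior_subset h5))⟩).2 subset_union_right
    obtain ⟨l, h7, h8, h9⟩ := ih _ (lt_of_lt_of_le (ncard_lt_ncard h0
      (hs.subset fun _ e => e.1)) hn)
      (A ∪ Q) (hA.union h3.isClosed) (hne.mono subset_union_left) (hΩ.trans subset_union_left)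
      le_rfl
    refine ⟨Q :: l, ⟨h3, h4, ⟨x, interior_subset h2, hx.1⟩, h7⟩, fun z hz => ?_, fun Q' e => ?_⟩
    · by_cases h10 : z ∈ Q
      · exact ⟨Q, List.mem_cons_self, h10⟩
      · obtain ⟨Q', h11, h12⟩ := h8 z fun e => e.elim hz h10
        exact ⟨Q', List.mem_cons_of_mem _ h11, h12⟩
    · rcases List.mem_cons.1 e with rfl | e
      exacts [hQ, h9 Q' e]

end Lst

open Lst in
/-- **LIST** -/
theorem list_ok : LIST := by
  refine ⟨fu_count, ?_, fun _ => Sb.rb_fu, fun _ hA _ hB => Sb.fu_union hA hB,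
    fun Ω ho hb δ hδ => ?_⟩
  · rintro _ ⟨s, h1, ⟨Q, hQ⟩, h3, rfl⟩
    exact ⟨h1.isCompact_sUnion fun Q' e => (rb_cpt (h3 e)).1,
      (rb_cpt (h3 hQ)).2.2.mono (subset_sUnion_of_mem hQ)⟩
  · choose D h1 h2 h3 using fun z : ℂ =>
      Sb.exists_rb (isOpen_ball (x := z) (ε := δ / 2)) (mem_ball_self (half_pos hδ))
    obtain ⟨t, -, hcov⟩ := hb.isCompact_closure.elim_nhds_subcover (fun z => interior (D z))
      fun z _ => isOpen_interior.mem_nhds (h3 z)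
    obtain ⟨l, h4, h5, h6⟩ := greedy (Ω := Ω) (t.finite_toSet.image D)
      (by rintro _ ⟨z, -, rfl⟩; exact h1 z) (fun z hz => by
        obtain ⟨y, hy, h⟩ := mem_iUnion₂.1 (hcov hz)
        exact ⟨_, mem_image_of_mem D hy, h⟩) _ Ωᶜ ho.isClosed_compl
      (nonempty_compl.2 (Topo.ne_univ hb)) subset_rfl le_rfl
    refine ⟨l, h4, fun z hz => h5 z (not_not.2 hz), fun Q hQ => ?_⟩
    obtain ⟨z, -, rfl⟩ := h6 Q hQ
    refine ⟨h1 z, (diam_mono (h2 z) isBounded_ball).trans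
      ((diam_ball (half_pos hδ).le).trans (by linarith))⟩

end Vale.Agent.P155.Soup
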