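import Vale.Agent.P155I.Sk2
import Vale.Agent.P155.SW801.Top

/-!
# P155, block (I): the explorations of the soup and of the carpet have the same law
-/

set_option linter.all false

namespace Vale.Agent.P155.Soup

open MeasureTheory ProbabilityTheory Set Metric TopologicalSpace Filter Topology Vale.Agent.P155
  Vale.Agent.P155.Q1 Vale.Agent.P155.Tree Vale.Agent.P155.BL Vale.Agent.P155.Uq
  Vale.Agent.P155S.Poi
open scoped NNReal ENNReal

namespace Rec

/-- the exploration after the step `T` -/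
def Nx (S : Set ℂ → Set ℂ → Set ℂ) (l : List (Set ℂ)) (V T D : Set ℂ) : Prop :=
  D ⊆ T ∨ ∃ W, IsHole V T W ∧ D ⊆ W ∧ Ex S D l W

theorem adm_mono : ∀ (l : List (Set ℂ)) {A B : Set ℂ}, A ⊆ B → Adm l A → Adm l B
  | [], _, _, _, _ => trivial
  | _ :: l, _, _, h, ⟨h1, h2, h3, h4⟩ =>
    ⟨h1, h2, h3.mono (inter_subset_inter_right _ h), adm_mono l (union_subset_union_left _ h) h4⟩

theorem adm_cpt : ∀ (l : List (Set ℂ)) {A : Set ℂ}, Adm l A → ∀ Q ∈ l, IsCompact Q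
  | [], _, _ => by simp
  | _ :: l, _, ⟨h1, _, _, h4⟩ => by
    intro Q hQ
    rcases List.mem_cons.1 hQ with rfl | h
    · exact h1
    · exact adm_cpt l h4 Q h

theorem hole_eq {V K U : Set ℂ} {x : ℂ} (hU : IsHole V K U) (hx : x ∈ U) :
    U = connectedComponentIn (V \ K) x := by
  obtain ⟨z, -, rfl⟩ := hU
  exact connectedComponentIn_eq hx

theorem hole_sub {V K U : Set ℂ} (hU : IsHole V K U) : U ⊆ V \ K := by
  obtain ⟨z, -, rfl⟩ := hU
  exact connectedComponentIn_subset _ _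

theorem nx_iff {S : Set ℂ → Set ℂ → Set ℂ} {l : List (Set ℂ)} {V T D : Set ℂ} {z : ℂ}
    (hz : z ∈ D) : Nx S l V T D ↔ D ⊆ T ∨ (D ⊆ connectedComponentIn (V \ T) z ∧
      Ex S D l (connectedComponentIn (V \ T) z)) := by
  refine or_congr_right ⟨?_, fun h => ⟨_, ⟨z, connectedComponentIn_subset _ _ (h.1 hz), rfl⟩, h⟩⟩
  rintro ⟨W, h1, h2, h3⟩
  rw [← hole_eq h1 (h2 hz)]
  exact ⟨h2, h3⟩

theorem hit_const {X : Type} [MeasurableSpace X] (A : Set ℂ) : Hit fun _ : X => A :=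
  fun _ _ => MeasurableSet.const _

theorem hit_comp {X Y : Type} [MeasurableSpace X] [MeasurableSpace Y] {F : Y → Set ℂ} (h : Hit F)
    {f : X → Y} (hf : Measurable f) : Hit fun x => F (f x) := fun O hO => hf (h O hO)

theorem rop_const {X : Type} [MeasurableSpace X] {V : Set ℂ} (h : IsOpen V) :
    ROp fun _ : X => V := ⟨fun _ => h, hit_const _⟩

theorem coe_toNC {S : Set ℂ} (h : IsCompact S) (hn : S.Nonempty) : (toNC S : Set ℂ) = S := by
  unfold toNC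
  rw [dif_pos ⟨h, hn⟩]
  rfl

theorem meas_nx (tk : TK) {X : Type} [m : MeasurableSpace X] {S : X → Set ℂ → Set ℂ → Set ℂ}
    {l : List (Set ℂ)} (h1 : ∀ x V Q, IsClosed (S x V Q))
    (h2 : ∀ Q ∈ l, ∀ V : X → Set ℂ, ROp V → Hit fun x => S x (V x) Q) {V : Set ℂ} (hV : IsOpen V)
    {T : X → Set ℂ} (hT : Hit T) (hc : ∀ x, IsClosed (T x)) {s : Finset (Set ℂ)}
    (hs : ∀ D ∈ s, IsCompact D ∧ D.Nonempty) :
    MeasurableSet {x | ∀ D ∈ s, Nx (S x) l V (T x) D} := by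
  obtain ⟨t1, -, -, t4, t5⟩ := tk X m
  have e : {x | ∀ D ∈ s, Nx (S x) l V (T x) D} = ⋂ D ∈ s, {x | Nx (S x) l V (T x) D} := by
    ext x
    simp
  rw [e]
  refine s.measurableSet_biInter fun D hD => ?_
  obtain ⟨hD1, z, hz⟩ := hs D hD
  have r := (t4 _ (rop_const hV)).2.2 T hT hc z
  simp only [nx_iff hz]
  refine MeasurableSet.union ?_ (((t4 _ r).2.1 D hD1.isClosed).inter
    (t5 S D l hD1 ⟨z, hz⟩ h1 h2 _ r))
  have := (t1 T hT).2.2.2.1 D
  simp only [(hc _).closure_eq] at this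
  exact this

theorem hit_Ts (tk : TK) (ms : MS) {X : Type} [m : MeasurableSpace X] {w : X → Cf CL}
    (hw : Measurable w) {V : X → Set ℂ} (hV : ROp V) {Q : Set ℂ} (hQ : IsClosed Q) :
    Hit fun x => Ts (pts (w x)) (V x) Q :=
  ((tk X m).1 _ (((tk X m).2.2.1 _ _ (hit_const Q) ((ms.1 X m w V hw hV).1 Q hQ)).1)).2.1

theorem hit_Tg (tk : TK) (mg : MG) {X : Type} [m : MeasurableSpace X] {G : X → NC}
    (hG : Measurable G) {V : X → Set ℂ} (hV : ROp V) {Q : Set ℂ} (hQ : IsCompact Q) :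
    Hit fun x => Tg (G x) (V x) Q := ((tk X m).1 _ (mg.1 X m G V hG hV Q hQ)).2.1

theorem meas_s (tk : TK) (ms : MS) (fl : FILL) {l : List (Set ℂ)} (hl : ∀ Q ∈ l, IsCompact Q)
    {V D : Set ℂ} (hV : IsOpen V) (hD : IsCompact D ∧ D.Nonempty) :
    MeasurableSet {w : Cf CL | Ex (Ts (pts w)) D l V} :=
  (tk _ inferInstance).2.2.2.2 (fun w => Ts (pts w)) D l hD.1 hD.2 (fun _ _ _ => (fl.1 _).2.1)
    (fun Q hQ V hV => hit_Ts tk ms measurable_id hV (hl Q hQ).isClosed) _ (rop_const hV)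

theorem meas_g (tk : TK) (mg : MG) (fl : FILL) {l : List (Set ℂ)} (hl : ∀ Q ∈ l, IsCompact Q)
    {V D : Set ℂ} (hV : IsOpen V) (hD : IsCompact D ∧ D.Nonempty) :
    MeasurableSet {G : NC | Ex (Tg G) D l V} :=
  (tk _ inferInstance).2.2.2.2 (fun G : NC => Tg G) D l hD.1 hD.2 (fun _ _ _ => (fl.1 _).2.1)
    (fun Q hQ V hV => hit_Tg tk mg measurable_id hV (hl Q hQ)) _ (rop_const hV)

theorem meas_all {X : Type} [MeasurableSpace X] {s : Finset (Set ℂ)} {p : Set ℂ → X → Prop}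
    (h : ∀ D ∈ s, MeasurableSet {x | p D x}) : MeasurableSet {x | ∀ D ∈ s, p D x} := by
  have e : {x | ∀ D ∈ s, p D x} = ⋂ D ∈ s, {x | p D x} := by
    ext x
    simp
  rw [e]
  exact s.measurableSet_biInter h

/-- the events after one step, grouped by the holes -/
theorem group {X : Type} {S : X → Set ℂ → Set ℂ → Set ℂ} {l : List (Set ℂ)} {V T : Set ℂ}
    {s : Finset (Set ℂ)} (hs : ∀ D ∈ s, IsCompact D ∧ D.Nonempty) {W : Set ℂ → Set ℂ}
    (hW : ∀ D ∈ s, ¬ D ⊆ T → IsHole V T (W D) ∧ D ⊆ W D) [DecidableEq (Set ℂ)]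
    [DecidablePred fun D : Set ℂ => ¬ D ⊆ T] :
    {x | ∀ D ∈ s, Nx (S x) l V T D} = ⋂ U ∈ (s.filter fun D => ¬ D ⊆ T).image W,
      {x | ∀ D ∈ (s.filter fun D => ¬ D ⊆ T).filter (fun D => W D = U), Ex (S x) D l U} := by
  ext x
  simp only [mem_setOf_eq, mem_iInter, Finset.mem_image, Finset.mem_filter]
  constructor
  · rintro h U - D ⟨⟨h1, h2⟩, rfl⟩
    obtain ⟨W', h3, h4, h5⟩ := (h D h1).resolve_left h2
    obtain ⟨z, hz⟩ := (hs D h1).2
    rwa [hole_eq (hW D h1 h2).1 ((hW D h1 h2).2 hz), ← hole_eq h3 (h4 hz)]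
  · intro h D hD
    by_cases k : D ⊆ T
    · exact .inl k
    · exact .inr ⟨W D, (hW D hD k).1, (hW D hD k).2, h _ ⟨D, ⟨hD, k⟩, rfl⟩ D ⟨⟨hD, k⟩, rfl⟩⟩

theorem key (tk : TK) (ms : MS) (mg : MG) (fl : FILL) {P : Measure (Cf CL)}
    (hI : ∀ (s : Finset (Set ℂ)) (E : Set ℂ → Set (Cf CL)), (∀ U ∈ s, IsOpen U ∧
      MeasurableSet (E U) ∧ LocS U (E U)) → (s : Set (Set ℂ)).Pairwise Disjoint →
      P (⋂ U ∈ s, E U) = ∏ U ∈ s, P (E U))
    {l : List (Set ℂ)} (ih : ∀ (V : Set ℂ) (s : Finset (Set ℂ)), Dom V → Adm l Vᶜ →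
      (∀ D ∈ s, IsCompact D ∧ D.Nonempty) →
      P {w | ∀ D ∈ s, Ex (Ts (pts w)) D l V} = L1 V {G : NC | ∀ D ∈ s, Ex (Tg G) D l V})
    {V T b : Set ℂ} {κ : Measure NC} (hb : ∀ U, IsHole V T U → IsHole V b U ∧ Dom U ∧ Adm l Uᶜ)
    (hκ : ∀ (s : Finset (Set ℂ)) (E : Set ℂ → Set NC), (∀ U ∈ s, IsHole V b U ∧
      MeasurableSet (E U) ∧ LocG U (E U)) → κ (⋂ U ∈ s, E U) = ∏ U ∈ s, L1 U (E U))
    {s : Finset (Set ℂ)} (hs : ∀ D ∈ s, IsCompact D ∧ D.Nonempty) :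
    P {w | ∀ D ∈ s, Nx (Ts (pts w)) l V T D} = κ {G : NC | ∀ D ∈ s, Nx (Tg G) l V T D} := by
  classical
  by_cases h : ∀ D ∈ s, ¬ D ⊆ T → ∃ W, IsHole V T W ∧ D ⊆ W
  swap
  · push Not at h
    obtain ⟨D, h1, h2, h3⟩ := h
    have e : ∀ S : Set ℂ → Set ℂ → Set ℂ, ¬ ∀ D ∈ s, Nx S l V T D := fun S k => by
      obtain ⟨W, k1, k2, -⟩ := (k D h1).resolve_left h2
      exact h3 W k1 k2
    simp [e]
  choose! W hW using h
  have hW' : ∀ D ∈ s, ¬ D ⊆ T → IsHole V T (W D) ∧ D ⊆ W D := fun D h1 h2 => hW D h1 h2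
  have ht : ∀ U ∈ (s.filter fun D => ¬ D ⊆ T).image W, IsHole V T U := by
    intro U hU
    obtain ⟨D, hD, rfl⟩ := Finset.mem_image.1 hU
    exact (hW' D (Finset.mem_filter.1 hD).1 (Finset.mem_filter.1 hD).2).1
  have hs' : ∀ U, ∀ D ∈ (s.filter fun D => ¬ D ⊆ T).filter (fun D => W D = U),
      IsCompact D ∧ D.Nonempty := fun U D hD =>
    hs D (Finset.mem_filter.1 (Finset.mem_filter.1 hD).1).1
  rw [group (S := fun w : Cf CL => Ts (pts w)) hs hW', group (S := fun G : NC => Tg G) hs hW',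
    hI, hκ]
  · refine Finset.prod_congr rfl fun U hU => ?_
    obtain ⟨-, h2, h3⟩ := hb U (ht U hU)
    exact ih U _ h2 h3 (hs' U)
  · intro U hU
    obtain ⟨h1, h2, h3⟩ := hb U (ht U hU)
    exact ⟨h1, meas_all fun D hD => meas_g tk mg fl (adm_cpt l h3) h2.1 (hs' U D hD),
      fun G G' e k D hD => mg.2 _ _ D l U e (k D hD)⟩
  · intro U hU
    obtain ⟨h1, h2, h3⟩ := hb U (ht U hU)
    exact ⟨h2.1, meas_all fun D hD => meas_s tk ms fl (adm_cpt l h3) h2.1 (hs' U D hD),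
      fun w w' e k D hD => ms.2 _ _ D l U e (k D hD)⟩
  · intro U hU U' hU' hne
    rw [Set.disjoint_left]
    intro x h1 h2
    exact hne ((hole_eq (ht U hU) h1).trans (hole_eq (ht U' hU') h2).symm)

theorem us_sub (L : Set CL) (V Q : Set ℂ) : Us L V Q ⊆ V := by
  intro x hx
  simp only [Us, cluster, mem_iUnion, mem_setOf_eq] at hx
  obtain ⟨γ, ⟨h1, -⟩, γ', h2, h3⟩ := hx
  rcases h2.cases_tail with rfl | ⟨_, -, h4, -⟩
  · exact h1.2 h3
  · exact h4.2 h3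

theorem kk_sub (V Q G : Set ℂ) : SWR.KK V Q G ⊆ Q ∪ closure V := by
  rintro x (h | ⟨_, ⟨U, h1, -, rfl⟩, h2⟩)
  · exact .inl h
  · exact .inr (closure_mono ((hole_sub h1).trans diff_subset) h2)

theorem kk_eq {V Q G : Set ℂ} (h : SWR.Nice1 V G) :
    SWR.KK V Q G = Q ∪ (SWR.KK V (Vᶜ ∪ Q) G ∩ V) := by
  ext x
  constructor
  · rintro (k | ⟨_, ⟨U, h1, h2, rfl⟩, h3⟩)
    · exact .inl k
    · exact .inr ⟨.inr ⟨_, ⟨U, h1, h2.mono (inter_subset_inter_right _ subset_union_right), rfl⟩,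
        h3⟩, h.inside U h1 h3⟩
  · rintro (k | ⟨(k | k) | ⟨_, ⟨U, h1, ⟨y, h2, h4⟩, rfl⟩, h3⟩, hx⟩)
    · exact .inl k
    · exact absurd hx k
    · exact .inl k
    · exact .inr ⟨_, ⟨U, h1, ⟨y, h2, h4.resolve_left (not_not.2 (h.inside U h1 h2))⟩, rfl⟩, h3⟩

end Rec

open Rec in
/-- **REC** -/
theorem rec_of (hT : TEQ) (hS : SM) (hG : GM) (hGS : GS) (tk : TK) (ms : MS) (mg : MG)
    (fl : FILL) (tp : TOPO) : REC := by
  intro P hP l
  have hPp : IsProbabilityMeasure P := hP.choose_spec.2.prob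
  induction l with
  | nil =>
    intro V s hV _ _
    have := (hGS V hV).1
    rcases s.eq_empty_or_nonempty with rfl | ⟨D, hD⟩
    · simp
    · have e : ∀ S : Set ℂ → Set ℂ → Set ℂ, ¬ ∀ D ∈ s, Ex S D [] V := fun S k => k D hD
      simp [e]
  | cons Q l ih =>
    intro V s hV hA hs
    obtain ⟨hQc, hQn, hQV, hA'⟩ := hA
    obtain ⟨hp, -, hgood, -⟩ := hGS V hV
    have hl := adm_cpt l hA'
    have hK : IsConnected (Vᶜ ∪ Q) := ⟨hQn.1.mono subset_union_right, by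
      obtain ⟨x, h1, h2⟩ := hQV
      exact (tp.1 V hV).2.1.union x h2 h1 hQn.2⟩
    -- the events
    set E' : Set (NC × Cf CL) := {p | ∀ D ∈ s, Nx (Ts (pts p.2)) l V p.1 D} with hE'
    have mE' : MeasurableSet E' :=
      meas_nx tk (S := fun p : NC × Cf CL => Ts (pts p.2)) (fun _ _ _ => (fl.1 _).2.1)
        (fun Q hQ V hV => hit_Ts tk ms measurable_snd hV (hl Q hQ).isClosed) hV.1
        ((tk _ inferInstance).2.1 _ measurable_fst) (fun p => p.1.isCompact.isClosed) hs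
    set E : Set (NC × Cf CL) := {p | ∀ D ∈ s, Nx (Ts (pts p.2)) l V (fill p.1) D} with hE
    have mE : MeasurableSet E :=
      meas_nx tk (S := fun p : NC × Cf CL => Ts (pts p.2)) (fun _ _ _ => (fl.1 _).2.1)
        (fun Q hQ V hV => hit_Ts tk ms measurable_snd hV (hl Q hQ).isClosed) hV.1
        ((tk _ inferInstance).1 _ ((tk _ inferInstance).2.1 _ measurable_fst)).2.1
        (fun p => (fl.1 _).2.1) hs
    have loc : ∀ T : NC, LocS (T : Set ℂ)ᶜ {w | (T, w) ∈ E} := by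
      intro T w w' e k D hD
      refine (k D hD).imp_right ?_
      rintro ⟨W, h1, h2, h3⟩
      refine ⟨W, h1, h2, ms.2 _ _ D l W ?_ h3⟩
      have h4 : LV W ⊆ LV (T : Set ℂ)ᶜ := fun γ hγ x hx k =>
        (hole_sub h1 (hγ hx)).2 ((fl.1 _).1 (subset_closure k))
      rw [← inter_eq_right.2 h4, ← inter_assoc, ← inter_assoc, e]
    have bs : ∀ w : Cf CL, Bornology.IsBounded (Q ∪ Us (pts w) V Q) := fun w =>
      hQc.isBounded.union (hV.2.1.subset (us_sub _ _ _))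
    have bg : ∀ G : NC, Bornology.IsBounded (SWR.KK V Q G) := fun G =>
      (hQc.isBounded.union hV.2.1.closure).subset (kk_sub _ _ _)
    have c1 : ∀ w : Cf CL, fill (toNC (closure (Q ∪ Us (pts w) V Q)) : Set ℂ) = Ts (pts w) V Q :=
      fun w => by
        rw [coe_toNC (bs w).isCompact_closure (hQn.1.mono subset_union_left).closure,
          (fl.1 _).2.2.2.1]
        rfl
    have cf : ∀ C : Set ℂ, Bornology.IsBounded C → Q ⊆ C → (toNC (fill C) : Set ℂ) = fill C :=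
      fun C h1 h2 => coe_toNC (fl.2.2.1 C h1).1
        (hQn.1.mono (h2.trans (subset_closure.trans (fl.1 _).1)))
    have mf : ∀ {X : Type} [m : MeasurableSpace X] {C : X → Set ℂ}, Hit (fun x => fill (C x)) →
        (∀ x, Bornology.IsBounded (C x)) → (∀ x, Q ⊆ C x) →
        Measurable fun x => toNC (fill (C x)) := by
      intro X m C h1 h2 h3
      have := ((tk X m).1 _ h1).2.2.2.2 fun x => ⟨(fl.2.2.1 _ (h2 x)).1.isBounded,
        hQn.1.mono ((h3 x).trans (subset_closure.trans (fl.1 _).1))⟩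
      simpa only [(fl.1 _).2.1.closure_eq] using this
    have ms' : Measurable fun w : Cf CL => toNC (Ts (pts w) V Q) :=
      mf (hit_Ts tk ms measurable_id (rop_const hV.1) hQc.isClosed) bs fun _ => subset_union_left
    have mg' : Measurable fun G : NC => toNC (Tg G V Q) :=
      mf (hit_Tg tk mg measurable_id (rop_const hV.1) hQc) bg fun _ => subset_union_left
    set Ψ : NC → ℝ≥0∞ := fun T => P (Prod.mk T ⁻¹' E') with hΨ
    have mΨ : Measurable Ψ := measurable_measure_prodMk_left mE'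
    have h1 := (hS P hP).1 V Q hV.1 hV.2.1 hQc hQn.1 E mE loc
    have h2 : P {w | ∀ D ∈ s, Ex (Ts (pts w)) D (Q :: l) V} =
        ∫⁻ w, Ψ (toNC (Ts (pts w) V Q)) ∂P := by
      simp only [hE, mem_setOf_eq, c1] at h1
      refine h1.trans (lintegral_congr fun w => ?_)
      simp only [hΨ, hE', preimage, mem_setOf_eq]
      rw [show (toNC (Ts (pts w) V Q) : Set ℂ) = Ts (pts w) V Q from
        cf _ (bs w) subset_union_left]
    obtain ⟨X, mX, ν, κ, b, hν, mκ, hκ, hb, hy⟩ :=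
      hG V _ hV (hV.1.isClosed_compl.union hQc.isClosed) hK subset_union_left
    have mG : MeasurableSet {G : NC | ∀ D ∈ s, Ex (Tg G) D (Q :: l) V} :=
      meas_all fun D hD => meas_g tk mg fl
        (fun Q' hQ' => (List.mem_cons.1 hQ').elim (fun e => e ▸ hQc) (hl Q')) hV.1 (hs D hD)
    rw [h2, ← lintegral_map mΨ ms', hT P hP V Q hV hQc hQn.1 hK.2, lintegral_map mΨ mg', ← hb,
      Measure.lintegral_bind (f := fun G : NC => Ψ (toNC (Tg G V Q))) mκ.aemeasurable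
        (mΨ.comp mg').aemeasurable,
      Measure.bind_apply mG mκ.aemeasurable]
    rw [← hb] at hgood
    have hgood' : ∀ᵐ y ∂ν, ∀ᵐ G ∂(κ y), GoodG V G :=
      Measure.ae_ae_of_ae_comp (κ := (⟨κ, mκ⟩ : Kernel X NC)) hgood
    refine lintegral_congr_ae ?_
    filter_upwards [hy, hgood'] with y ⟨y1, y2, y3⟩ y4
    have := hκ y
    have e1 : ∀ᵐ G : NC ∂(κ y), SWR.KK V Q G = Q ∪ (b y ∩ V) := by
      filter_upwards [y1, y4] with G k1 k2
      rw [kk_eq k2.nice, k1]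
    obtain ⟨G₀, g1, g2, g3⟩ := (e1.and (y1.and y4)).exists
    have hcl : IsClosed (Q ∪ (b y ∩ V)) :=
      g1 ▸ SWR.isClosed_KK hQc.isClosed g3.nice.fin hV.2.1
    have hQb : Q ⊆ b y := g2 ▸ subset_union_right.trans (SWR.sub_KK _ _ _)
    have hd : V \ (Q ∪ (b y ∩ V)) = V \ b y := by
      ext x
      exact ⟨fun k => ⟨k.1, fun k' => k.2 (.inr ⟨k', k.1⟩)⟩,
        fun k => ⟨k.1, fun k' => k.2 (k'.elim (fun a => hQb a) fun a => a.1)⟩⟩
    have k := key tk ms mg fl (hS P hP).2 ih (V := V) (T := fill (Q ∪ (b y ∩ V))) (b := b y)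
      (κ := κ y) (fun U hU => by
        have h3 := fl.2.2.2.2.2.2 V _ U hU
        rw [hcl.closure_eq] at h3
        have h4 : IsHole V (b y) U := by
          unfold IsHole at h3 ⊢
          rwa [hd] at h3
        refine ⟨h4, y2 U h4, adm_mono l ?_ hA'⟩
        rintro x (k | k) hx
        · exact k (hole_sub h4 hx).1
        · exact (hole_sub h4 hx).2 (hQb k)) y3 hs
    have e2 : ∀ᵐ G : NC ∂(κ y), Tg G V Q = fill (Q ∪ (b y ∩ V)) := e1.mono fun G k => by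
      rw [Tg, k]
    calc ∫⁻ G, Ψ (toNC (Tg G V Q)) ∂κ y = ∫⁻ _, Ψ (toNC (fill (Q ∪ (b y ∩ V)))) ∂κ y :=
          lintegral_congr_ae (e2.mono fun G k => by simp only [k])
      _ = κ y {G : NC | ∀ D ∈ s, Nx (Tg G) l V (fill (Q ∪ (b y ∩ V))) D} := by
          rw [lintegral_const, measure_univ, mul_one, ← k]
          simp only [hΨ, hE', preimage, mem_setOf_eq]
          rw [cf _ (g1 ▸ bg G₀) subset_union_left]
      _ = κ y {G : NC | ∀ D ∈ s, Ex (Tg G) D (Q :: l) V} := by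
          refine measure_congr ?_
          filter_upwards [e2] with G k
          show (∀ D ∈ s, Nx (Tg G) l V _ D) = ∀ D ∈ s, Nx (Tg G) l V (Tg G V Q) D
          rw [k]

end Vale.Agent.P155.Soup
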