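import Vale.Agent.P155I.S1X

/-!
# P155, block (I): the row S2X, the clusters are locally finite
-/

set_option linter.all false

namespace Vale.Agent.P155.Soup

open MeasureTheory ProbabilityTheory Set Metric Filter Topology Relation Vale.Agent.P155
  Vale.Agent.P155.Q1 Vale.Agent.P155.Tree Vale.Agent.P155.BL Vale.Agent.P155S.Poi
  Vale.Agent.P155S.Fub Vale.Agent.P155.Geo TopologicalSpace
open scoped ENNReal

namespace S12

/-- the zero-one law for events which do not depend on finitely many shells -/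
theorem zero_one {E : Type} [MeasurableSpace E] [StandardBorelSpace E] {ν : Measure E}
    [SigmaFinite ν] {P : Measure (Cf E)} (h : IsPPP ν P) {B : ℕ → Set E}
    (hB : ∀ j, MeasurableSet (B j)) (d : Pairwise (Function.onFun Disjoint B)) {X : Set E → Prop}
    (mX : MeasurableSet {w : Cf E | X (pts w)}) (mono : ∀ L L', L ⊆ L' → X L → X L')
    (lt : P {w | X (pts w)} ≠ 1) : ∀ᵐ w ∂P, ∃ n, ¬ X (pts w ∩ ⋃ j, B (j + n)) := by
  have := h.prob
  have e : ∀ v : ℕ → Cf E, pts (mer v) = ⋃ j, pts (v j) := fun v => Set.ext fun x => by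
    simp [mem_pts, N_mer, Measure.sum_apply]
  let S : Set (ℕ → Cf E) := ⋂ n, (fun v => mer fun j => v (j + n)) ⁻¹' {w | X (pts w)}
  have hS : ∀ v, v ∈ S ↔ ∀ n, X (⋃ j, pts (v (j + n))) := fun v => by simp [S, e]
  have mS : MeasurableSet S := .iInter fun n =>
    (meas_mer.comp (measurable_pi_lambda _ fun j => measurable_pi_apply _)) mX
  have k := h.indep hB d (Ψ := S.indicator 1) (measurable_one.indicator mS) fun v v' hv => by
    have : ∀ j, pts (v j) = pts (v' j) := fun j => Set.ext fun x => by rw [mem_pts, mem_pts, hv]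
    have : v ∈ S ↔ v' ∈ S := by simp only [hS, this]
    by_cases hv' : v' ∈ S <;> simp [indicator, this, hv']
  have m1 : Measurable fun (w : Cf E) j => res (B j) w :=
    measurable_pi_lambda _ fun j => meas_res' (hB j)
  have m2 : Measurable fun (w : ℕ → Cf E) j => res (B j) (w j) :=
    measurable_pi_lambda _ fun j => (meas_res' (hB j)).comp (measurable_pi_apply j)
  replace k : P ((fun (w : Cf E) j => res (B j) w) ⁻¹' S) = Measure.infinitePi (fun _ => P)
      ((fun (w : ℕ → Cf E) j => res (B j) (w j)) ⁻¹' S) :=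
    (lintegral_indicator_one (m1 mS)).symm.trans (k.trans (lintegral_indicator_one (m2 mS)))
  have t : MeasurableSet[limsup (fun i => MeasurableSpace.comap (fun w : ℕ → Cf E => w i)
      inferInstance) atTop] ((fun (w : ℕ → Cf E) j => res (B j) (w j)) ⁻¹' S) := by
    rw [limsup_eq_iInf_iSup_of_nat, MeasurableSpace.measurableSet_iInf]
    intro n
    have : (fun (w : ℕ → Cf E) j => res (B j) (w j)) ⁻¹' S = ⋂ m,
        (fun w : ℕ → Cf E => mer fun j => res (B (j + (m + n))) (w (j + (m + n)))) ⁻¹'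
          {w | X (pts w)} := by
      ext w
      simp only [mem_preimage, hS, mem_iInter, mem_setOf_eq, e]
      exact ⟨fun a m => a _, fun a m => mono _ _ (iUnion_subset fun j =>
        subset_iUnion_of_subset (j + n) (by rw [show j + n + m = j + (m + n) by ring])) (a m)⟩
    rw [this]
    generalize hm : (⨆ i, ⨆ (_ : i ≥ n), MeasurableSpace.comap (fun w : ℕ → Cf E => w i)
      inferInstance) = m0
    refine .iInter fun m => (meas_mer.comp (measurable_pi_lambda _ fun j =>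
      (meas_res' (hB _)).comp (measurable_iff_comap_le.2 ?_))) mX
    exact hm ▸ le_iSup₂_of_le (j + (m + n)) (by omega) le_rfl
  have z := measure_zero_or_one_of_measurableSet_limsup_atTop
    (fun i => (measurable_pi_apply i).comap_le)
    (iIndepFun_infinitePi (P := fun _ : ℕ => P) (X := fun _ w => w) fun _ => measurable_id).iIndep t
  rw [← k] at z
  have z0 := z.resolve_right fun z => lt (prob_le_one.antisymm (z.ge.trans (measure_mono
    fun w hw => mono _ _ (iUnion_subset fun j => (pts_res _ _).subset.trans inter_subset_left)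
      ((hS _).1 hw 0))))
  filter_upwards [measure_eq_zero_iff_ae_notMem.1 z0] with w hw
  simpa [hS, pts_res, inter_iUnion] using hw

/-- half-planes -/
def Hp (c : ℂ) (a : ℝ) : Set ℂ := {z | (c * z).re ≤ a}

theorem hp_convex (c : ℂ) (a : ℝ) : Convex ℝ (Hp c a) :=
  convex_halfSpace_le ⟨fun x y => by simp [mul_add], fun r x => by simp; ring⟩ a

theorem hp_closed (c : ℂ) (a : ℝ) : IsClosed (Hp c a) := isClosed_le (by fun_prop) continuous_const

theorem hp_conn {c : ℂ} (hc : ‖c‖ = 1) (a : ℝ) {M : ℝ} (hM : 0 < M) :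
    IsPreconnected ((ball (0 : ℂ) M)ᶜ ∪ Hp c a) := by
  refine (dom_compl_conn (dom_ball hM)).2.union (-(max M (-a) : ℝ) * (starRingEnd ℂ) c) ?_ ?_
    (hp_convex c a).isPreconnected
  · simp [hc, abs_of_pos (hM.trans_le (le_max_left M (-a)))]
  · rw [Hp, mem_setOf_eq, mul_left_comm, Complex.mul_conj, Complex.normSq_eq_norm_sq, hc]
    simp [neg_le]

theorem seed2 {c : ℂ} (hc : ‖c‖ = 1) {a b M : ℝ} (h : a < b) (hM : 0 < M) :
    Seed (ball 0 M) (closedBall 0 M ∩ Hp c a) (Hp (-c) (-b)) := by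
  refine ⟨dom_ball hM, (isCompact_closedBall _ _).inter_right (hp_closed _ _), hp_closed _ _,
    disjoint_left.2 fun z h1 h2 => ?_, ?_, hp_conn (by simpa) _ hM⟩
  · have := h1.2.out
    have := h2.out
    rw [neg_mul, Complex.neg_re] at this
    linarith
  · rw [union_inter_distrib_left, (inter_eq_right (s := (ball (0 : ℂ) M)ᶜ ∪ closedBall 0 M)).2
      fun z _ => (em (z ∈ ball (0 : ℂ) M)).symm.imp_right fun h => ball_subset_closedBall h]
    exact hp_conn hc a hM

theorem cross {C : Set ℂ} {M δ : ℝ} (hδ : 0 < δ) (hC : C ⊆ ball 0 M) (h : 4 * δ < diam C) :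
    ∃ c ∈ ({1, Complex.I} : Set ℂ), ∃ k ∈ Icc (-⌈M / δ⌉) ⌈M / δ⌉,
      (C ∩ Hp c (k * δ)).Nonempty ∧ (C ∩ Hp (-c) (-(k * δ + δ))).Nonempty := by
  have k : ∀ c : ℂ, ‖c‖ = 1 → ∀ p ∈ C, ∀ q ∈ C, (c * p).re + 2 * δ < (c * q).re →
      ∃ k ∈ Icc (-⌈M / δ⌉) ⌈M / δ⌉,
        (C ∩ Hp c (k * δ)).Nonempty ∧ (C ∩ Hp (-c) (-(k * δ + δ))).Nonempty := by
    intro c hc p hp q hq e
    have h1 : |(c * p).re| ≤ M := (Complex.abs_re_le_norm _).trans (by
      rw [norm_mul, hc, one_mul]; exact (mem_ball_zero_iff.1 (hC hp)).le)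
    have h2 := (div_le_iff₀ hδ).1 (Int.le_ceil ((c * p).re / δ))
    have h3 := (lt_div_iff₀ hδ).1 (sub_lt_iff_lt_add.2 (Int.ceil_lt_add_one ((c * p).re / δ)))
    refine ⟨⌈(c * p).re / δ⌉, ⟨?_, Int.ceil_mono (div_le_div_of_nonneg_right (abs_le.1 h1).2 hδ.le)⟩,
      ⟨p, hp, h2⟩, q, hq, ?_⟩
    · rw [← Int.floor_neg, ← neg_div]
      exact (Int.floor_mono (div_le_div_of_nonneg_right (abs_le.1 h1).1 hδ.le)).trans
        (Int.floor_le_ceil _)
    · rw [Hp, mem_setOf_eq, neg_mul, Complex.neg_re]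
      linarith
  by_contra h'
  refine h.not_ge (diam_le_of_forall_dist_le (by positivity) fun p hp q hq => ?_)
  have h1 := fun p hp q hq => not_lt.1 fun e => h' ⟨1, .inl rfl, k 1 norm_one p hp q hq e⟩
  have h2 := fun p hp q hq => not_lt.1 fun e => h' ⟨_, .inr rfl, k _ Complex.norm_I p hp q hq e⟩
  have := (Complex.norm_le_abs_re_add_abs_im (p - q))
  have h3 : |(p - q).re| ≤ 2 * δ := abs_le.2
    ⟨by have := h1 p hp q hq; simp at this ⊢; linarith, by have := h1 q hq p hp; simp at this ⊢; linarith⟩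
  have h4 : |(p - q).im| ≤ 2 * δ := abs_le.2
    ⟨by have := h2 q hq p hp; simp at this ⊢; linarith, by have := h2 p hp q hq; simp at this ⊢; linarith⟩
  rw [dist_eq_norm]
  linarith

/-- the loops of diameter larger than `1 / (n + 1)` -/
def Big (n : ℕ) : Set CL := {γ | 1 / (n + 1 : ℝ) < diam (range γ)}

theorem big_meas (n : ℕ) : MeasurableSet (Big n) := measurableSet_lt measurable_const measurable_diam

theorem fam_fin {L : Set CL} {V B Q R : Set ℂ} (hVB : V ⊆ B) (h0 : ∀ γ ∈ L, 0 < diam (range γ))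
    (hf : ∀ n, (L ∩ (LV B ∩ Big n)).Finite) {n : ℕ}
    (h : Disjoint (Us (L ∩ ⋃ j, disjointed Big (j + n)) B Q) R) :
    {C | (∃ γ ∈ L ∩ LV V, C = cluster (L ∩ LV V) γ) ∧ (C ∩ Q).Nonempty ∧ (C ∩ R).Nonempty}.Finite := by
  refine (((finite_lt_nat n).biUnion fun i _ => hf i).image (cluster (L ∩ LV V))).subset ?_
  rintro _ ⟨⟨γ, hγ, rfl⟩, ⟨p, hp, hp'⟩, q, hq, hq'⟩
  by_contra h'
  have k : ∀ c, Ch (L ∩ LV V) γ c → c ∈ (L ∩ ⋃ j, disjointed Big (j + n)) ∩ LV B := fun c hc => by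
    have h1 := ch_mem hγ hc
    have h2 : c ∈ LV B := h1.2.trans hVB
    obtain ⟨i, hi⟩ := mem_iUnion.1 ((iUnion_disjointed (f := Big)).symm.subset
      (mem_iUnion.2 (exists_nat_one_div_lt (h0 c h1.1))))
    obtain ⟨j, rfl⟩ := Nat.exists_eq_add_of_le' (not_lt.1 fun e : i < n => h' ⟨c, mem_iUnion₂.2
      ⟨i, e, h1.1, h2, disjointed_subset _ _ hi⟩, cluster_eq hγ hc⟩)
    exact ⟨⟨h1.1, mem_iUnion.2 ⟨j, hi⟩⟩, h2⟩
  obtain ⟨a, ha, ha'⟩ := mem_cluster.1 hp
  obtain ⟨b, hb, hb'⟩ := mem_cluster.1 hq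
  exact disjoint_left.1 h (mem_us.2 ⟨a, k a ha, ⟨p, ha', hp'⟩, b,
    ch_in ((ch_symm hγ ha).trans hb) fun c hc => k c (ha.trans hc), hb'⟩) hq'

end S12

open S12 in
/-- **S2X** -/
theorem s2_of (f1 : F1) (pos : POSf) : S2X := by
  intro P hP V hV
  obtain ⟨W, hW, hP'⟩ := id hP
  have := hP'.prob
  have := hW.sigmaFinite_loopM
  have : SigmaFinite (nu W) := by
    rw [nu, show (1 / 2 : ℝ≥0∞) = ((1 / 2 : NNReal) : ℝ≥0∞) by simp]
    exact inferInstanceAs (SigmaFinite ((1 / 2 : NNReal) • loopM W))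
  obtain ⟨M, hM, hVM⟩ := hV.2.1.subset_ball_lt 0 (0 : ℂ)
  have key : ∀ (c : ℂ) (a b : ℝ), ‖c‖ = 1 → a < b → ∀ᵐ w ∂P, ∃ n, Disjoint (Us (pts w ∩
      ⋃ j, disjointed Big (j + n)) (ball 0 M) (closedBall 0 M ∩ Hp c a)) (Hp (-c) (-b)) := by
    intro c a b hc h
    have s := seed2 hc h hM
    have m := meas_disj s.dom.1 s.cq.isClosed (mt_closed s.cr)
    simpa only [not_not] using zero_one hP' (MeasurableSet.disjointed big_meas)
      (disjoint_disjointed _) (X := fun L => ¬ Disjoint (Us L (ball 0 M)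
        (closedBall 0 M ∩ Hp c a)) (Hp (-c) (-b))) m.compl
      (fun L L' e h1 h2 => h1 (h2.mono_left (us_mono e))) fun e =>
        pos _ _ _ s ⟨{_}, finite_singleton _, fun Z hZ => hZ ▸ ((hp_convex _ _).inter
          (convex_ball _ _)).isPreconnected, (sUnion_singleton _).symm⟩
          (le_zero_iff.1 ((f1 P hP _ _ _ s).trans_eq ((prob_compl_eq_one_iff m).1 e)))
  have m0 : MeasurableSet {γ : CL | ¬ 0 < diam (range γ)} :=
    (measurableSet_lt measurable_const measurable_diam).compl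
  have mb : ∀ n, MeasurableSet (LV (ball 0 M) ∩ Big n) := fun n =>
    (lv_meas isOpen_ball).inter (big_meas n)
  filter_upwards [hP'.null m0 (by rw [nu, Measure.smul_apply, ae_iff.1 hW.nonconst, smul_zero]),
    ae_all_iff.2 fun n => hP'.fin (mb n) (ENNReal.mul_ne_top (by simp)
      (hW.fin isBounded_ball (ε := 1 / (n + 1 : ℝ)) (by positivity)).ne),
    (ae_ball_iff (toFinite ({1, Complex.I} : Set ℂ)).countable).2 fun c hc =>
      ae_all_iff.2 fun m : ℕ => ae_all_iff.2 fun k : ℤ =>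
        key c (k * (1 / (m + 1))) (k * (1 / (m + 1)) + 1 / (m + 1))
          (by rcases hc with rfl | rfl <;> simp) (lt_add_of_pos_right _ (by positivity))]
    with w h1 h2 h3 ε hε
  obtain ⟨m, hm⟩ := exists_nat_one_div_lt (show 0 < ε / 4 by positivity)
  have h0 : ∀ γ ∈ pts w, 0 < diam (range γ) := fun γ hγ =>
    not_not.1 (disjoint_left.1 ((N_eq_zero m0).1 h1) hγ)
  have hf : ∀ n, (pts w ∩ (LV (ball 0 M) ∩ Big n)).Finite := fun n => by
    rw [← pts_res]
    exact pts_fin (by rw [N_res (mb n), Measure.restrict_apply_univ]; exact h2 n)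
  refine ((toFinite ({1, Complex.I} : Set ℂ)).biUnion' fun c hc =>
    (finite_Icc (-⌈M / (1 / (m + 1))⌉) ⌈M / (1 / (m + 1))⌉).biUnion fun k _ =>
      fam_fin hVM h0 hf (h3 c hc m k).choose_spec).subset ?_
  rintro _ ⟨⟨γ, hγ, rfl⟩, hC⟩
  have hs : cluster (pts w ∩ LV V) γ ⊆ ball 0 M := fun z hz =>
    let ⟨c, hc, hz⟩ := mem_cluster.1 hz; hVM ((ch_mem hγ hc).2 hz)
  obtain ⟨c, hc, k, hk, ⟨p, hp, hp'⟩, h5⟩ := cross (δ := 1 / (m + 1)) (by positivity) hs
    (by linarith)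
  exact mem_iUnion₂.2 ⟨c, hc, mem_iUnion₂.2 ⟨k, hk, ⟨γ, hγ, rfl⟩,
    ⟨p, hp, ball_subset_closedBall (hs hp), hp'⟩, h5⟩⟩

end Vale.Agent.P155.Soup
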