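import Vale.Agent.P155I.UQA

/-!
# P155, block (I): uniqueness of soup families
-/

set_option linter.all false

namespace Vale.Agent.P155.Soup

open MeasureTheory Filter Topology ProbabilityTheory Set TopologicalSpace Metric Vale.Agent.P155
  Vale.Agent.P155.Q1 Vale.Agent.P155.Tree Vale.Agent.P155.Tree.UQ Vale.Agent.P155.BL
  Vale.Agent.P155.Uq

namespace Uqs

theorem base {μ : Set ℂ → Measure LoopColl} (h : IsSoupCLE μ) : Base μ := ⟨h.prob, h.simple⟩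

theorem contract (hW : ∃ W, IsWiener W) (hP : PUB) (hG : GS) (hT : TOPO) (hLM : LM)
    {μ ν : Set ℂ → Measure LoopColl} (hμ : IsSoupCLE μ) (hν : IsSoupCLE ν) {η c Δ : ℝ}
    (hη : 0 < η) (IH : Bd μ ν η c 0) (HB : Bd μ ν η (c + 1) Δ) : Bd μ ν η (c + 1) 0 := by
  intro Ω Z d g A
  rcases Z.eq_empty_or_nonempty with rfl | ⟨z₁, hz₁⟩
  · exact (bd_empty2 (base hμ) (base hν) A).le
  obtain ⟨W, hW⟩ := hW
  obtain ⟨⟨Θ, m, P, L, hL⟩, hall⟩ := hP Ω A.dom W hW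
  obtain ⟨K, mK, lK, dK⟩ := hall Θ m P L hL
  obtain ⟨κ, hκ, hκp, hκb, hκG⟩ := hμ.step Ω A.dom W hW Θ m P L hL
  obtain ⟨κ', hκ', hκp', hκb', hκG'⟩ := hν.step Ω A.dom W hW Θ m P L hL
  have := hμ.prob Ω A.dom
  have := hν.prob Ω A.dom
  obtain ⟨i1, e1⟩ := UQ.integral_bind (P := P) hκ (hκb ▸ int_FF hLM hη Z d A.obs (μ Ω))
  obtain ⟨i2, e2⟩ := UQ.integral_bind (P := P) hκ' (hκb' ▸ int_FF hLM hη Z d A.obs (ν Ω))
  rw [← hκb, ← hκb', e1, e2, norm_le_zero_iff, sub_eq_zero]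
  refine integral_congr_ae ?_
  obtain ⟨-, -, g1, g2⟩ := hG Ω A.dom
  have g3 : ∀ᵐ G : NC ∂(L1 Ω), ∀ z ∈ Z, z ∉ (G : Set ℂ) :=
    (eventually_all_finset Z).2 fun z hz => g2 z (A.sub z hz)
  rw [← lK] at g1 g3
  filter_upwards [hκG, hκG', dK, ae_of_ae_map mK.aemeasurable g1,
    ae_of_ae_map mK.aemeasurable g3] with ω h1 h2 h3 h4 h5
  have := hκp ω
  have k1 := h1.2
  have k2 := h2.2
  rw [← h3.1] at k1 k2
  have hz : ∀ z ∈ Z, z ∈ Ω \ (K ω : Set ℂ) := fun z hz => ⟨A.sub z hz, h5 z hz⟩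
  exact (step2 hLM hT (base hμ) (base hν) hη IH HB A subset_rfl
    (fun U hU => hT.2.2 Ω _ A.dom.1 A.dom.2.1 h4.carp U hU)
    (fun U hU => by
      obtain ⟨z, -, rfl⟩ := hU
      exact (connectedComponentIn_subset _ _).trans sdiff_subset)
    (fun U hU V hV hne => hole_disj hU hV hne)
    (fun z h => ⟨_, ⟨z, hz z h, rfl⟩, mem_connectedComponentIn (hz z h)⟩)
    k1 k2 hz₁ ⟨z₁, hz z₁ hz₁, rfl⟩ (mem_connectedComponentIn (hz z₁ hz₁))).2 ⟨z₁, hz z₁ hz₁, rfl⟩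

theorem bd_all (hW : ∃ W, IsWiener W) (hP : PUB) (hG : GS) (hT : TOPO) (hLM : LM)
    {μ ν : Set ℂ → Measure LoopColl} (hμ : IsSoupCLE μ) (hν : IsSoupCLE ν) {η : ℝ} (hη : 0 < η)
    (c : ℕ) : Bd μ ν η c 0 := by
  induction c with
  | zero =>
    intro Ω Z d g A
    rcases Z.eq_empty_or_nonempty with rfl | hZ
    · exact (bd_empty2 (base hμ) (base hν) A).le
    · have h1 : 0 < ∑ z ∈ Z, (1 + d z) :=
        Finset.sum_pos (fun z hz => by linarith [A.pos z hz]) hZ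
      have h2 := A.cx
      push_cast at h2
      linarith
  | succ c ih =>
    have h1 : Bd μ ν η (c + 1) 2 := by
      intro Ω Z d g A
      have := hμ.prob Ω A.dom
      have := hν.prob Ω A.dom
      have h1 := norm_integral_le_of_norm_le_const (μ := μ Ω) (ae_of_all _ (norm_FF η Z d g))
      have h2 := norm_integral_le_of_norm_le_const (μ := ν Ω) (ae_of_all _ (norm_FF η Z d g))
      rw [probReal_univ] at h1 h2
      refine (norm_sub_le _ _).trans ?_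
      linarith
    push_cast
    exact contract hW hP hG hT hLM hμ hν hη ih h1

end Uqs

open Uqs in
/-- **UQS** -/
theorem uqs_of (hW : ∃ W, IsWiener W) (hP : PUB) (hG : GS) (hT : TOPO) (hLM : LM) : UQS := by
  intro μ ν hμ hν Ω hΩ
  refine hLM.2.2.2.2.2 _ _ (hμ.prob Ω hΩ) (hν.prob Ω hΩ) fun g hg => ?_
  obtain ⟨η, hη, h0⟩ := hg.2
  refine tendsto_nhds_unique (lim2 hLM (base hμ) hΩ hg hη h0)
    ((lim2 hLM (base hν) hΩ hg hη h0).congr fun k => ?_)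
  obtain ⟨c, hc⟩ := exists_nat_ge (∑ _z ∈ UQ.pts Ω k, (1 + ((k : ℝ) + 1)))
  refine (sub_eq_zero.1 (norm_le_zero_iff.1 (bd_all hW hP hG hT hLM hμ hν hη c Ω _ _ _
    ⟨hΩ, fun z hz => ?_, obs_cut hLM hη _ hg, fun l _ h => ?_, fun _ _ => by positivity,
      hc⟩))).symm
  · classical
    exact (Finset.mem_filter.1 hz).2
  · by_contra h1
    exact h (if_neg h1)

end Vale.Agent.P155.Soup
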