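import Vale.Agent.P155I.TK

/-!
# P155, block (I): the explorations are measurable and local
-/

namespace Vale.Agent.P155.Soup

open MeasureTheory Set Metric TopologicalSpace Filter Topology Vale.Agent.P155
  Vale.Agent.P155.Q1 Vale.Agent.P155.Tree Vale.Agent.P155.BL Vale.Agent.P155.Uq
  Vale.Agent.P155S.Poi Relation

variable {X : Type} [MeasurableSpace X]

/-- chains of bounded length -/
def Rn (r : ℕ → ℕ → Prop) (i : ℕ) : ℕ → ℕ → Prop
  | 0, j => i = j
  | n + 1, j => ∃ k, Rn r i n k ∧ r k j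

theorem rtg_iff {r : ℕ → ℕ → Prop} {i j : ℕ} : ReflTransGen r i j ↔ ∃ n, Rn r i n j := by
  constructor
  · intro h
    induction h with
    | refl => exact ⟨0, rfl⟩
    | tail _ h ih => exact ih.elim fun n hn => ⟨n + 1, _, hn, h⟩
  · rintro ⟨n, h⟩
    induction n generalizing j with
    | zero => exact h ▸ .refl
    | succ n ih => exact h.elim fun k hk => (ih hk.1).tail hk.2

theorem ms_rtg {r : X → ℕ → ℕ → Prop} (h : ∀ a b, MeasurableSet {x | r x a b}) (i j : ℕ) :
    MeasurableSet {x | ReflTransGen (r x) i j} := by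
  refine ms_congr (ms_ex fun n => ?_) fun _ => rtg_iff
  induction n generalizing j with
  | zero => exact MeasurableSet.const _
  | succ n ih => exact ms_ex fun k => (ih k).inter (h k j)

theorem hit_range {γ : X → CL} (h : Measurable γ) : Hit fun x => range (γ x) := fun _ hO =>
  ms_congr (h (measurableSet_range_closed (X := S1) hO.isClosed_compl).compl) fun _ =>
    not_disjoint_iff_nonempty_inter.symm.trans subset_compl_iff_disjoint_right.symm.not

theorem closure_range (γ : CL) : closure (range γ) = range γ :=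
  (isCompact_range γ.continuous).isClosed.closure_eq

theorem ms_meet {γ γ' : X → CL} (h : Measurable γ) (h' : Measurable γ') :
    MeasurableSet {x | (range (γ x) ∩ range (γ' x)).Nonempty} :=
  ms_congr ((hit_range h).disj₂ (hit_range h')
    fun x => (isCompact_range (γ x).continuous).isBounded).compl fun x => by
      rw [← not_disjoint_iff_nonempty_inter, ← closure_range, ← closure_range (γ' x)]
      rfl

theorem ms_meet_closed {γ : X → CL} (h : Measurable γ) {Q : Set ℂ} (hQ : IsClosed Q) :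
    MeasurableSet {x | (range (γ x) ∩ Q).Nonempty} :=
  ms_congr ((hit_range h).disj hQ).compl fun x => by
    rw [← not_disjoint_iff_nonempty_inter, ← closure_range]
    rfl

theorem ms_LV {γ : X → CL} (h : Measurable γ) {V : X → Set ℂ} (hV : ROp V) :
    MeasurableSet {x | γ x ∈ LV (V x)} :=
  ms_congr ((hit_range h).disj₂ hV.2 fun x => (isCompact_range (γ x).continuous).isBounded)
    fun x => by
      rw [closure_range, (hV.1 x).isClosed_compl.closure_eq, disjoint_compl_right_iff_subset]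
      rfl

theorem cluster_eq (w : Cf CL) (B : Set CL) (i : ℕ) : cluster (pts w ∩ B) (w i).1 =
    ⋃ j, ⋃ _ : ReflTransGen (fun a b => ((w b).2 ∧ (w b).1 ∈ B) ∧
      (range (w a).1 ∩ range (w b).1).Nonempty) i j, range (w j).1 := by
  refine Subset.antisymm (iUnion₂_subset fun γ hγ => ?_) (iUnion₂_subset fun j hj =>
    subset_biUnion_of_mem (u := fun γ : CL => range γ) (hj.lift (fun a => (w a).1)
      fun a b h => ⟨⟨⟨b, h.1.1, rfl⟩, h.1.2⟩, h.2⟩))
  suffices ∃ j, ReflTransGen (fun a b => ((w b).2 ∧ (w b).1 ∈ B) ∧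
      (range (w a).1 ∩ range (w b).1).Nonempty) i j ∧ (w j).1 = γ by
    obtain ⟨j, h, rfl⟩ := this
    exact subset_iUnion₂_of_subset j h subset_rfl
  induction hγ with
  | refl => exact ⟨i, .refl, rfl⟩
  | tail _ h ih =>
    obtain ⟨j, h1, rfl⟩ := ih
    obtain ⟨⟨⟨k, h2, rfl⟩, h3⟩, h4⟩ := h
    exact ⟨k, h1.tail ⟨⟨h2, h3⟩, h4⟩, rfl⟩

section

variable {w : X → Cf CL} {V : X → Set ℂ} (hw : Measurable w) (hV : ROp V)
include hw

theorem ms_pt (i : ℕ) : Measurable fun x => (w x i).1 := by fun_prop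

theorem ms_alive (i : ℕ) : MeasurableSet {x | (w x i).2} :=
  measurableSet_setOfPred.2 (by fun_prop)

include hV

theorem hit_cluster (i : ℕ) : Hit fun x => cluster (pts (w x) ∩ LV (V x)) (w x i).1 := by
  simp only [cluster_eq]
  exact Hit.iUnion (fun j => hit_range (ms_pt hw j)) fun j => ms_rtg (fun a b =>
    ((ms_alive hw b).inter (ms_LV (ms_pt hw b) hV)).inter (ms_meet (ms_pt hw a) (ms_pt hw b))) i j

theorem hit_Us {Q : Set ℂ} (hQ : IsClosed Q) : Hit fun x => Us (pts (w x)) (V x) Q := by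
  have e (x : X) : Us (pts (w x)) (V x) Q = ⋃ i, ⋃ _ : ((w x i).2 ∧ (w x i).1 ∈ LV (V x)) ∧
      (range (w x i).1 ∩ Q).Nonempty, cluster (pts (w x) ∩ LV (V x)) (w x i).1 := by
    refine Subset.antisymm (iUnion₂_subset ?_) (iUnion₂_subset fun i h =>
      subset_iUnion₂_of_subset (w x i).1 ⟨⟨⟨i, h.1.1, rfl⟩, h.1.2⟩, h.2⟩ subset_rfl)
    rintro _ ⟨⟨⟨i, h1, rfl⟩, h2⟩, h3⟩
    exact subset_iUnion₂_of_subset i ⟨⟨h1, h2⟩, h3⟩ subset_rfl
  simp only [e]
  exact Hit.iUnion (hit_cluster hw hV) fun i =>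
    ((ms_alive hw i).inter (ms_LV (ms_pt hw i) hV)).inter (ms_meet_closed (ms_pt hw i) hQ)

end

theorem hole_subset {V T W : Set ℂ} (h : IsHole V T W) : W ⊆ V := by
  obtain ⟨z, -, rfl⟩ := h
  exact (connectedComponentIn_subset _ _).trans sdiff_subset

theorem Ex.loc {α : Type} {T : α → Set ℂ → Set ℂ → Set ℂ} {e : α → α → Set ℂ → Prop}
    (h1 : ∀ a b V Q, e a b V → T a V Q = T b V Q) (h2 : ∀ a b V W, W ⊆ V → e a b V → e a b W)
    {a b : α} {D : Set ℂ} : ∀ (l : List (Set ℂ)) (V : Set ℂ), e a b V → Ex (T a) D l V → Ex (T b) D l V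
  | [], _, _, h => h
  | Q :: l, V, he, h => by
    rw [Ex, h1 a b V Q he] at h
    exact h.imp_right fun ⟨W, a1, a2, a3⟩ =>
      ⟨W, a1, a2, Ex.loc h1 h2 l W (h2 a b V W (hole_subset a1) he) a3⟩

theorem inter_loc {α : Type} {a b s t : Set α} (h : t ⊆ s) (e : a ∩ s = b ∩ s) : a ∩ t = b ∩ t := by
  rw [← inter_eq_right.2 h, ← inter_assoc, e, inter_assoc]

/-- **MS** -/
theorem ms : MS :=
  ⟨fun _ _ _ _ hw hV => ⟨fun _ => hit_Us hw hV, hit_cluster hw hV⟩, fun _ _ _ =>
    Ex.loc (T := Ts) (e := fun L L' V => L ∩ LV V = L' ∩ LV V)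
      (fun _ _ _ _ h => by simp only [Ts, Us, h])
      fun _ _ _ _ h => inter_loc fun _ hγ => hγ.trans h⟩

theorem ms_of (_ : TK) : MS := ms

theorem hit_KK {G V : X → Set ℂ} (hG : Hit G) (hc : ∀ x, IsClosed (G x)) (hV : ROp V) {Q : Set ℂ}
    (hQ : IsClosed Q) : Hit fun x => SWR.KK (V x) Q (G x) := by
  have h := hV.diff hG hc
  have e (x : X) : SWR.KK (V x) Q (G x) = Q ∪ ⋃ i, ⋃ _ : ¬ Disjoint (closure (connectedComponentIn
      (V x \ G x) (denseSeq ℂ i))) Q, closure (connectedComponentIn (V x \ G x) (denseSeq ℂ i)) := by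
    unfold SWR.KK
    refine congrArg (Q ∪ ·) (Subset.antisymm (sUnion_subset ?_) (iUnion₂_subset fun i h =>
      subset_sUnion_of_mem ⟨_, ⟨_, ?_, rfl⟩, not_disjoint_iff_nonempty_inter.1 h, rfl⟩))
    · rintro _ ⟨_, ⟨z, hz, rfl⟩, h1, rfl⟩
      obtain ⟨i, hi⟩ := ex_q (h.1 x).connectedComponentIn ⟨z, mem_connectedComponentIn hz⟩
      rw [connectedComponentIn_eq hi] at h1 ⊢
      exact subset_iUnion₂_of_subset i (not_disjoint_iff_nonempty_inter.2 h1) subset_rfl
    · exact connectedComponentIn_nonempty_iff.1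
        ((not_disjoint_iff_nonempty_inter.1 h).mono inter_subset_left).of_closure
  simp only [e]
  exact (Hit.const Q).union
    (Hit.iUnion (fun i => (h.comp _).hit.cl) fun i => ((h.comp _).hit.disj hQ).compl)

/-- **MG** -/
theorem mg : MG :=
  ⟨fun _ _ G _ hG hV _ hQ => hit_KK (hit_nc hG) (fun x => (G x).isCompact.isClosed) hV hQ.isClosed,
    fun _ _ _ => Ex.loc (T := Tg) (e := fun G G' V => G ∩ V = G' ∩ V) (fun G G' V Q h => by
      have : V \ G = V \ G' := by rw [← sdiff_self_inter, inter_comm, h, inter_comm, sdiff_self_inter]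
      simp only [Tg, SWR.KK, IsHole, this]) fun _ _ _ _ => inter_loc⟩

theorem mg_of (_ : TK) : MG := mg

end Vale.Agent.P155.Soup
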