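import Vale.Agent.P155I.RA
import Vale.Agent.P155I.CARP
import Vale.Agent.P155I.CYL
import Vale.Agent.P155I.GOOD
import Vale.Agent.P155I.S2X
import Vale.Agent.P155I.DETX
import Vale.Agent.P155I.GB
import Vale.Agent.P155I.LAW
import Vale.Agent.P155I.LIST
import Vale.Agent.P155I.BLP
import Vale.Agent.P155I.REC
import Vale.Agent.P155I.FIN
import Vale.Agent.P155I.GX
import Vale.Agent.P155I.UQS
import Vale.Agent.P155S.FubD
import Vale.Agent.P155S.Multi
import Vale.Agent.P155T.MLE2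
import Vale.Agent.P155Z.LM
import Vale.Agent.P155Z.TOPO

/-!
# P155 route F, block (I): assembly (helper57)

Everything of block (I) wired together: the final statement follows from `MGE`
(and, for the moment, the two rows `SM` and `PUB`).
-/

set_option linter.all false

namespace Vale.Agent.P155.Soup

open MeasureTheory ProbabilityTheory Set Metric TopologicalSpace Filter Topology Vale.Agent.P155
  Vale.Agent.P155.Q1 Vale.Agent.P155.Tree Vale.Agent.P155.BL Vale.Agent.P155.Uq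
  Vale.Agent.P155S.Fub
open scoped NNReal ENNReal

theorem f1 : F1 := f1_of gs mle

theorem s1x : S1X := s1_of f1 gs

theorem ra : RA := ra_of s1x

theorem good_ge (ge : MGE) : GOOD :=
  good_of blp s1x (s2_of f1 (posf_of ge)) ra list_ok

theorem teq_ge (ge : MGE) : TEQ := teq_of law mg gs f1 (f2_of gs (f2f_of gs ge))

theorem carp_ge (ge : MGE) (sm : SM) : CARP :=
  carp_of (cyl_of (rec_of (teq_ge ge) sm gm gs tk ms mg fill_ok Tree.topo) detx_ok list_ok sb_ok
    gb_ok (good_ge ge) gs law tk ms mg fill_ok) (good_ge ge) sb_ok gb_ok gs law list_ok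

theorem mge_c (c : MGEc) : MGE := mge_of c gm gs

/-- the final statement from `PUB` -/
theorem final_pub (hP : PUB) :
    ((∃ W, IsWiener W) ∧ ∀ W, IsWiener W → ∀ Ω, Dom Ω →
      ∃ (Θ : Type) (_ : MeasurableSpace Θ) (P : Measure Θ) (L : ℕ → Θ → C(S1, ℂ)),
        IsPoisson P (intensity W Ω) L) ∧
    ∃ μ : Set ℂ → Measure LoopColl, IsSoupCLE μ ∧
      (∀ ν, IsSoupCLE ν → ∀ Ω, Dom Ω → ν Ω = μ Ω) ∧
      ∀ Ω, Dom Ω → (∃ S : Approx Ω, S.Outer) ∧
        ∀ S : Approx Ω, ((∀ F : LoopColl → ℝ, Continuous F → (∃ C, ∀ Γ, |F Γ| ≤ C) →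
          Tendsto (fun n => Vale.Agent.P155.Ex (S.T n).V (fun ω => F (LL (S.δ n) (S.a n) ω))) atTop
            (𝓝 (∫ Γ, F Γ ∂(μ Ω)))) ↔ S.Outer) ∧ (IsConnected (closure Ω)ᶜ → S.Outer) :=
  final_soup BL.exists_wiener hP (soup_of gx hP Tree.lm)
    (uqs_of BL.exists_wiener hP gs Tree.topo Tree.lm)

end Vale.Agent.P155.Soup
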