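import Vale.Agent.P155I.SM
import Vale.Agent.P155S.PoiF

/-!
# P155, block (I): the soups of the statement
-/

noncomputable section

namespace Vale.Agent.P155.Soup

open MeasureTheory ProbabilityTheory Set Metric Vale.Agent.P155 Vale.Agent.P155.BL
  Vale.Agent.P155S.Poi Vale.Agent.P155S.Fub
open scoped NNReal ENNReal

variable {W : Measure Pa}

theorem loopM_ne (hW : IsWiener W) : loopM W univ ≠ 0 := by
  have := hW.prob
  rw [← lintegral_one, lintegral_loopM measurable_const, lintegral_loopT measurable_const]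
  simp only [lintegral_const, measure_univ, mul_one]
  refine mul_ne_zero ((setLIntegral_pos_iff (by fun_prop)).2 ?_).ne' (by simp)
  refine lt_of_lt_of_le (by simp) (measure_mono (s := Ioi 0) fun t ht => ⟨?_, ht⟩)
  have : 0 < t := ht
  exact (ENNReal.ofReal_pos.2 (by positivity)).ne'

theorem lv_ball (hW : IsWiener W) (z : ℂ) {r : ℝ} (hr : 0 < r) :
    loopM W (LV (ball z r)) = loopM W (LV (ball 0 1)) := by
  rw [← hW.aff_map (c := r) (by exact_mod_cast hr.ne') z,
    Measure.map_apply (by fun_prop) (lv_meas isOpen_ball), hW.aff_map (by exact_mod_cast hr.ne')]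
  congr 1
  ext γ
  simp [LV, range_subset_iff, dist_eq_norm, abs_of_pos hr, hr]

/-- there are infinitely many loops in every open set -/
theorem lv_top (hW : IsWiener W) {Ω : Set ℂ} (h : IsOpen Ω) (h' : Ω.Nonempty) :
    loopM W (LV Ω) = ⊤ := by
  obtain ⟨z, hz⟩ := h'
  obtain ⟨r, hr, s⟩ := isOpen_iff.1 h z hz
  refine top_unique (le_trans (top_le_iff.2 ?_) ((lv_ball hW z hr).ge.trans
    (measure_mono fun γ a => subset_trans a s)))
  by_contra k
  have a : loopM W (LV (ball 0 1)) + loopM W (LV (ball 0 1)) ≤ loopM W (LV (ball 0 1)) + 0 := by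
    refine le_trans (add_le_add (lv_ball hW 1 one_pos).ge (lv_ball hW (-1) one_pos).ge) ?_
    rw [add_zero, ← lv_ball hW 0 two_pos, ← measure_union (lv_disj (ball_disjoint_ball
      (by norm_num [dist_eq_norm]))) (lv_meas isOpen_ball)]
    exact measure_mono (union_subset
      (fun γ a => subset_trans a (ball_subset_ball' (by norm_num)))
      fun γ a => subset_trans a (ball_subset_ball' (by norm_num)))
  refine loopM_ne hW (measure_mono_null (t := ⋃ n : ℕ, LV (ball 0 (n + 1))) (fun γ _ => ?_)
    (measure_iUnion_null fun n => (lv_ball hW 0 (by positivity)).trans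
      (le_zero_iff.1 ((ENNReal.add_le_add_iff_left k).1 a))))
  obtain ⟨R, hR⟩ := (isCompact_range γ.continuous).isBounded.subset_ball 0
  obtain ⟨n, hn⟩ := exists_nat_ge R
  exact mem_iUnion.2 ⟨n, hR.trans (ball_subset_ball (by linarith))⟩

theorem pts_mer2 (w : Cf CL × Cf CL) : pts (mer2 w) = pts w.1 ∪ pts w.2 := by
  ext
  simp only [mem_union, mem_pts, N_mer2, Measure.add_apply, ne_eq, add_eq_zero, not_and_or]

theorem pub_of (carp : CARP) : PUB := fun Ω hΩ W hW => by
  have := sf_nu hW
  have m := lv_meas hΩ.1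
  have e : intensity W Ω = (nu W).restrict (LV Ω) := (Measure.restrict_smul _ _ _).symm
  rw [e]
  refine ⟨?_, fun Θ _ P L h => ?_⟩
  · obtain ⟨μ, h⟩ := exists_poisson (ν := (nu W).restrict (LV Ω))
      (by simp [nu, lv_top hW hΩ.1 hΩ.2.2.1])
    exact ⟨_, _, μ, _, h⟩
  have h1 := ppp_of_poisson h
  have := h1.ne
  obtain ⟨P2, h2⟩ := exists_ppp ((nu W).restrict (LV Ω)ᶜ)
  have := h1.prob
  have := h2.prob
  have q := h2.mer2 h1
  rw [Measure.restrict_compl_add_restrict m] at q
  obtain ⟨A, mA, law, a⟩ := carp _ ⟨W, hW, q⟩ Ω hΩ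
  have b : ∀ᵐ p ∂P2.prod (P.map fun ω => al fun n => L n ω),
      (A (mer2 p) : Set ℂ) = carpet Ω (outer (pts p.2)) ∧ Desc Ω (pts p.2) (A (mer2 p)) := by
    filter_upwards [ae_of_ae_map meas_mer2.aemeasurable a,
      Measure.quasiMeasurePreserving_fst.ae (h2.null m (by simp [m])),
      Measure.quasiMeasurePreserving_snd.ae (h1.null m.compl (by simp [m]))] with p a b c
    rwa [pts_mer2, union_inter_distrib_right, ((N_eq_zero m).1 b).inter_eq, empty_union,
      inter_eq_left.2 (disjoint_compl_right_iff_subset.1 ((N_eq_zero m.compl).1 c))] at a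
  obtain ⟨w, c⟩ := (Measure.ae_ae_of_ae_prod b).exists
  have mA' : Measurable fun v => A (mer2 (w, v)) := mA.comp (meas_mer2.comp measurable_prodMk_left)
  refine ⟨fun ω => A (mer2 (w, al fun n => L n ω)), mA'.comp (meas_seq h), ?_,
    (ae_of_ae_map (meas_seq h).aemeasurable c).mono fun ω k => pts_al _ ▸ k.2⟩
  rw [← law, Measure.map_map mA meas_mer2, Measure.map_congr (g := (fun v => A (mer2 (w, v))) ∘ Prod.snd)
    (by
      filter_upwards [b, Measure.quasiMeasurePreserving_snd.ae c] with p b c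
      exact SetLike.ext' (b.1.trans c.1.symm)), ← Measure.map_map mA' measurable_snd,
    Measure.map_snd_prod, measure_univ, one_smul, Measure.map_map mA' (meas_seq h)]
  rfl

end Vale.Agent.P155.Soup
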