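import Vale.Agent.P155S.FubB
import Vale.Agent.P155S.PoiE
import Vale.Agent.P155B.Tail

/-!
# P155, block (I): the Markov property of the loop soup
-/

noncomputable section

namespace Vale.Agent.P155.Soup

open MeasureTheory ProbabilityTheory Set Metric Vale.Agent.P155 Vale.Agent.P155.BL
  Vale.Agent.P155S.Poi Vale.Agent.P155S.Fub
open scoped NNReal ENNReal Classical

theorem sf_nu {W : Measure Pa} (hW : IsWiener W) : SigmaFinite (nu W) :=
  have := hW.sigmaFinite_loopM
  (by simp [nu, ENNReal.smul_def] : ((2⁻¹ : ℝ≥0) • loopM W) = nu W) ▸ inferInstance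

theorem ind_congr {α β : Type*} {s : Set α} {t : Set β} {a : α} {b : β} (h : (a ∈ s) = (b ∈ t)) :
    s.indicator (1 : α → ℝ≥0∞) a = t.indicator 1 b := by
  simp only [indicator_apply, h, Pi.one_apply]

theorem hit_range {X : Type} [MeasurableSpace X] {g : X → CL} (hg : Measurable g) :
    Hit fun x => range (g x) := fun O hO => by
  simp only [← not_disjoint_iff_nonempty_inter, ← subset_compl_iff_disjoint_right]
  exact (hg (measurableSet_range_closed (X := Q1.S1) hO.isClosed_compl)).compl

theorem LocS.eq {V : Set ℂ} {E : Set (Cf CL)} (h : LocS V E) {w w' : Cf CL}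
    (e : pts w ∩ LV V = pts w' ∩ LV V) : (w ∈ E) = (w' ∈ E) := propext ⟨h _ _ e, h _ _ e.symm⟩

theorem lv_disj {U U' : Set ℂ} (h : Disjoint U U') : Disjoint (LV U) (LV U') :=
  disjoint_left.2 fun _ a b => disjoint_left.1 h (a ⟨0, rfl⟩) (b ⟨0, rfl⟩)

theorem markov_nc {ν : Measure CL} [SigmaFinite ν] {P : Measure (Cf CL)} (h : IsPPP ν P)
    {T : Cf CL → NC} (mT : Measurable T)
    (m : MeasurableSet {p : Cf CL × CL | p.2 ∈ (LV (T p.1 : Set ℂ)ᶜ)ᶜ})
    (st : St (fun w => (LV (T w : Set ℂ)ᶜ)ᶜ) T) {E : Set (NC × Cf CL)} (hE : MeasurableSet E)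
    (loc : ∀ K : NC, LocS (K : Set ℂ)ᶜ {w | (K, w) ∈ E}) :
    P {w | (T w, w) ∈ E} = ∫⁻ w, P {w' | (T w, w') ∈ E} ∂P := by
  have k : ∀ w w', E.indicator (1 : NC × Cf CL → ℝ≥0∞) (T w, res (LV (T w : Set ℂ)ᶜ)ᶜᶜ w') =
      {w' | (T w, w') ∈ E}.indicator 1 w' := fun w w' => ind_congr ((loc (T w)).eq (by
    rw [pts_res, compl_compl, inter_assoc, inter_self]))
  have := h.markov h ⟨m, st.comp fun K => (LV (K : Set ℂ)ᶜ)ᶜ⟩
    (Φ := fun w v => E.indicator 1 (T w, v))
    ((measurable_one.indicator hE).comp ((mT.comp measurable_fst).prodMk measurable_snd))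
    (fun v => st.comp fun K => E.indicator 1 (K, v)) fun w v v' e =>
      ind_congr ((loc (T w)).eq (by rw [pts_congr e]))
  simp only [k] at this
  exact (lintegral_indicator_one (mT.prodMk measurable_id hE)).symm.trans (this.trans
    (lintegral_congr fun w => lintegral_indicator_one (measurable_prodMk_left hE)))

theorem coe_nc {K : Set ℂ} (h : IsCompact K) (h' : K.Nonempty) : (toNC K : Set ℂ) = K := by
  rw [toNC, dif_pos ⟨h, h'⟩]
  rfl

theorem sm_of (tk : TK) (ms : MS) : SM := by
  rintro P ⟨W, hW, h⟩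
  have := sf_nu hW
  have := h.prob
  refine ⟨fun V Q hV bV hQ nQ E hE loc => ?_, fun s E hs d => ?_⟩
  · have hit : ∀ (X : Type) (_ : MeasurableSpace X) (w : X → Cf CL), Measurable w →
        Hit fun x => Q ∪ Us (pts (w x)) V Q := fun X _ w hw =>
      ((tk X _).2.2.1 _ _ (fun _ _ => .const _) ((ms.1 X _ w (fun _ => V) hw
        ⟨fun _ => hV, fun _ _ => .const _⟩).1 Q hQ.isClosed)).1
    have bd : ∀ w : Cf CL, Bornology.IsBounded (Q ∪ Us (pts w) V Q) := fun w =>
      hQ.isBounded.union (bV.subset us_sub)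
    have eT := fun w => coe_nc (bd w).isCompact_closure nQ.inl.closure
    have m : MeasurableSet {p : Cf CL × CL |
        p.2 ∈ (LV (toNC (closure (Q ∪ Us (pts p.1) V Q)) : Set ℂ)ᶜ)ᶜ} := by
      have := ((tk _ _).2.2.1 _ _ (hit_range measurable_snd)
        (hit _ _ Prod.fst measurable_fst)).2 fun p => (isCompact_range p.2.continuous).isBounded
      simp only [(isCompact_range (ContinuousMap.continuous _)).isClosed.closure_eq,
        ← subset_compl_iff_disjoint_right] at this
      simp only [eT]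
      exact this.compl
    refine markov_nc h (((tk _ _).1 _ (hit _ _ (fun w => w) measurable_id)).2.2.2.2 fun w => ⟨bd w, nQ.inl⟩)
      m (.of_pts (fun w => measurable_prodMk_left m) fun w w' e => ?_) hE loc
    have k : HL (pts w) V Q ⊆ (LV (closure (Q ∪ Us (pts w) V Q))ᶜ)ᶜ := fun γ ⟨_, z, a, b⟩ c =>
      c a (subset_closure b)
    rw [eT] at e
    rw [us_congr (L := pts w) (by rw [← inter_eq_right.2 k, ← inter_assoc, ← inter_assoc, e])]
  · have := h.prod_eq (B := fun U : s => LV U) (fun U => lv_meas (hs U U.2).1)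
      (fun U U' e => lv_disj (d U.2 U'.2 (Subtype.coe_ne_coe.2 e)))
      (F := fun U => (E U).indicator 1) Finset.univ
      (fun U _ => measurable_one.indicator (hs U U.2).2.1) fun U _ =>
        .of_pts (fun _ => lv_meas (hs U U.2).1) fun w w' e =>
          ind_congr ((hs U U.2).2.2.eq e.symm)
    simp only [lintegral_indicator_one (hs _ (Subtype.prop _)).2.1] at this
    rw [← Finset.prod_coe_sort, ← this,
      ← lintegral_indicator_one (s.measurableSet_biInter fun U hU => (hs U hU).2.1)]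
    exact lintegral_congr fun w => by simp [indicator_apply, Finset.prod_ite_zero]

end Vale.Agent.P155.Soup
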