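import Vale.Agent.P155I.Asm
import Vale.Agent.P155I.SM
import Vale.Agent.P155I.PUB

/-!
# P155 route F: the final statement from `MGEc` alone (helper57)
-/

set_option linter.all false

namespace Vale.Agent.P155.Soup

open MeasureTheory ProbabilityTheory Set Metric TopologicalSpace Filter Topology Vale.Agent.P155
  Vale.Agent.P155.Q1 Vale.Agent.P155.Tree Vale.Agent.P155.BL Vale.Agent.P155.Uq
  Vale.Agent.P155S.Fub
open scoped NNReal ENNReal

theorem pub_c (c : MGEc) : PUB := pub_of (carp_ge (mge_c c) (sm_of tk ms))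

/-- the final statement from `MGEc` -/
theorem final_c (c : MGEc) :
    ((∃ W, IsWiener W) ∧ ∀ W, IsWiener W → ∀ Ω, Dom Ω →
      ∃ (Θ : Type) (_ : MeasurableSpace Θ) (P : Measure Θ) (L : ℕ → Θ → C(S1, ℂ)),
        IsPoisson P (intensity W Ω) L) ∧
    ∃ μ : Set ℂ → Measure LoopColl, IsSoupCLE μ ∧
      (∀ ν, IsSoupCLE ν → ∀ Ω, Dom Ω → ν Ω = μ Ω) ∧
      ∀ Ω, Dom Ω → (∃ S : Approx Ω, S.Outer) ∧
        ∀ S : Approx Ω, ((∀ F : LoopColl → ℝ, Continuous F → (∃ C, ∀ Γ, |F Γ| ≤ C) →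
          Tendsto (fun n => Vale.Agent.P155.Ex (S.T n).V (fun ω => F (LL (S.δ n) (S.a n) ω))) atTop
            (𝓝 (∫ Γ, F Γ ∂(μ Ω)))) ↔ S.Outer) ∧ (IsConnected (closure Ω)ᶜ → S.Outer) :=
  final_pub (pub_c c)

end Vale.Agent.P155.Soup
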