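import Vale.Agent.P155S.Defs
import Vale.Agent.P155S.PoiA
import Vale.Agent.P155B.Def2
import Vale.Agent.P155.SW801.Defs
import Vale.Agent.P155Z.Sk

/-!
# P155, block (I): identification of the loop soup with the carpets, working definitions
-/

set_option linter.all false

namespace Vale.Agent.P155.Soup

open MeasureTheory ProbabilityTheory Set Metric TopologicalSpace Vale.Agent.P155
  Vale.Agent.P155.Q1 Vale.Agent.P155.Tree Vale.Agent.P155.BL Vale.Agent.P155.Uq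
  Vale.Agent.P155S.Poi
open scoped NNReal ENNReal

/-- nonempty compact sets -/
abbrev NC : Type := NonemptyCompacts ℂ

/-- random sets: the hitting events of open sets are measurable -/
def Hit {X : Type} [MeasurableSpace X] (F : X → Set ℂ) : Prop :=
  ∀ O : Set ℂ, IsOpen O → MeasurableSet {x | (F x ∩ O).Nonempty}

/-- random open sets -/
def ROp {X : Type} [MeasurableSpace X] (V : X → Set ℂ) : Prop :=
  (∀ x, IsOpen (V x)) ∧ Hit fun x => (V x)ᶜ

/-- the loops in `V` -/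
def LV (V : Set ℂ) : Set CL := {γ | range γ ⊆ V}

/-- the intensity of the soup in the whole plane -/
noncomputable def nu (W : Measure Pa) : Measure CL := (1 / 2 : ℝ≥0∞) • loopM W

/-- the clusters of the loops of `L` in `V` which meet `Q` -/
def Us (L : Set CL) (V Q : Set ℂ) : Set ℂ :=
  ⋃ γ ∈ {γ | γ ∈ L ∩ LV V ∧ (range γ ∩ Q).Nonempty}, cluster (L ∩ LV V) γ

/-- the members of `𝒦` in `V` which meet `Q` -/
def Uk (𝒦 : Set (Set ℂ)) (V Q : Set ℂ) : Set ℂ :=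
  ⋃₀ {K | K ∈ 𝒦 ∧ K ⊆ V ∧ (K ∩ Q).Nonempty}

/-- one step of the exploration of the soup -/
def Ts (L : Set CL) (V Q : Set ℂ) : Set ℂ := fill (Q ∪ Us L V Q)

/-- one step of the exploration of the carpet -/
def Tg (G : Set ℂ) (V Q : Set ℂ) : Set ℂ := fill (SWR.KK V Q G)

/-- one step of the exploration of a family of sets -/
def Tk (𝒦 : Set (Set ℂ)) (V Q : Set ℂ) : Set ℂ := fill (Q ∪ Uk 𝒦 V Q)

/-- the exploration along the list swallows `D` in one step -/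
def Ex (T : Set ℂ → Set ℂ → Set ℂ) (D : Set ℂ) : List (Set ℂ) → Set ℂ → Prop
  | [], _ => False
  | Q :: l, V => D ⊆ T V Q ∨ ∃ W, IsHole V (T V Q) W ∧ D ⊆ W ∧ Ex T D l W

/-- every member of the list touches `A` or an earlier member -/
def Adm : List (Set ℂ) → Set ℂ → Prop
  | [], _ => True
  | Q :: l, A => IsCompact Q ∧ IsConnected Q ∧ (Q ∩ A).Nonempty ∧ Adm l (A ∪ Q)

/-- disjoint locally finite families of filled continua -/
structure Blobs (Ω : Set ℂ) (𝒦 : Set (Set ℂ)) : Prop where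
  cpt : ∀ K ∈ 𝒦, IsCompact K
  conn : ∀ K ∈ 𝒦, IsConnected K
  full : ∀ K ∈ 𝒦, IsPreconnected Kᶜ
  sub : ∀ K ∈ 𝒦, K ⊆ Ω
  disj : 𝒦.Pairwise Disjoint
  fin : ∀ ε : ℝ, 0 < ε → {K | K ∈ 𝒦 ∧ ε < diam K}.Finite

/-- open sets which cut no member of `𝒦` -/
def Sat (𝒦 : Set (Set ℂ)) (W : Set ℂ) : Prop := IsOpen W ∧ ∀ K ∈ 𝒦, K ⊆ W ∨ Disjoint K W

/-- along the list, `T` is the exploration of `𝒦` -/
def Cons (T : Set ℂ → Set ℂ → Set ℂ) (𝒦 : Set (Set ℂ)) : List (Set ℂ) → Set ℂ → Prop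
  | [], _ => True
  | Q :: l, A => (∀ W, Sat 𝒦 W → Disjoint W A → T W Q = Tk 𝒦 W Q) ∧ Cons T 𝒦 l (A ∪ Q)

/-- rational closed discs -/
def RB : Set (Set ℂ) := {D | ∃ (i : ℕ) (r : ℚ), 0 < r ∧ D = closedBall (denseSeq ℂ i) r}

/-- finite unions of rational closed discs -/
def FU : Set (Set ℂ) := {A | ∃ s : Set (Set ℂ), s.Finite ∧ s.Nonempty ∧ s ⊆ RB ∧ A = ⋃₀ s}

/-- the clusters which miss `A` stay away from those which meet `A` -/
def Reg (L : Set CL) (Ω A : Set ℂ) : Prop := ∀ γ ∈ L ∩ LV Ω,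
  (cluster (L ∩ LV Ω) γ ∩ A).Nonempty ∨
    Disjoint (closure (cluster (L ∩ LV Ω) γ)) (closure (A ∪ Us L Ω A))

/-- the almost sure properties of the soup in `Ω` -/
structure GoodS (Ω : Set ℂ) (L : Set CL) : Prop where
  bl : ∀ γ ∈ L, range γ ⊆ closure (interior (fill (range γ)))
  ins : ∀ γ ∈ L ∩ LV Ω, closure (cluster (L ∩ LV Ω) γ) ⊆ Ω
  fin : ∀ ε : ℝ, 0 < ε →
    {C | (∃ γ ∈ L ∩ LV Ω, C = cluster (L ∩ LV Ω) γ) ∧ ε < diam C}.Finite
  reg : ∀ A ∈ FU, IsPreconnected (Ωᶜ ∪ A) → Reg L Ω A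

/-- the almost sure properties of the first carpet in `Ω` -/
structure GoodG (Ω : Set ℂ) (G : NC) : Prop where
  carp : Carp Ω G
  null : volume ((G : Set ℂ) ∩ Ω) = 0
  nice : SWR.Nice1 Ω G
  jor : ∀ U, IsHole Ω G U → ∃ γ : PL, IsJordan γ (frontier U)

/-- `lam` is the law of the first carpet in `V` -/
def IsL1 (V : Set ℂ) (lam : Measure NC) : Prop :=
  ∃ (Θ : Type) (_ : MeasurableSpace Θ) (P : Measure Θ) (G : ℕ → Θ → NC)
    (H : ℕ → Θ → (ℂ → ℝ) → ℝ), IsProbabilityMeasure P ∧ IsSignedCarpets P V G H ∧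
    lam = P.map (G 1)

open Classical in
/-- the law of the first carpet in `V` -/
noncomputable def L1 (V : Set ℂ) : Measure NC := if h : ∃ lam, IsL1 V lam then h.choose else 0

/-- events which depend on the loops in `V` only -/
def LocS (V : Set ℂ) (E : Set (Cf CL)) : Prop :=
  ∀ w w', pts w ∩ LV V = pts w' ∩ LV V → w ∈ E → w' ∈ E

/-- events which depend on the carpet in `V` only -/
def LocG (V : Set ℂ) (E : Set NC) : Prop :=
  ∀ G G' : NC, (G : Set ℂ) ∩ V = (G' : Set ℂ) ∩ V → G ∈ E → G' ∈ E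

/-- seeds and targets -/
structure Seed (V Q R : Set ℂ) : Prop where
  dom : Dom V
  cq : IsCompact Q
  cr : IsClosed R
  disj : Disjoint Q R
  pq : IsPreconnected (Vᶜ ∪ Q)
  pr : IsPreconnected (Vᶜ ∪ R)

/-- the carpet of a family of sets -/
def carpet (Ω : Set ℂ) (𝒦 : Set (Set ℂ)) : Set ℂ := closure Ω \ ⋃ K ∈ 𝒦, interior K

end Vale.Agent.P155.Soup
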