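import Vale.Agent.P155I.Sk
import Vale.Agent.P155H.Fill

/-!
# P155, block (I): the row FILL
-/

namespace Vale.Agent.P155.Soup

open Set Metric Vale.Agent.P155 Vale.Agent.P155.Q1 Vale.Agent.P155.Geo

theorem hole_fill {V C W : Set ℂ} (h : IsHole V (fill C) W) : IsHole V (closure C) W := by
  obtain ⟨z, hz⟩ := (hole_conn h).1
  have h1 := hole_sub h hz
  have h2 : W ⊆ V \ closure C := fun w hw =>
    ⟨(hole_sub h hw).1, fun h3 => (hole_sub h hw).2 (closure_sub_fill h3)⟩
  refine ⟨z, h2 hz, ((hole_conn h).2.subset_connectedComponentIn hz h2).antisymm ?_⟩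
  refine sub_hole h isPreconnected_connectedComponentIn (fun w hw => ?_)
    (mem_connectedComponentIn (h2 hz)) hz
  refine ⟨(connectedComponentIn_subset _ _ hw).1, fun h3 => h1.2 ?_⟩
  exact sub_fill_of_meet isPreconnected_connectedComponentIn
    (fun u hu => (connectedComponentIn_subset _ _ hu).2) hw h3 (mem_connectedComponentIn (h2 hz))

/-- **FILL** -/
theorem fill_ok : FILL := by
  refine ⟨fun C => ⟨closure_sub_fill, isClosed_fill, frontier_fill, fill_closure, fill_fill⟩,
    fun C C' h => fill_mono h, fun C hb => ⟨isCompact_fill hb, ⟨?_, fill_compl_preconn hb⟩,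
      fun q r h => fill_sub_closedBall h, diam_fill hb,
      fun h => ⟨h.1.mono sub_fill, fill_preconn h.2⟩⟩, fun C S hS h => sub_or_disj hS h,
    fun C S hS hb h => ?_, fun C K hK hc h => ?_, fun V C W h => hole_fill h⟩
  · rw [nonempty_iff_ne_empty]
    intro e
    exact fill_compl_unbdd hb (e ▸ Bornology.isBounded_empty)
  · exact subset_compl_iff_disjoint_right.1
      (disj_fill hS hb (subset_compl_iff_disjoint_right.2 h))
  · exact fill_sub hc hK.isBounded (closure_minimal h hK.isClosed)

end Vale.Agent.P155.Soup
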