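import Vale.Agent.P155I.Sk2
import Vale.Agent.P155Z.UL
import Vale.Agent.P155.SW924.Kstep
import Vale.Agent.P155.SW613.Restr
import Vale.Agent.P155.NT613.YRG
import Vale.Agent.P155H.Slit
import Vale.Agent.P155.SW801.Top
import Vale.Agent.P155.V743.Cap

/-!
# P155, block (I): the law of the first carpet and its restriction property
-/

set_option linter.all false

namespace Vale.Agent.P155.Soup

open MeasureTheory ProbabilityTheory Set Metric TopologicalSpace Filter Topology Vale.Agent.P155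
  Vale.Agent.P155.Q1 Vale.Agent.P155.Tree Vale.Agent.P155.BL Vale.Agent.P155.Uq
open scoped NNReal ENNReal

namespace Gs

instance : Nonempty NC := ⟨⟨⟨{0}, isCompact_singleton⟩, by simp⟩⟩

theorem isL1 {V : Set ℂ} (hV : Dom V) : IsL1 V (L1 V) := by
  obtain ⟨μ, hμ⟩ := exists_nested hV
  obtain ⟨Θ, m, P, G, ξ, hf⟩ := fair_of hμ
  have h : ∃ lam, IsL1 V lam := ⟨_, Θ, m, P, G, _, hf.prob, hf.sc, rfl⟩
  unfold L1
  rw [dif_pos h]
  exact h.choose_spec

theorem seq_one {V : Set ℂ} {Θ : Type} [MeasurableSpace Θ] {P : Measure Θ} {G : ℕ → Θ → NC}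
    {H : ℕ → Θ → (ℂ → ℝ) → ℝ} (h : IsSignedCarpets P V G H) :
    (P.map fun x k => G k x).map (fun s : ℕ → NC => s 1) = P.map (G 1) :=
  Measure.map_map (measurable_pi_apply 1) (NT730Y.meas_seq h)

theorem l1_eq {V : Set ℂ} (hV : Dom V) {Θ : Type} [MeasurableSpace Θ] {P : Measure Θ}
    [IsProbabilityMeasure P] {G : ℕ → Θ → NC} {H : ℕ → Θ → (ℂ → ℝ) → ℝ}
    (h : IsSignedCarpets P V G H) : P.map (G 1) = L1 V := by
  obtain ⟨Θ', m', P', G', H', hP', h', e⟩ := isL1 hV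
  rw [e, ← seq_one h, ← seq_one h', NT730Y.uniq_law hV.1 hV.2.1 hV.2.2.1 h h']

end Gs

open Gs in
/-- **GS** -/
theorem gs : GS := by
  intro V hV
  obtain ⟨Θ, m, P, G, H, hP, h, e⟩ := isL1 hV
  have mG : Measurable (G 1) := (h.meas 1).1
  refine ⟨e ▸ Measure.isProbabilityMeasure_map mG.aemeasurable, ?_, ?_, fun z hz => ?_⟩
  · rintro _ ⟨Θ', m', P', G', H', hP', h', rfl⟩
    exact l1_eq hV h'
  · obtain ⟨Q, hQ, eQ⟩ := NT730Y.exists_canon hV.1 hV.2.1 hV.2.2.1 h
    have := hQ.prob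
    have m1 : Measurable (fun (s : Sp V) (k : ℕ) => (s k).1) :=
      measurable_pi_lambda _ fun k => measurable_fst.comp (measurable_pi_apply k)
    have e1 : L1 V = Q.map fun s : Sp V => (s 1).1 := by
      rw [e, ← seq_one h, eQ, Measure.map_map (measurable_pi_apply 1) m1]
      rfl
    obtain ⟨μ, hμ⟩ := exists_nested hV
    obtain ⟨C, -, hC⟩ := ul V hV μ hμ
    have h1 := (hC Θ m P G H hP h).1
    rw [eQ] at h1
    have : Nonempty (Sp V) := nonempty_of_isProbabilityMeasure Q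
    rw [e1]
    refine ae_map_of_std (measurable_fst.comp (measurable_pi_apply 1)) ?_
    filter_upwards [ae_of_ae_map m1.aemeasurable h1,
      SW802.path_ae SW802.dj hV.1 hV.2.1 hV.2.2.1 hV.2.2.2 hQ] with s k1 k2
    exact ⟨⟨k2.conn 1, k2.zero.1 ▸ (k2.mono 0).1, (k2.mono 1).2⟩, k2.null 1, k2.nice,
      fun U hU => k1.jordan 1 U le_rfl hU⟩
  · rw [e, ae_map_iff mG.aemeasurable]
    · exact (NT613.rgoal V hV.1 hV.2.1 hV.2.2.1 hV.2.2.2 P G H h z hz).1.mono fun x k => k 1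
    · have : {K : NC | z ∉ (K : Set ℂ)} = {K : NC | ((K : Set ℂ) ∩ {z}).Nonempty}ᶜ := by
        ext K
        simp
      rw [this]
      exact (V743.Cap.isClosed_meets isClosed_singleton).measurableSet.compl

namespace Gs

/-- the carpet meets the closure of every component off the hull -/
theorem cap_ne {V K U : Set ℂ} {G : NC} (hV : Dom V) (hK : IsClosed K) (hG : GoodG V G)
    (hU : IsHole V (SWR.KK V K G) U) : ((G : Set ℂ) ∩ closure U).Nonempty := by
  by_contra h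
  rw [not_nonempty_iff_eq_empty] at h
  have hc := SWR.isClosed_KK hK hG.nice.fin hV.2.1
  have hUo : IsOpen U := CI.Holes.hole_open hV.1 hc hU
  have hUs := Geo.hole_sub hU
  have h1 : closure U ⊆ V \ G := by
    intro x hx
    have hx' : x ∉ (G : Set ℂ) := fun k => (h ▸ ⟨k, hx⟩ : x ∈ (∅ : Set ℂ))
    refine ⟨?_, hx'⟩
    by_contra k
    exact hx' (hG.carp.2.1 ⟨closure_mono (hUs.trans diff_subset) hx,
      fun k' => k (interior_subset k')⟩)
  obtain ⟨z, hz⟩ := (Geo.hole_conn hU).1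
  have hb : Bornology.IsBounded U := hV.2.1.subset (hUs.trans diff_subset)
  obtain ⟨x, hx⟩ : (frontier U).Nonempty := by
    rw [nonempty_iff_ne_empty]
    intro k
    rcases isClopen_iff.1 (isClopen_iff_frontier_eq_empty.2 k) with k' | k'
    · exact (k' ▸ hz : z ∈ (∅ : Set ℂ))
    · exact Topo.ne_univ hb k'
  have hx1 := h1 hx.1
  have hxb : x ∈ SWR.KK V K G := by
    by_contra k
    have h2 : IsHole V (SWR.KK V K G) (connectedComponentIn (V \ SWR.KK V K G) x) :=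
      ⟨x, ⟨hx1.1, k⟩, rfl⟩
    have h3 := mem_connectedComponentIn (show x ∈ V \ SWR.KK V K G from ⟨hx1.1, k⟩)
    obtain ⟨y, y1, y2⟩ := mem_closure_iff.1 hx.1 _ (CI.Holes.hole_open hV.1 hc h2) h3
    rw [hUo.frontier_eq] at hx
    exact hx.2 (Geo.hole_meet h2 hU y1 y2 ▸ h3)
  have hW : IsHole V G (connectedComponentIn (V \ G) x) := ⟨x, hx1, rfl⟩
  have hxW := mem_connectedComponentIn hx1
  have h4 : closure U ⊆ connectedComponentIn (V \ G) x :=
    (Geo.hole_conn hU).2.closure.subset_connectedComponentIn hx.1 h1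
  have h5 : closure (connectedComponentIn (V \ (G : Set ℂ)) x) ⊆ SWR.KK V K G := by
    rcases hxb with k | ⟨_, ⟨U', k1, k2, rfl⟩, k3⟩
    · exact SWR.touched_sub hW ⟨x, subset_closure hxW, k⟩
    · obtain ⟨y, y1, y2⟩ := mem_closure_iff.1 k3 _
        (CI.Holes.hole_open hV.1 G.isCompact.isClosed hW) hxW
      rw [Geo.hole_meet hW k1 y1 y2]
      exact SWR.touched_sub k1 k2
  exact (hUs hz).2 (h5 (subset_closure (h4 (subset_closure hz))))

end Gs

open Gs in
/-- **GM** -/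
theorem gm : GM := by
  intro V K hV hK hKc hVK
  obtain ⟨Θ, m, P, G, H, hP, h, e⟩ := isL1 hV
  obtain ⟨X, mX, ν, κ, b, hν, hκ, hb, hy⟩ := SW613.restr_of SW924.kstep V hV.1 hV.2.1 hV.2.2.1
    hV.2.2.2 Θ m P G H hP h K hK hKc hVK
  have m1 : Measurable fun s : ℕ → NC => s 1 := measurable_pi_apply 1
  have mκ : Measurable fun y => (κ y).map fun s : ℕ → NC => s 1 :=
    (Measure.measurable_map _ m1).comp κ.measurable
  have e1 : (ν.bind fun y => (κ y).map fun s : ℕ → NC => s 1) = L1 V := by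
    rw [e, ← seq_one h, hb]
    ext s hs
    rw [Measure.bind_apply hs mκ.aemeasurable, Measure.map_apply m1 hs,
      Measure.bind_apply (m1 hs) κ.measurable.aemeasurable]
    exact lintegral_congr fun y => Measure.map_apply m1 hs
  have hg : ∀ᵐ s ∂(ν.bind κ), GoodG V (s 1) := by
    have := (gs V hV).2.2.1
    rw [e, ← seq_one h, hb] at this
    exact ae_of_ae_map m1.aemeasurable this
  refine ⟨X, mX, ν, _, b, hν, mκ, fun y => Measure.isProbabilityMeasure_map m1.aemeasurable, e1, ?_⟩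
  filter_upwards [hy, Measure.ae_ae_of_ae_comp hg] with y ⟨y1, y2, y3⟩ y4
  obtain ⟨s₀, s1, s2⟩ := (y1.and y4).exists
  have hD : ∀ U, IsHole V (b y) U → Dom U := fun U hU =>
    Geo.dom_hole hV.1 hV.2.1 (s1 ▸ SWR.isClosed_KK hK s2.nice.fin hV.2.1)
      (s1 ▸ (SWR.isConnected_KK hKc (s₀ 1)).2) (s1 ▸ hVK.trans (SWR.sub_KK _ _ _)) hU
  refine ⟨ae_map_of_std m1 y1, hD, fun s E hE => ?_⟩
  classical
  set U : Fin s.card → Set ℂ := fun i => s.equivFin.symm i with hU
  have hUs : ∀ i, U i ∈ s := fun i => (s.equivFin.symm i).2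
  obtain ⟨a1, a2⟩ := y2 s.card U (Subtype.val_injective.comp s.equivFin.symm.injective)
    fun i => (hE _ (hUs i)).1
  have a3 := (iIndepFun_iff_measure_inter_preimage_eq_mul.1 a2) Finset.univ
    (sets := fun i => (fun t : ℕ → NC => t 1) ⁻¹' E (U i)) fun i _ => m1 (hE _ (hUs i)).2.1
  have a4 : ∀ i, κ y (SWR.rs0 (U i) ⁻¹' ((fun t : ℕ → NC => t 1) ⁻¹' E (U i))) = L1 (U i) (E (U i)) := by
    intro i
    obtain ⟨Θ', m', P', G', H', hP', h', e'⟩ := isL1 (hD _ (hE _ (hUs i)).1)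
    rw [← Measure.map_apply_of_aemeasurable (a1 i) (m1 (hE _ (hUs i)).2.1),
      y3 _ (hE _ (hUs i)).1 Θ' m' P' G' H' hP' h', e', ← seq_one h',
      Measure.map_apply m1 (hE _ (hUs i)).2.1]
  rw [Measure.map_apply m1 (s.measurableSet_biInter fun U hU => (hE U hU).2.1),
    ← Finset.prod_coe_sort, ← Equiv.prod_comp s.equivFin.symm,
    ← Finset.prod_congr rfl fun i _ => a4 i, ← a3]
  refine measure_congr ?_
  filter_upwards [y1, y4] with t t1 t2
  have a5 : ∀ i, (SWR.rs0 (U i) t 1 ∈ E (U i)) ↔ t 1 ∈ E (U i) := by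
    intro i
    obtain ⟨b1, -, b3⟩ := hE _ (hUs i)
    have b4 : (SWR.rs0 (U i) t 1 : Set ℂ) ∩ U i = (t 1 : Set ℂ) ∩ U i := by
      have : SWR.rs0 (U i) t 1 = toNC ((t 1 : Set ℂ) ∩ closure (U i)) := if_neg one_ne_zero
      rw [this, V743.Cap.coe_toNC ((t 1).isCompact.inter_right isClosed_closure)
        (cap_ne hV hK t2 (t1 ▸ b1)), inter_assoc, inter_eq_right.2 subset_closure]
    exact ⟨b3 _ _ b4, b3 _ _ b4.symm⟩
  refine propext ?_
  show (t 1 ∈ ⋂ U ∈ s, E U) ↔ t ∈ ⋂ i ∈ Finset.univ,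
    SWR.rs0 (U i) ⁻¹' ((fun t : ℕ → NC => t 1) ⁻¹' E (U i))
  simp only [mem_iInter, mem_preimage, a5]
  exact ⟨fun k i _ => k _ (hUs i), fun k W hW => by
    have := k (s.equivFin ⟨W, hW⟩) (Finset.mem_univ _)
    simpa [hU] using this⟩

end Vale.Agent.P155.Soup
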