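import Vale.Agent.P155I.FILL

/-!
# P155, block (I): the row SB
-/

namespace Vale.Agent.P155.Soup

open Set Metric TopologicalSpace Relation Vale.Agent.P155 Vale.Agent.P155.Q1 Vale.Agent.P155.Geo
  Vale.Agent.P155.Tree Vale.Agent.P155.BL

namespace Sb

variable {M L : Set CL} {γ γ' : CL} {z : ℂ} {Ω : Set ℂ}

/-- the chain relation -/
abbrev Ch (M : Set CL) : CL → CL → Prop :=
  ReflTransGen fun a b : CL => b ∈ M ∧ (range a ∩ range b).Nonempty

theorem mem_cl : z ∈ cluster M γ ↔ ∃ c, Ch M γ c ∧ z ∈ range c := by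
  simp only [cluster, mem_iUnion, mem_ofPred_eq, exists_prop]

theorem ch_mem (hγ : γ ∈ M) (h : Ch M γ γ') : γ' ∈ M := by
  cases h with
  | refl => exact hγ
  | tail _ h => exact h.1

theorem ch_symm (hγ : γ ∈ M) (h : Ch M γ γ') : Ch M γ' γ := by
  induction h with
  | refl => exact .refl
  | tail e e' ih => exact .head ⟨ch_mem hγ e, by rw [inter_comm]; exact e'.2⟩ ih

theorem range_sub (h : Ch M γ γ') : range γ' ⊆ cluster M γ := fun _ hz => mem_cl.2 ⟨γ', h, hz⟩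

theorem cl_sub (h : Ch M γ γ') : cluster M γ' ⊆ cluster M γ := fun _ hz =>
  let ⟨c, h1, h2⟩ := mem_cl.1 hz
  mem_cl.2 ⟨c, h.trans h1, h2⟩

theorem cl_eq (hγ : γ ∈ M) (h : Ch M γ γ') : cluster M γ' = cluster M γ :=
  (cl_sub h).antisymm (cl_sub (ch_symm hγ h))

theorem cl_mono {M' : Set CL} (h : M ⊆ M') : cluster M γ ⊆ cluster M' γ := fun _ hz =>
  let ⟨c, h1, h2⟩ := mem_cl.1 hz
  mem_cl.2 ⟨c, ReflTransGen.mono (fun _ _ e => ⟨h e.1, e.2⟩) _ _ h1, h2⟩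

theorem cl_conn (M : Set CL) (γ : CL) : IsConnected (cluster M γ) := by
  refine ⟨⟨γ 0, range_sub .refl ⟨0, rfl⟩⟩, isPreconnected_of_forall (γ 0) fun z hz => ?_⟩
  obtain ⟨c, h1, h2⟩ := mem_cl.1 hz
  suffices ∃ t ⊆ cluster M γ, γ 0 ∈ t ∧ range c ⊆ t ∧ IsPreconnected t from
    this.imp fun t e => ⟨e.1, e.2.1, e.2.2.1 h2, e.2.2.2⟩
  clear h2
  induction h1 with
  | refl => exact ⟨_, range_sub .refl, ⟨0, rfl⟩, subset_rfl, isPreconnected_range γ.continuous⟩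
  | @tail b c e e' ih =>
    obtain ⟨t, t1, t2, t3, t4⟩ := ih
    obtain ⟨y, y1, y2⟩ := e'.2
    exact ⟨t ∪ range c, union_subset t1 (range_sub (e.tail e')), .inl t2, subset_union_right,
      t4.union y (t3 y1) y2 (isPreconnected_range c.continuous)⟩

theorem cl_sub_dom {W : Set ℂ} (hγ : γ ∈ L ∩ LV W) : cluster (L ∩ LV W) γ ⊆ W := fun _ hz =>
  let ⟨_, h1, h2⟩ := mem_cl.1 hz
  (ch_mem hγ h1).2 h2

/-- a cluster which lies in `W` is a cluster of the loops in `W` -/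
theorem cl_sub_loc {W : Set ℂ} (h : cluster (L ∩ LV Ω) γ ⊆ W) :
    cluster (L ∩ LV Ω) γ ⊆ cluster (L ∩ LV W) γ := by
  intro z hz
  obtain ⟨c, h1, h2⟩ := mem_cl.1 hz
  refine mem_cl.2 ⟨c, ?_, h2⟩
  clear h2
  induction h1 with
  | refl => exact .refl
  | tail e e' ih => exact ih.tail ⟨⟨e'.1.1, (range_sub (e.tail e')).trans h⟩, e'.2⟩

/-- a cluster which lies in `W` and meets `Q` is explored -/
theorem cl_sub_us {W Q : Set ℂ} (hγ : γ ∈ L ∩ LV Ω) (h : cluster (L ∩ LV Ω) γ ⊆ W)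
    (hQ : (cluster (L ∩ LV Ω) γ ∩ Q).Nonempty) : cluster (L ∩ LV Ω) γ ⊆ Us L W Q := by
  obtain ⟨y, h1, h2⟩ := hQ
  obtain ⟨c, h3, h4⟩ := mem_cl.1 h1
  rw [← cl_eq hγ h3] at h ⊢
  exact (cl_sub_loc h).trans (subset_biUnion_of_mem (u := fun γ => cluster (L ∩ LV W) γ)
    (show c ∈ {γ | γ ∈ L ∩ LV W ∧ (range γ ∩ Q).Nonempty} from
      ⟨⟨(ch_mem hγ h3).1, (range_sub .refl).trans h⟩, y, h4, h2⟩))

theorem rb_fu {Q : Set ℂ} (h : Q ∈ RB) : Q ∈ FU :=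
  ⟨{Q}, finite_singleton _, singleton_nonempty _, singleton_subset_iff.2 h,
    (sUnion_singleton _).symm⟩

theorem fu_union {A B : Set ℂ} (hA : A ∈ FU) (hB : B ∈ FU) : A ∪ B ∈ FU := by
  obtain ⟨s, h1, h2, h3, rfl⟩ := hA
  obtain ⟨t, h4, -, h5, rfl⟩ := hB
  exact ⟨s ∪ t, h1.union h4, h2.mono subset_union_left, union_subset h3 h5,
    (sUnion_union _ _).symm⟩

/-- small rational discs around a point -/
theorem exists_rb {O : Set ℂ} (hO : IsOpen O) (hz : z ∈ O) :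
    ∃ D ∈ RB, D ⊆ O ∧ z ∈ interior D := by
  obtain ⟨r, hr, h1⟩ := Metric.isOpen_iff.1 hO z hz
  obtain ⟨q, h2, h3⟩ := exists_rat_btwn (half_pos hr)
  obtain ⟨i, hi⟩ := (denseRange_denseSeq ℂ).exists_dist_lt z h2
  refine ⟨_, ⟨i, q, by exact_mod_cast h2, rfl⟩, (closedBall_subset_ball' ?_).trans h1,
    interior_maximal ball_subset_closedBall isOpen_ball hi⟩
  rw [dist_comm]
  linarith

/-- connected finite unions of rational discs around a continuum -/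
theorem exists_fu {Γ O : Set ℂ} (hΓ : IsCompact Γ) (hc : IsConnected Γ) (hO : IsOpen O)
    (h : Γ ⊆ O) : ∃ A ∈ FU, Γ ⊆ interior A ∧ A ⊆ O ∧ IsConnected A := by
  choose! D h1 h2 h3 using fun z (hz : z ∈ Γ) => exists_rb hO (h hz)
  obtain ⟨t, ht, hcov⟩ := hΓ.elim_nhds_subcover (fun z => interior (D z))
    fun z hz => isOpen_interior.mem_nhds (h3 z hz)
  have h4 : Γ ⊆ interior (⋃₀ (D '' t)) := fun z hz => by
    obtain ⟨y, hy, h5⟩ := mem_iUnion₂.1 (hcov hz)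
    exact interior_mono (subset_sUnion_of_mem (mem_image_of_mem D hy)) h5
  obtain ⟨p, hp⟩ := hc.1
  have h5 := h4.trans interior_subset
  refine ⟨_, ⟨D '' t, t.finite_toSet.image _, ?_, ?_, rfl⟩, h4, ?_, ⟨p, h5 hp⟩,
    isPreconnected_of_forall p ?_⟩
  · obtain ⟨B, hB, -⟩ := h5 hp
    exact ⟨B, hB⟩
  · rintro _ ⟨y, hy, rfl⟩
    exact h1 y (ht y hy)
  · rintro z ⟨_, ⟨y, hy, rfl⟩, hz⟩
    exact h2 y (ht y hy) hz
  · rintro z ⟨_, ⟨y, hy, rfl⟩, hz⟩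
    refine ⟨Γ ∪ D y, union_subset h5 (subset_sUnion_of_mem (mem_image_of_mem D hy)), .inl hp, .inr hz,
      hc.2.union y (ht y hy) (interior_subset (h3 y (ht y hy))) ?_⟩
    obtain ⟨i, q, -, e⟩ := h1 y (ht y hy)
    rw [e]
    exact (convex_closedBall _ _).isPreconnected

section

variable (hΩ : Dom Ω) (hL : GoodS Ω L)
include hΩ

theorem cl_bdd (hγ : γ ∈ L ∩ LV Ω) : Bornology.IsBounded (cluster (L ∩ LV Ω) γ) :=
  hΩ.2.1.subset (cl_sub_dom hγ)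

include hL

theorem fin_fill {ε : ℝ} (hε : 0 < ε) :
    {K | (∃ γ ∈ L ∩ LV Ω, K = fill (cluster (L ∩ LV Ω) γ)) ∧ ε < diam K}.Finite := by
  refine ((hL.fin (ε / 2) (half_pos hε)).image fill).subset ?_
  rintro _ ⟨⟨γ, hγ, rfl⟩, h⟩
  exact ⟨_, ⟨⟨γ, hγ, rfl⟩, by linarith [diam_fill (cl_bdd hΩ hγ)]⟩, rfl⟩

omit hΩ in
theorem cl_sub_int (hγ : γ ∈ L ∩ LV Ω) :
    cluster (L ∩ LV Ω) γ ⊆ closure (interior (fill (cluster (L ∩ LV Ω) γ))) := fun _ hz =>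
  let ⟨c, h1, h2⟩ := mem_cl.1 hz
  closure_mono (interior_mono (fill_mono (range_sub h1))) (hL.bl c (ch_mem hγ h1).1 h2)

/-- every filled cluster lies in a maximal one -/
theorem exists_outer (hγ : γ ∈ L ∩ LV Ω) :
    ∃ K ∈ outer (L ∩ LV Ω), fill (cluster (L ∩ LV Ω) γ) ⊆ K := by
  obtain ⟨z, hz⟩ := closure_nonempty_iff.1 ((cl_conn _ γ).1.mono (cl_sub_int hL hγ))
  obtain ⟨r, hr, h1⟩ := Metric.isOpen_iff.1 isOpen_interior z hz
  have h2 : ∀ γ' ∈ L ∩ LV Ω, fill (cluster (L ∩ LV Ω) γ) ⊆ fill (cluster (L ∩ LV Ω) γ') →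
      r / 4 < diam (fill (cluster (L ∩ LV Ω) γ')) := by
    intro γ' hγ' h
    have h3 := dist_le_diam_of_mem (isBounded_fill (cl_bdd hΩ hγ'))
      (h (interior_subset (h1 (show z + (r / 2 : ℝ) ∈ ball z r by
        rw [mem_ball, dist_eq_norm, add_sub_cancel_left, Complex.norm_real,
          Real.norm_of_nonneg (half_pos hr).le]
        linarith)))) (h (interior_subset hz))
    rw [dist_eq_norm, add_sub_cancel_left, Complex.norm_real,
      Real.norm_of_nonneg (half_pos hr).le] at h3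
    linarith
  obtain ⟨K, h3, h4⟩ := (fin_fill hΩ hL (show 0 < r / 4 by positivity)).exists_le_maximal
    ⟨⟨γ, hγ, rfl⟩, h2 γ hγ subset_rfl⟩
  refine ⟨K, ⟨h4.1.1, ?_⟩, h3⟩
  rintro _ ⟨γ', hγ', rfl⟩ h5
  exact h4.2 ⟨⟨γ', hγ', rfl⟩, h2 γ' hγ' (h3.trans h5)⟩ h5

/-- a cluster which is not enclosed by another one stays away from it -/
theorem cl_disj (hγ : γ ∈ L ∩ LV Ω) (hγ' : γ' ∈ L ∩ LV Ω)
    (h : ¬ fill (cluster (L ∩ LV Ω) γ) ⊆ fill (cluster (L ∩ LV Ω) γ')) :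
    Disjoint (closure (cluster (L ∩ LV Ω) γ')) (closure (cluster (L ∩ LV Ω) γ)) := by
  set C := cluster (L ∩ LV Ω) γ
  set C' := cluster (L ∩ LV Ω) γ'
  have hb : Bornology.IsBounded (C ∪ C') := (cl_bdd hΩ hγ).union (cl_bdd hΩ hγ')
  have hO : IsOpen (fill (C ∪ C'))ᶜ := isClosed_fill.isOpen_compl
  have hΩO : Ωᶜ ⊆ (fill (C ∪ C'))ᶜ := compl_subset_compl.2 (fill_sub_dom hΩ (by
    rw [closure_union]
    exact union_subset (hL.ins γ hγ) (hL.ins γ' hγ')))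
  obtain ⟨p, hp⟩ := (dom_compl_conn hΩ).1
  have h1 : ∃ x ∈ closure (fill (C ∪ C'))ᶜ, x ∈ closure C ∧ x ∉ closure C' := by
    by_contra hc
    push Not at hc
    refine h ((fill_mono subset_union_left).trans (compl_subset_compl.1
      ((fill_compl_preconn (cl_bdd hΩ hγ')).subset_of_closure_inter_subset hO
        ⟨p, fun h2 => hΩO hp (fill_mono subset_union_right h2), hΩO hp⟩ fun x hx h2 => ?_)))
    have h3 : x ∈ frontier (fill (C ∪ C')) := by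
      rw [frontier_eq_closure_inter_closure]
      exact ⟨subset_closure h2, hx.1⟩
    have h4 := frontier_fill h3
    rw [closure_union] at h4
    exact hx.2 (closure_sub_fill (h4.elim (hc x hx.1) id))
  obtain ⟨x, h2, h3, h4⟩ := h1
  obtain ⟨r, hr, h5⟩ := Metric.isOpen_iff.1 isClosed_closure.isOpen_compl x h4
  obtain ⟨y, h6, h7⟩ := mem_closure_iff.1 h2 _ isOpen_ball (mem_ball_self hr)
  obtain ⟨c, h8, h9⟩ := mem_closure_iff.1 h3 _ isOpen_ball (mem_ball_self hr)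
  have h10 : IsConnected ((fill (C ∪ C'))ᶜ ∪ ball x r) := ⟨⟨y, .inl h7⟩,
    (fill_compl_preconn hb).union y h7 h6 (convex_ball x r).isPreconnected⟩
  obtain ⟨π, hπ⟩ := ((hO.union isOpen_ball).isConnected_iff_isPathConnected.1 h10).joinedIn
    p (.inl (hΩO hp)) c (.inr h8)
  obtain ⟨A, hA, h11, h12, h13⟩ := exists_fu (isCompact_range π.continuous)
    (isConnected_range π.continuous) (isClosed_closure (s := C')).isOpen_compl (by
      rintro _ ⟨t, rfl⟩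
      rcases hπ t with e | e
      · exact fun e' => e (fill_mono subset_union_right (closure_sub_fill e'))
      · exact h5 e)
  rcases hL.reg A hA ((dom_compl_conn hΩ).2.union p hp (interior_subset (h11 ⟨0, π.source⟩))
    h13.2) γ' hγ' with ⟨w, h14, h15⟩ | h14
  · exact absurd (subset_closure h14) (h12 h15)
  · exact h14.mono_right (closure_mono ((cl_sub_us hγ (cl_sub_dom hγ)
      ⟨c, h9, interior_subset (h11 ⟨1, π.target⟩)⟩).trans subset_union_right))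

theorem blobs : Blobs Ω (outer (L ∩ LV Ω)) := by
  refine ⟨?_, ?_, ?_, ?_, ?_, fun ε hε => (fin_fill hΩ hL hε).subset fun K hK => ⟨hK.1.1, hK.2⟩⟩
  · rintro _ ⟨⟨γ, hγ, rfl⟩, -⟩
    exact isCompact_fill (cl_bdd hΩ hγ)
  · rintro _ ⟨⟨γ, hγ, rfl⟩, -⟩
    exact ⟨(cl_conn _ γ).1.mono sub_fill, fill_preconn (cl_conn _ γ).2⟩
  · rintro _ ⟨⟨γ, hγ, rfl⟩, -⟩
    exact fill_compl_preconn (cl_bdd hΩ hγ)
  · rintro _ ⟨⟨γ, hγ, rfl⟩, -⟩
    exact fill_sub_dom hΩ (hL.ins γ hγ)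
  · intro K hK K' hK' hne
    have h1 : ¬ K ⊆ K' := fun h => hne (h.antisymm (hK.2 hK'.1 h))
    have h2 : ¬ K' ⊆ K := fun h => hne ((hK'.2 hK.1 h).antisymm h)
    obtain ⟨⟨γ, hγ, rfl⟩, -⟩ := hK
    obtain ⟨⟨γ', hγ', rfl⟩, -⟩ := hK'
    exact ((fill_trichotomy (cl_conn _ γ).2 (cl_conn _ γ').2
      (cl_disj hΩ hL hγ hγ' h1).symm).resolve_left h1).resolve_left h2

theorem step {A Q W : Set ℂ} (hA : A ∈ FU) (hc : IsPreconnected (Ωᶜ ∪ A)) (hQ : Q ⊆ A)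
    (hW : Sat (outer (L ∩ LV Ω)) W) (hWΩ : W ⊆ Ω) (hWA : W ∩ A ⊆ Q) :
    Ts L W Q = Tk (outer (L ∩ LV Ω)) W Q := by
  refine (fill_mono (union_subset_union_right _ ?_)).antisymm
    (fill_sub_fill (union_subset (subset_union_left.trans sub_fill) ?_))
  · refine iUnion₂_subset fun γ hγ => ?_
    have h1 : γ ∈ L ∩ LV Ω := ⟨hγ.1.1, Subset.trans hγ.1.2 hWΩ⟩
    obtain ⟨K, hK, h2⟩ := exists_outer hΩ hL h1
    have h3 : range γ ⊆ K := (range_sub .refl).trans (sub_fill.trans h2)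
    have h4 : L ∩ LV W ⊆ L ∩ LV Ω := fun c hc => ⟨hc.1, Subset.trans hc.2 hWΩ⟩
    refine (cl_mono h4).trans (sub_fill.trans (h2.trans
      (subset_sUnion_of_mem (S := {K | K ∈ outer (L ∩ LV Ω) ∧ K ⊆ W ∧ (K ∩ Q).Nonempty}) ⟨hK, (hW.2 K hK).resolve_right fun h => ?_,
        hγ.2.mono (inter_subset_inter_left _ h3)⟩)))
    exact disjoint_left.1 h (h3 ⟨0, rfl⟩) (hγ.1.2 ⟨0, rfl⟩)
  · refine sUnion_subset ?_
    rintro _ ⟨⟨⟨γ, hγ, rfl⟩, -⟩, h1, y, h2, h3⟩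
    have h4 := sub_fill.trans h1
    rcases hL.reg A hA hc γ hγ with ⟨w, h5, h6⟩ | h5
    · exact fill_mono ((cl_sub_us hγ h4 ⟨w, h5, hWA ⟨h4 h5, h6⟩⟩).trans subset_union_right)
    · refine absurd h2 (disj_fill hc (fun h => NormedSpace.unbounded_univ ℝ ℂ ?_) ?_ (.inr (hQ h3)))
      · rw [← union_compl_self Ω]
        exact hΩ.2.1.union (h.subset subset_union_left)
      · rintro x (hx | hx) hx'
        · exact hx (hL.ins γ hγ hx')
        · exact disjoint_left.1 h5 hx' (subset_closure (.inl hx))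

theorem cons : ∀ (l : List (Set ℂ)) (A : Set ℂ), (A = ∅ ∨ A ∈ FU) → IsPreconnected (Ωᶜ ∪ A) →
    (∀ Q ∈ l, Q ∈ RB) → Adm l (Ωᶜ ∪ A) → Cons (Ts L) (outer (L ∩ LV Ω)) l (Ωᶜ ∪ A)
  | [], _, _, _, _, _ => trivial
  | Q :: l, A, hA, hc, hl, ⟨_, h2, ⟨y, h3, h4⟩, h5⟩ => by
    have hQ := rb_fu (hl Q List.mem_cons_self)
    have hA' : A ∪ Q ∈ FU := by
      rcases hA with rfl | hA
      · rwa [empty_union]
      · exact fu_union hA hQ
    have hc' : IsPreconnected (Ωᶜ ∪ (A ∪ Q)) := by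
      rw [← union_assoc]
      exact hc.union y h4 h3 h2.2
    refine ⟨fun W hW hd => step hΩ hL hA' hc' subset_union_right hW
      (fun x hx => not_not.1 fun h => disjoint_left.1 hd hx (.inl h)) fun x hx =>
        hx.2.resolve_left fun h => disjoint_left.1 hd hx.1 (.inr h), ?_⟩
    rw [union_assoc] at h5 ⊢
    exact cons l _ (.inr hA') hc' (fun Q' h => hl Q' (List.mem_cons_of_mem _ h)) h5

end

end Sb

open Sb in
/-- **SB** -/
theorem sb_ok : SB := by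
  intro Ω L hΩ hL
  refine ⟨blobs hΩ hL, ?_, fun l hl h => ?_⟩
  · rintro _ ⟨⟨γ, hγ, rfl⟩, -⟩
    refine (closure_minimal interior_subset isClosed_fill).antisymm fun z hz => ?_
    by_cases h : z ∈ interior (fill (cluster (L ∩ LV Ω) γ))
    · exact subset_closure h
    · exact closure_minimal (cl_sub_int hL hγ) isClosed_closure
        (frontier_fill ⟨subset_closure hz, h⟩)
  · have := cons hΩ hL l ∅ (.inl rfl) (by simpa using (dom_compl_conn hΩ).2) hl (by simpa using h)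
    simpa using this

theorem sb_of (_ : FILL) (_ : LIST) (_ : TOPO) : SB := sb_ok

end Vale.Agent.P155.Soup
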