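import Vale.Agent.P155S.FubC
import Vale.Agent.P155S.PoiE
import Vale.Agent.P155I.MS
import Vale.Agent.P155I.SB
import Vale.Agent.P155H.Slit

/-!
# P155, block (I): the unexplored clusters stay away from the explored ones
-/

set_option linter.all false

noncomputable section

namespace Vale.Agent.P155S.Fub

open MeasureTheory Set Filter Topology Metric Vale.Agent.P155S.Poi Vale.Agent.P155 Vale.Agent.P155.BL
  Vale.Agent.P155.Soup Vale.Agent.P155.Geo Vale.Agent.P155S.Reg TopologicalSpace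
open scoped NNReal ENNReal Classical

/-- some cluster of `L` in `V` touches `T` -/
def Bad (V T : Set ℂ) (L : Set CL) : Prop :=
  ∃ γ ∈ L ∩ LV V, ¬ Disjoint (closure (cluster (L ∩ LV V) γ)) (closure T)

theorem bad_null (s1 : S1X) {W : Measure Pa} (hW : IsWiener W) {P : Measure (Cf CL)}
    (hP : IsPPP (nu W) P) {V T : Set ℂ} (hV : Tree.Dom V) (hT : IsPreconnected (Vᶜ ∪ T)) :
    ∀ᵐ w ∂P, ¬ Bad V T (pts w ∩ (LV V ∩ Mt T)ᶜ) := by
  obtain ⟨ho, hb, -⟩ := id hV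
  obtain ⟨B, b1, b2, b3⟩ := exists_measurable_superset_of_null
    (reg hW hT ((compl_inf hb).mono subset_union_left).nontrivial)
  have h2 : ∀ᵐ w ∂P, ∀ i, denseSeq ℂ i ∈ V \ closure (Vᶜ ∪ T) → _ := ae_all_iff.2 fun i =>
    eventually_imp_distrib_left.2 fun hi => s1 P ⟨W, hW, hP⟩ _ (dom_hole ho hb isClosed_closure
      hT.closure (subset_union_left.trans subset_closure) ⟨_, hi, rfl⟩)
  filter_upwards [h2, hP.null b2 (by simp [nu, b3])] with w h2 h1 ⟨γ, hγ, h⟩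
  have k : cluster (pts w ∩ (LV V ∩ Mt T)ᶜ ∩ LV V) γ ⊆ V \ closure (Vᶜ ∪ T) := fun z hz => by
    obtain ⟨c, c1, c2⟩ := Sb.mem_cl.1 hz
    have c3 := Sb.ch_mem hγ c1
    refine ⟨c3.2 c2, fun e => disjoint_left.1 ((N_eq_zero b2).1 h1) c3.1.1 (b1 ⟨⟨z, c2, e⟩, ?_⟩)⟩
    exact disjoint_left.2 fun y y1 y2 => y2.elim (fun e => e (c3.2 y1)) fun e => c3.1.2 ⟨c3.2, y, y1, e⟩
  have g0 := Sb.range_sub (M := pts w ∩ (LV V ∩ Mt T)ᶜ ∩ LV V) (γ := γ) .refl
  obtain ⟨i, hi⟩ := ex_q (ho.sdiff isClosed_closure).connectedComponentIn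
    ⟨_, mem_connectedComponentIn (k (g0 ⟨0, rfl⟩))⟩
  have k' := (Sb.cl_conn _ γ).2.subset_connectedComponentIn (g0 ⟨0, rfl⟩) k
  rw [connectedComponentIn_eq hi] at k'
  refine h (disjoint_left.2 fun z z1 z2 => (connectedComponentIn_subset _ _ (h2 i
    (connectedComponentIn_subset _ _ hi) γ ⟨hγ.1.1, g0.trans k'⟩ (closure_mono ((Sb.cl_sub_loc k').trans
      (Sb.cl_mono (inter_subset_inter_left _ inter_subset_left))) z1))).2
        (closure_mono subset_union_right z2))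

/-- **RA** -/
theorem ra_of (s1 : S1X) : RA := by
  rintro P ⟨W, hW, hP⟩ V A hV hA pc
  obtain ⟨ho, hb, -⟩ := id hV
  have := sf_nu hW
  have hH := stop_hl ho hA.isClosed
  have m : MeasurableSet {p : Cf CL × Cf CL | Bad V (A ∪ Us (pts p.1) V A) (pts p.2)} := by
    refine ms_congr (ms_ex fun i => ((ms_alive measurable_snd i).inter (ms_LV (ms_pt measurable_snd i)
      (ROp.const ho))).inter (Hit.disj₂ (F := fun p : Cf CL × Cf CL => A ∪ Us (pts p.1) V A)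
        ((Hit.const A).union (hit_Us measurable_fst (ROp.const ho) hA.isClosed))
        (hit_cluster measurable_snd (ROp.const ho) i)
        fun p => hA.isBounded.union (hb.subset us_sub)).compl) fun p => ?_
    exact ⟨fun ⟨_, ⟨⟨i, a, rfl⟩, b⟩, c⟩ => ⟨i, ⟨a, b⟩, fun e => c e.symm⟩,
      fun ⟨i, ⟨a, b⟩, c⟩ => ⟨_, ⟨⟨i, a, rfl⟩, b⟩, fun e => c e.symm⟩⟩
  have mΦ : Measurable fun p : Cf CL × Cf CL =>
      if Bad V (A ∪ Us (pts p.1) V A) (pts p.2) then (1 : ℝ≥0∞) else 0 :=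
    .ite m measurable_const measurable_const
  have e := hP.markov hP hH (Φ := fun w w' => if Bad V (A ∪ Us (pts w) V A) (pts w') then 1 else 0) mΦ
    (fun v => St.of_pts hH.ms fun w w' e => by rw [us_congr e])
    fun w => inv_pts fun L => if Bad V (A ∪ Us (pts w) V A) L then (1 : ℝ≥0∞) else 0
  rw [lintegral_congr fun w => (lintegral_congr_ae ((bad_null s1 hW hP hV (us_conn (L := pts w) pc
    (compl_inf hb).nonempty)).mono fun w' h => if_neg (by rwa [pts_res]))).trans lintegral_zero,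
      lintegral_zero] at e
  filter_upwards [(lintegral_eq_zero_iff (mΦ.comp (measurable_id.prodMk (meas_res
    (H := fun w => (HL (pts w) V A)ᶜ) measurable_id hH.meas.compl)))).1 e] with w h γ hγ
  refine or_iff_not_imp_left.2 fun c => by_contra fun d => ?_
  have nh : ∀ a, Sb.Ch (pts w ∩ LV V) γ a → a ∉ HL (pts w) V A := fun a a1 a2 => by
    obtain ⟨b, b1, b2, b', b3, b4⟩ := mem_us.1 (mem_us'.2 ⟨a, ⟨(Sb.ch_mem hγ a1).1, a2⟩, 0, rfl⟩)
    exact c (b2.mono (inter_subset_inter_left _ (Sb.range_sub ((a1.tail ⟨Sb.ch_mem b1 b3, _,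
      ⟨0, rfl⟩, b4⟩).trans (Sb.ch_symm b1 b3)))))
  refine one_ne_zero ((if_pos ?_).symm.trans h)
  rw [pts_res]
  refine ⟨γ, ⟨⟨hγ.1, nh γ .refl⟩, hγ.2⟩, fun e => d (e.mono_left (closure_mono fun z hz => ?_))⟩
  obtain ⟨a, a1, a2⟩ := Sb.mem_cl.1 hz
  refine Sb.mem_cl.2 ⟨a, ?_, a2⟩
  clear a2
  induction a1 with
  | refl => exact .refl
  | tail e e' ih => exact ih.tail ⟨⟨⟨e'.1.1, nh _ (e.tail e')⟩, e'.1.2⟩, e'.2⟩

end Vale.Agent.P155S.Fub
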