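import Vale.Agent.P155I.Defs

/-!
# P155, block (I): the statements of the rows
-/

set_option linter.all false

namespace Vale.Agent.P155.Soup

open MeasureTheory ProbabilityTheory Set Metric TopologicalSpace Filter Topology Vale.Agent.P155
  Vale.Agent.P155.Q1 Vale.Agent.P155.Tree Vale.Agent.P155.BL Vale.Agent.P155.Uq
  Vale.Agent.P155S.Poi
open scoped NNReal ENNReal

/-- `P` is the law of the loop soup in the whole plane -/
def Sp0 (P : Measure (Cf CL)) : Prop := ∃ W, IsWiener W ∧ IsPPP (nu W) P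

/-! ## Inputs -/

/-- **F1** (Fubini, from `m ≤ 1`) -/
def F1 : Prop := ∀ P, Sp0 P → ∀ V Q R, Seed V Q R →
  L1 V {G : NC | Disjoint (SWR.KK V Q G) R} ≤ P {w | Disjoint (Us (pts w) V Q) R}

/-- **F2** (Fubini, from `m ≥ 1`) -/
def F2 : Prop := ∀ P, Sp0 P → ∀ V Q R, Seed V Q R →
  P {w | Disjoint (closure (Us (pts w) V Q)) R} ≤ L1 V {G : NC | Disjoint (SWR.KK V Q G) R}

/-- **POS** (from `m ≥ 1`) -/
def POS : Prop := ∀ V Q R, Seed V Q R → L1 V {G : NC | Disjoint (SWR.KK V Q G) R} ≠ 0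

/-- **REG**: loops do not touch a connected set without meeting it -/
def REG : Prop := ∀ W, IsWiener W → ∀ U : Set ℂ, IsPreconnected U → U.Nontrivial →
  loopM W {γ : CL | (range γ ∩ closure U).Nonempty ∧ Disjoint (range γ) U} = 0

/-- **BLP**: every point of the loop is a limit of points enclosed by the loop -/
def BLP : Prop := ∀ W, IsWiener W →
  ∀ᵐ γ : CL ∂(loopM W), range γ ⊆ closure (interior (fill (range γ)))

/-! ## Deterministic rows -/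

/-- **FILL**: the filling -/
def FILL : Prop :=
  (∀ C : Set ℂ, closure C ⊆ fill C ∧ IsClosed (fill C) ∧ frontier (fill C) ⊆ closure C ∧
    fill (closure C) = fill C ∧ fill (fill C) = fill C) ∧
  (∀ C C' : Set ℂ, C ⊆ C' → fill C ⊆ fill C') ∧
  (∀ C : Set ℂ, Bornology.IsBounded C → IsCompact (fill C) ∧ IsConnected (fill C)ᶜ ∧
    (∀ q r, C ⊆ closedBall q r → fill C ⊆ closedBall q r) ∧ diam (fill C) ≤ 2 * diam C ∧
    (IsConnected C → IsConnected (fill C))) ∧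
  (∀ C S : Set ℂ, IsPreconnected S → Disjoint S (closure C) → S ⊆ fill C ∨ Disjoint S (fill C)) ∧
  (∀ C S : Set ℂ, IsPreconnected S → ¬ Bornology.IsBounded S → Disjoint S (closure C) →
    Disjoint S (fill C)) ∧
  (∀ C K : Set ℂ, IsCompact K → IsPreconnected Kᶜ → C ⊆ K → fill C ⊆ K) ∧
  ∀ V C W : Set ℂ, IsHole V (fill C) W → IsHole V (closure C) W

/-- **DET**: a fine exploration detects the members of the family -/
def DETX : Prop := ∀ Ω 𝒦, IsOpen Ω → Blobs Ω 𝒦 → ∀ D : Set ℂ, D.Nontrivial →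
  ∃ δ : ℝ, 0 < δ ∧ ∀ T l, Cons T 𝒦 l Ωᶜ → Adm l Ωᶜ → (∀ z ∈ Ω, ∃ Q ∈ l, z ∈ Q) →
    (∀ Q ∈ l, diam Q ≤ δ) → (Ex T D l Ω ↔ ∃ K ∈ 𝒦, D ⊆ K)

/-- **LIST**: fine lists of discs -/
def LIST : Prop := FU.Countable ∧ (∀ A ∈ FU, IsCompact A ∧ A.Nontrivial) ∧ RB ⊆ FU ∧
  (∀ A ∈ FU, ∀ B ∈ FU, A ∪ B ∈ FU) ∧
  ∀ Ω : Set ℂ, IsOpen Ω → Bornology.IsBounded Ω → ∀ δ : ℝ, 0 < δ →
    ∃ l : List (Set ℂ), Adm l Ωᶜ ∧ (∀ z ∈ Ω, ∃ Q ∈ l, z ∈ Q) ∧ ∀ Q ∈ l, Q ∈ RB ∧ diam Q ≤ δ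

/-- **SB**: the filled outermost clusters -/
def SB : Prop := ∀ Ω L, Dom Ω → GoodS Ω L → Blobs Ω (outer (L ∩ LV Ω)) ∧
  (∀ K ∈ outer (L ∩ LV Ω), closure (interior K) = K) ∧
  ∀ l, (∀ Q ∈ l, Q ∈ RB) → Adm l Ωᶜ → Cons (Ts L) (outer (L ∩ LV Ω)) l Ωᶜ

/-- **GB**: the closed holes of the carpet -/
def GB : Prop := ∀ Ω (G : NC), Dom Ω → GoodG Ω G →
  Blobs Ω (closure '' {U | IsHole Ω G U}) ∧ (∀ U, IsHole Ω G U → interior (closure U) = U) ∧
  ∀ l, Cons (Tg G) (closure '' {U | IsHole Ω G U}) l Ωᶜ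

/-! ## Measurability -/

/-- **TK**: random sets -/
def TK : Prop := ∀ (X : Type) (_ : MeasurableSpace X),
  (∀ F : X → Set ℂ, Hit F → Hit (fun x => closure (F x)) ∧ Hit (fun x => fill (F x)) ∧
    (∀ R, IsClosed R → MeasurableSet {x | Disjoint (closure (F x)) R}) ∧
    (∀ D : Set ℂ, MeasurableSet {x | D ⊆ closure (F x)}) ∧
    ((∀ x, Bornology.IsBounded (F x) ∧ (F x).Nonempty) →
      Measurable fun x => toNC (closure (F x)))) ∧
  (∀ F : X → NC, Measurable F → Hit fun x => (F x : Set ℂ)) ∧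
  (∀ F F' : X → Set ℂ, Hit F → Hit F' → Hit (fun x => F x ∪ F' x) ∧
    ((∀ x, Bornology.IsBounded (F x)) →
      MeasurableSet {x | Disjoint (closure (F x)) (closure (F' x))})) ∧
  (∀ V : X → Set ℂ, ROp V → Hit V ∧ (∀ D, IsClosed D → MeasurableSet {x | D ⊆ V x}) ∧
    ∀ T : X → Set ℂ, Hit T → (∀ x, IsClosed (T x)) → ∀ z : ℂ,
      ROp fun x => connectedComponentIn (V x \ T x) z) ∧
  ∀ (T : X → Set ℂ → Set ℂ → Set ℂ) (D : Set ℂ) (l : List (Set ℂ)), IsCompact D → D.Nonempty →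
    (∀ x V Q, IsClosed (T x V Q)) →
    (∀ Q ∈ l, ∀ V : X → Set ℂ, ROp V → Hit fun x => T x (V x) Q) →
    ∀ V : X → Set ℂ, ROp V → MeasurableSet {x | Ex (T x) D l (V x)}

/-- **MS**: the exploration of the soup is measurable and local -/
def MS : Prop :=
  (∀ (X : Type) (_ : MeasurableSpace X) (w : X → Cf CL) (V : X → Set ℂ), Measurable w → ROp V →
    (∀ Q, IsClosed Q → Hit fun x => Us (pts (w x)) (V x) Q) ∧
    ∀ i, Hit fun x => cluster (pts (w x) ∩ LV (V x)) (w x i).1) ∧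
  ∀ (L L' : Set CL) (D : Set ℂ) (l : List (Set ℂ)) (V : Set ℂ), L ∩ LV V = L' ∩ LV V →
    Ex (Ts L) D l V → Ex (Ts L') D l V

/-- **MG**: the exploration of the carpet is measurable and local -/
def MG : Prop :=
  (∀ (X : Type) (_ : MeasurableSpace X) (G : X → NC) (V : X → Set ℂ), Measurable G → ROp V →
    ∀ Q, IsCompact Q → Hit fun x => SWR.KK (V x) Q (G x)) ∧
  ∀ (G G' D : Set ℂ) (l : List (Set ℂ)) (V : Set ℂ), G ∩ V = G' ∩ V →
    Ex (Tg G) D l V → Ex (Tg G') D l V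

/-- **LAW**: the law of the filling, the law of a compact set -/
def LAW : Prop :=
  (∀ (X X' : Type) (_ : MeasurableSpace X) (_ : MeasurableSpace X') (P : Measure X)
    (P' : Measure X') (U : X → Set ℂ) (U' : X' → Set ℂ) (M : ℝ), IsProbabilityMeasure P →
    IsProbabilityMeasure P' → Hit U → Hit U' → (∀ x, (U x).Nonempty ∧ U x ⊆ ball 0 M) →
    (∀ x, (U' x).Nonempty ∧ U' x ⊆ ball 0 M) →
    (∀ R, IsClosed R → IsPreconnected R → (ball 0 (M + 1))ᶜ ⊆ R →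
      P {x | Disjoint (closure (U x)) R} = P' {x | Disjoint (closure (U' x)) R}) →
    P.map (fun x => toNC (fill (U x))) = P'.map fun x => toNC (fill (U' x))) ∧
  (∀ (X X' ι : Type) (_ : MeasurableSpace X) (_ : MeasurableSpace X') (P : Measure X)
    (P' : Measure X') (Y : X → ι → Prop) (Y' : X' → ι → Prop), Countable ι →
    IsProbabilityMeasure P → IsProbabilityMeasure P' → Measurable Y → Measurable Y' →
    (∀ s : Finset ι, P {x | ∀ i ∈ s, Y x i} = P' {x | ∀ i ∈ s, Y' x i}) → P.map Y = P'.map Y') ∧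
  ∀ (ι : Type) (K : Set ℂ) (O : ι → Set ℂ), Countable ι → IsCompact K → (∀ i, IsOpen (O i)) →
    Measurable fun y : ι → Prop => toNC (K \ ⋃ i ∈ {i | y i}, O i)

/-! ## The carpet side -/

/-- **GS**: the law of the first carpet -/
def GS : Prop := ∀ V, Dom V → IsProbabilityMeasure (L1 V) ∧ (∀ lam, IsL1 V lam → lam = L1 V) ∧
  (∀ᵐ G ∂(L1 V), GoodG V G) ∧ ∀ z ∈ V, ∀ᵐ G : NC ∂(L1 V), z ∉ (G : Set ℂ)

/-- **GM**: the restriction property -/
def GM : Prop := ∀ V K, Dom V → IsClosed K → IsConnected K → Vᶜ ⊆ K →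
  ∃ (X : Type) (_ : MeasurableSpace X) (ν : Measure X) (κ : X → Measure NC) (b : X → Set ℂ),
    IsProbabilityMeasure ν ∧ Measurable κ ∧ (∀ y, IsProbabilityMeasure (κ y)) ∧
    ν.bind κ = L1 V ∧ ∀ᵐ y ∂ν, (∀ᵐ G : NC ∂(κ y), SWR.KK V K G = b y) ∧
      (∀ U, IsHole V (b y) U → Dom U) ∧
      ∀ (s : Finset (Set ℂ)) (E : Set ℂ → Set NC), (∀ U ∈ s, IsHole V (b y) U ∧
        MeasurableSet (E U) ∧ LocG U (E U)) → κ y (⋂ U ∈ s, E U) = ∏ U ∈ s, L1 U (E U)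

/-- **GX**: nested CLE₄ given the first carpet -/
def GX : Prop := ∀ μ : Set ℂ → Measure LoopColl, (∀ V, Dom V → IsNestedCLE4 V (μ V)) →
  ∀ Ω, Dom Ω → ∃ κ : NC → Measure LoopColl, Measurable κ ∧ (∀ G, IsProbabilityMeasure (κ G)) ∧
    (L1 Ω).bind κ = μ Ω ∧
    ∀ᵐ G : NC ∂(L1 Ω), Given μ (κ G) {V | IsHole Ω G V} {V | IsHole Ω G V}

/-! ## The soup side -/

/-- **SM**: the Markov property and the independence in disjoint domains -/
def SM : Prop := ∀ P, Sp0 P →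
  (∀ V Q : Set ℂ, IsOpen V → Bornology.IsBounded V → IsCompact Q → Q.Nonempty →
    ∀ E : Set (NC × Cf CL), MeasurableSet E → (∀ T : NC, LocS (T : Set ℂ)ᶜ {w | (T, w) ∈ E}) →
    P {w | (toNC (closure (Q ∪ Us (pts w) V Q)), w) ∈ E} =
      ∫⁻ w, P {w' | (toNC (closure (Q ∪ Us (pts w) V Q)), w') ∈ E} ∂P) ∧
  ∀ (s : Finset (Set ℂ)) (E : Set ℂ → Set (Cf CL)), (∀ U ∈ s, IsOpen U ∧
    MeasurableSet (E U) ∧ LocS U (E U)) → (s : Set (Set ℂ)).Pairwise Disjoint →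
    P (⋂ U ∈ s, E U) = ∏ U ∈ s, P (E U)

/-- **S1**: the clusters do not touch the boundary -/
def S1X : Prop := ∀ P, Sp0 P → ∀ V, Dom V → ∀ᵐ w ∂P, ∀ γ ∈ pts w ∩ LV V,
  closure (cluster (pts w ∩ LV V) γ) ⊆ V

/-- **S2**: the clusters are locally finite -/
def S2X : Prop := ∀ P, Sp0 P → ∀ V, Dom V → ∀ᵐ w ∂P, ∀ ε : ℝ, 0 < ε →
  {C | (∃ γ ∈ pts w ∩ LV V, C = cluster (pts w ∩ LV V) γ) ∧ ε < diam C}.Finite

/-- **RA**: the unexplored clusters stay away from the explored ones -/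
def RA : Prop := ∀ P, Sp0 P → ∀ V A, Dom V → IsCompact A → IsPreconnected (Vᶜ ∪ A) →
  ∀ᵐ w ∂P, Reg (pts w) V A

/-- **TEQ**: one step has the same law on both sides -/
def TEQ : Prop := ∀ P, Sp0 P → ∀ V Q, Dom V → IsCompact Q → Q.Nonempty →
  IsPreconnected (Vᶜ ∪ Q) →
  P.map (fun w => toNC (Ts (pts w) V Q)) = (L1 V).map fun G : NC => toNC (Tg G V Q)

/-- **REC**: the explorations have the same law -/
def REC : Prop := ∀ P, Sp0 P → ∀ (l : List (Set ℂ)) (V : Set ℂ) (s : Finset (Set ℂ)), Dom V →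
  Adm l Vᶜ → (∀ D ∈ s, IsCompact D ∧ D.Nonempty) →
  P {w | ∀ D ∈ s, Ex (Ts (pts w)) D l V} = L1 V {G : NC | ∀ D ∈ s, Ex (Tg G) D l V}

/-- the description of the carpet `A` of the soup `L` -/
def Desc (Ω : Set ℂ) (L : Set CL) (A : NC) : Prop :=
  {V | IsHole Ω A V} = interior '' outer L ∧ ∀ F ∈ outer L, frontier (interior F) = frontier F

/-- **CARP**: the carpet of the soup has the law of the first carpet -/
def CARP : Prop := ∀ P, Sp0 P → ∀ Ω, Dom Ω → ∃ A : Cf CL → NC, Measurable A ∧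
  P.map A = L1 Ω ∧ ∀ᵐ w ∂P, (A w : Set ℂ) = carpet Ω (outer (pts w ∩ LV Ω)) ∧
    Desc Ω (pts w ∩ LV Ω) (A w)

/-- **PUB**: the same for the soups of the statement, which exist -/
def PUB : Prop := ∀ Ω, Dom Ω → ∀ W, IsWiener W →
  (∃ (Θ : Type) (_ : MeasurableSpace Θ) (P : Measure Θ) (L : ℕ → Θ → C(S1, ℂ)),
    IsPoisson P (intensity W Ω) L) ∧
  ∀ (Θ : Type) (_ : MeasurableSpace Θ) (P : Measure Θ) (L : ℕ → Θ → C(S1, ℂ)),
    IsPoisson P (intensity W Ω) L → ∃ A : Θ → NC, Measurable A ∧ P.map A = L1 Ω ∧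
      ∀ᵐ ω ∂P, Desc Ω (range fun n => L n ω) (A ω)

/-- **SOUP**: the laws of the starting files form a soup family -/
def SOUP : Prop := ∀ μ : Set ℂ → Measure LoopColl, (∀ V, Dom V → IsNestedCLE4 V (μ V)) →
  IsSoupCLE μ

/-- **UQS**: uniqueness of soup families -/
def UQS : Prop := ∀ μ ν : Set ℂ → Measure LoopColl, IsSoupCLE μ → IsSoupCLE ν →
  ∀ Ω, Dom Ω → μ Ω = ν Ω

end Vale.Agent.P155.Soup
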