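import Vale.Agent.P155I.Sk2
import Vale.Agent.P155S.FubB
import Vale.Agent.P155H.Fill

/-!
# P155, block (I): the row S1X, the clusters do not touch the boundary
-/

set_option linter.all false

namespace Vale.Agent.P155.Soup

open MeasureTheory Set Metric Filter Topology Relation Vale.Agent.P155 Vale.Agent.P155.Q1
  Vale.Agent.P155.Tree Vale.Agent.P155.BL Vale.Agent.P155S.Poi Vale.Agent.P155S.Fub
  Vale.Agent.P155.Geo TopologicalSpace
open scoped ENNReal

namespace S12

variable {L L' : Set CL} {a b c : CL} {V : Set ℂ} {q : ℂ} {r η : ℝ}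

/-- chains of loops of `L` -/
abbrev Ch (L : Set CL) : CL → CL → Prop :=
  ReflTransGen fun a b : CL => b ∈ L ∧ (range a ∩ range b).Nonempty

theorem mem_cluster {z : ℂ} : z ∈ cluster L a ↔ ∃ c, Ch L a c ∧ z ∈ range c := by
  simp only [cluster, mem_iUnion, mem_setOf_eq, exists_prop]

theorem ch_symm (ha : a ∈ L) (h : Ch L a b) : Ch L b a := by
  induction h with
  | refl => exact .refl
  | tail h1 h2 ih => exact .head ⟨ch_mem ha h1, inter_comm _ _ ▸ h2.2⟩ ih

theorem cluster_eq (ha : a ∈ L) (h : Ch L a b) : cluster L b = cluster L a :=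
  Set.ext fun _ => by
    simp only [mem_cluster]
    exact exists_congr fun c => and_congr_left fun _ => ⟨h.trans, (ch_symm ha h).trans⟩

theorem ch_in (h : Ch L a b) (k : ∀ c, Ch L a c → c ∈ L') : Ch L' a b := by
  induction h with
  | refl => exact .refl
  | tail h1 h2 ih => exact ih.tail ⟨k _ (h1.tail h2), h2.2⟩

theorem unb (hV : Dom V) (q : ℂ) (r : ℝ) : (Vᶜ ∩ (ball q r)ᶜ).Nonempty := by
  rw [← compl_union, nonempty_compl]
  exact fun e => NormedSpace.unbounded_univ ℝ ℂ (e ▸ hV.2.1.union isBounded_ball)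

theorem seed (hV : Dom V) (h0 : 0 < η) (h : η < r) :
    Seed V (cthickening η (Vᶜ ∩ closedBall q r)) (ball q (2 * r))ᶜ := by
  have k : IsCompact (Vᶜ ∩ closedBall q r) :=
    (isCompact_closedBall q r).inter_left hV.1.isClosed_compl
  refine ⟨hV, k.cthickening, isOpen_ball.isClosed_compl, disjoint_compl_right_iff_subset.2
    ((cthickening_subset_of_subset _ inter_subset_right).trans ?_), ?_,
    (dom_compl_conn hV).2.union' (unb hV _ _) (dom_compl_conn (dom_ball (by linarith))).2⟩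
  · rw [cthickening_closedBall h0.le (h0.trans h).le]
    exact closedBall_subset_ball (by linarith)
  · obtain ⟨x, hx⟩ := (dom_compl_conn hV).1
    refine isPreconnected_of_forall x fun y hy => ?_
    rcases hy with hy | hy
    · exact ⟨_, subset_union_left, hx, hy, (dom_compl_conn hV).2⟩
    · rw [k.cthickening_eq_biUnion_closedBall h0.le] at hy ⊢
      obtain ⟨p, hp, hy⟩ := mem_iUnion₂.1 hy
      exact ⟨_, union_subset_union_right _ (subset_biUnion_of_mem (u := fun x => closedBall x η) hp),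
        .inl hx, .inr hy, (dom_compl_conn hV).2.union p hp.1 (mem_closedBall_self h0.le)
          (convex_closedBall p η).isPreconnected⟩

theorem ev_disj (hV : Dom V) {G : Set ℂ} (hG : SWR.Nice1 V G) (hr : 0 < r) : ∀ᶠ η in 𝓝[>] (0 : ℝ),
    Disjoint (SWR.KK V (cthickening η (Vᶜ ∩ closedBall q r)) G) (ball q (2 * r))ᶜ := by
  have h1 : ∀ U ∈ {U | IsHole V G U ∧ r / 4 < diam U}, ∀ᶠ η in 𝓝[>] (0 : ℝ),
      Disjoint (closure U) (cthickening η Vᶜ) := fun U hU => by
    obtain ⟨δ, δ0, hδ⟩ := (disjoint_compl_right_iff_subset.2 (hG.inside U hU.1)).exists_cthickenings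
      (hV.2.1.subset ((hole_sub hU.1).trans diff_subset)).isCompact_closure hV.1.isClosed_compl
    filter_upwards [Ioo_mem_nhdsGT δ0] with η hη
    exact hδ.mono (self_subset_cthickening _) (cthickening_mono hη.2.le _)
  filter_upwards [((hG.fin (r / 4) (by positivity)).eventually_all).2 h1,
    Ioo_mem_nhdsGT (half_pos hr)] with η h2 hη
  refine disjoint_union_left.2 ⟨(seed hV hη.1 (by linarith [hη.2])).disj, disjoint_left.2 ?_⟩
  rintro y ⟨_, ⟨U, hU, ⟨x, hx, hx'⟩, rfl⟩, hy⟩ hy'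
  refine disjoint_left.1 (h2 U ⟨hU, ?_⟩) hx (cthickening_subset_of_subset _ inter_subset_left hx')
  have h3 := cthickening_subset_of_subset _ inter_subset_right hx'
  rw [cthickening_closedBall hη.1.le hr.le, mem_closedBall] at h3
  have h4 := dist_le_diam_of_mem
    (hV.2.1.subset ((hole_sub hU).trans diff_subset)).closure hy hx
  rw [diam_closure] at h4
  linarith [dist_triangle y x q, not_lt.1 (mt mem_ball.2 hy'), hη.2]

end S12

open S12 in
/-- **S1X** -/
theorem s1_of (f1 : F1) (gs : GS) : S1X := by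
  intro P hP V hV
  obtain ⟨W, hW, hP'⟩ := id hP
  have := hP'.prob
  obtain ⟨h1, -, h2, -⟩ := gs V hV
  have key : ∀ (q : ℂ) (r : ℝ), 0 < r → ∀ᵐ w ∂P, ∃ η > 0,
      Disjoint (Us (pts w) V (cthickening η (Vᶜ ∩ closedBall q r))) (ball q (2 * r))ᶜ := by
    intro q r hr
    obtain ⟨u, u1, u2, u3⟩ := exists_seq_strictAnti_tendsto' hr
    let S : ℕ → Set NC := fun n => {G : NC |
      Disjoint (SWR.KK V (cthickening (u n) (Vᶜ ∩ closedBall q r)) G) (ball q (2 * r))ᶜ}
    let T : ℕ → Set (Cf CL) := fun n => {w |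
      Disjoint (Us (pts w) V (cthickening (u n) (Vᶜ ∩ closedBall q r))) (ball q (2 * r))ᶜ}
    have m : MeasurableSet (⋃ n, T n) := .iUnion fun n =>
      meas_disj hV.1 isClosed_cthickening (mt_closed isOpen_ball.isClosed_compl)
    have h3 : Monotone fun n => ⋂ k ≥ n, S k := fun a b hab =>
      biInter_subset_biInter_left fun k hk => hab.trans hk
    have h4 : (1 : ℝ≥0∞) ≤ L1 V (⋃ n, ⋂ k ≥ n, S k) := by
      rw [← measure_univ (μ := L1 V)]
      refine measure_mono_ae (h2.mono fun G hG _ => ?_)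
      obtain ⟨n, hn⟩ := eventually_atTop.1 ((tendsto_nhdsWithin_iff.2 ⟨u3,
        .of_forall fun n => (u2 n).1⟩).eventually (ev_disj (q := q) hV hG.nice hr))
      exact mem_iUnion.2 ⟨n, mem_iInter₂.2 hn⟩
    rw [h3.measure_iUnion] at h4
    filter_upwards [(mem_ae_iff_prob_eq_one m).2 (prob_le_one.antisymm (h4.trans (iSup_le fun n =>
      (measure_mono (iInter₂_subset n le_rfl)).trans
      ((f1 P hP V _ _ (seed hV (u2 n).1 (u2 n).2)).trans
        (measure_mono (subset_iUnion T n))))))] with w hw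
    obtain ⟨n, hn⟩ := mem_iUnion.1 hw
    exact ⟨u n, (u2 n).1, hn⟩
  filter_upwards [ae_all_iff.2 fun i : ℕ => ae_all_iff.2 fun n : ℕ =>
    key (denseSeq ℂ i) (1 / (n + 1)) (by positivity)] with w hw γ hγ x hx
  by_contra hx'
  have d0 : 0 < dist (γ 0) x / 3 :=
    div_pos (dist_pos.2 fun e => hx' (e ▸ hγ.2 ⟨0, rfl⟩)) three_pos
  obtain ⟨n, hn⟩ := exists_nat_one_div_lt d0
  obtain ⟨i, hi⟩ := (denseRange_denseSeq ℂ).exists_dist_lt x
    (show (0 : ℝ) < 1 / (n + 1) by positivity)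
  obtain ⟨η, η0, hη⟩ := hw i n
  obtain ⟨y, hy, hy'⟩ := Metric.mem_closure_iff.1 hx η η0
  obtain ⟨c, hc, hc'⟩ := mem_cluster.1 hy
  refine disjoint_left.1 hη (mem_us.2 ⟨c, ch_mem hγ hc, ⟨y, hc', mem_cthickening_of_dist_le y x _ _
    ⟨hx', hi.le⟩ (dist_comm x y ▸ hy'.le)⟩, γ, ch_symm hγ hc, 0, rfl⟩) fun h => ?_
  linarith [dist_triangle_right (γ 0) x (denseSeq ℂ i), mem_ball.1 h]

end Vale.Agent.P155.Soup
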