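import Vale.Agent.P155I.Sk2
import Vale.Agent.P155Z.UNIQ

/-!
# P155, block (I): uniqueness, one step (after `P155Z/UNIQ`)
-/

set_option linter.all false

namespace Vale.Agent.P155.Soup.Uqs

open MeasureTheory Filter Topology ProbabilityTheory Set TopologicalSpace Metric Vale.Agent.P155
  Vale.Agent.P155.Q1 Vale.Agent.P155.Tree Vale.Agent.P155.Tree.UQ

/-- laws of collections of simple loops -/
structure Base (μ : Set ℂ → Measure LoopColl) : Prop where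
  prob : ∀ Ω, Dom Ω → IsProbabilityMeasure (μ Ω)
  simple : ∀ Ω, Dom Ω → ∀ᵐ Γ ∂(μ Ω), ∀ l, Γ.mult l ≠ 0 → ∃ (γ : PL) (U : Set ℂ), IsOpen U ∧
    U.Nonempty ∧ closure U ⊆ Ω ∧ IsJordan γ (frontier U) ∧ SeparationQuotient.mk γ = l

theorem ae_lin2 {μ : Set ℂ → Measure LoopColl} (hμ : Base μ) {Ω : Set ℂ} (hΩ : Dom Ω) :
    ∀ᵐ Γ ∂(μ Ω), ∀ l, Γ.mult l ≠ 0 → NCLE.LIn l Ω := by
  filter_upwards [hμ.simple Ω hΩ] with Γ h l hl
  obtain ⟨γ, U, -, -, h1, h2, rfl⟩ := h l hl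
  exact (lin_mk _ _).2 (h2.2 ▸ frontier_subset_closure.trans h1)

theorem triv2 {μ : Set ℂ → Measure LoopColl} (hμ : Base μ) {η c : ℝ} {Ω : Set ℂ} {Z : Finset ℂ}
    {d : ℂ → ℝ} {g : Loop → ℝ} (A : UQ.Adm η Ω Z d g c)
    (h : ∀ l, NCLE.LIn l Ω → η < l.diam → ∀ z ∈ Z, ¬ Sur z l) :
    ∫ Γ, FF η Z d g Γ ∂(μ Ω) = 1 := by
  have := hμ.prob Ω A.dom
  have h1 : ∀ᵐ Γ ∂(μ Ω), FF η Z d g Γ = 1 := by
    filter_upwards [ae_lin2 hμ A.dom] with Γ hΓ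
    have h2 : sm g Γ = 0 := sm_zero fun l hl => by
      by_contra h0
      obtain ⟨h3, z, hz, h4⟩ := A.supp l (hΓ l hl) h0
      exact h l (hΓ l hl) h3 z hz h4
    have h3 : ∀ z ∈ Z, sm (ind η z) Γ < d z := by
      intro z hz
      rw [sm_zero fun l hl => ?_]
      · exact A.pos z hz
      · by_contra h0
        exact h l (hΓ l hl) (ind_ne h0).1 z hz (ind_ne h0).2
    unfold FF
    rw [if_pos h3, h2]
    simp
  rw [integral_congr_ae h1]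
  simp

theorem step2 (hLM : LM) (hT : TOPO) {μ ν : Set ℂ → Measure LoopColl} (hμ : Base μ)
    (hν : Base ν) {η c Δ : ℝ} (hη : 0 < η) (IH : Bd μ ν η c 0) (HB : Bd μ ν η (c + 1) Δ)
    {Ω : Set ℂ} {Z : Finset ℂ} {d : ℂ → ℝ} {g : Loop → ℝ} (A : UQ.Adm η Ω Z d g (c + 1))
    {𝒱 𝒮 : Set (Set ℂ)} (hS : 𝒮 ⊆ 𝒱) (hD : ∀ V ∈ 𝒱, Dom V) (hsub : ∀ V ∈ 𝒱, V ⊆ Ω)
    (hd : 𝒱.Pairwise Disjoint) (hZ : ∀ z ∈ Z, ∃ U ∈ 𝒱, z ∈ U) {Q Q' : Measure LoopColl}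
    [IsProbabilityMeasure Q] (hG : Given μ Q 𝒱 𝒮) (hG' : Given ν Q' 𝒱 𝒮) {z₁ : ℂ} {U₁ : Set ℂ}
    (hz₁ : z₁ ∈ Z) (hU₁ : U₁ ∈ 𝒱) (hzU : z₁ ∈ U₁) :
    ‖∫ Γ, FF η Z d g Γ ∂Q - ∫ Γ, FF η Z d g Γ ∂Q'‖ ≤ Δ ∧
      (U₁ ∈ 𝒮 → ∫ Γ, FF η Z d g Γ ∂Q = ∫ Γ, FF η Z d g Γ ∂Q') := by
  classical
  have hΔ : 0 ≤ Δ := (norm_nonneg _).trans (HB Ω Z d g A)
  obtain ⟨Γ₀, h1, h1', h2⟩ := exists_outer hG hG'
  have h0 : ∀ V ∈ 𝒱, ∀ l, NCLE.LIn l V → g l ≠ 0 → ∃ z ∈ Z, Sur z l :=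
    fun V hV l hl h => (A.supp l (lin_mono hl (hsub V hV)) h).2
  set d' : ℂ → ℝ := fun z => d z - sm (ind η z) Γ₀ with hd'
  have hle : ∀ z, d' z ≤ d z := fun z => sub_le_self _ (sm_nonneg (ind_nonneg η z) Γ₀)
  choose! u hu hu' using hZ
  have hT1 : ∀ U ∈ Z.image u, U ∈ 𝒱 := by
    intro U hU
    obtain ⟨z, hz, rfl⟩ := Finset.mem_image.1 hU
    exact hu z hz
  have hT2 : ∀ z ∈ Z, ∃ U ∈ Z.image u, z ∈ U :=
    fun z hz => ⟨u z, Finset.mem_image_of_mem u hz, hu' z hz⟩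
  have of_eq : ∫ Γ, FF η Z d g Γ ∂Q = ∫ Γ, FF η Z d g Γ ∂Q' →
      ‖∫ Γ, FF η Z d g Γ ∂Q - ∫ Γ, FF η Z d g Γ ∂Q'‖ ≤ Δ ∧
      (U₁ ∈ 𝒮 → ∫ Γ, FF η Z d g Γ ∂Q = ∫ Γ, FF η Z d g Γ ∂Q') := by
    intro h
    refine ⟨?_, fun _ => h⟩
    rw [h, sub_self, norm_zero]
    exact hΔ
  by_cases hpos : ∀ z ∈ Z, 0 < d' z
  swap
  · push Not at hpos
    obtain ⟨z, hz, hz'⟩ := hpos
    have h3 : ∀ Γ, FF η (Z.filter (· ∈ u z)) d' g Γ = 0 := by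
      intro Γ
      refine if_neg fun h => ?_
      have := h z (Finset.mem_filter.2 ⟨hz, hu' z hz⟩)
      linarith [sm_nonneg (ind_nonneg η z) Γ]
    refine of_eq ?_
    rw [fact_int hLM hT hη hG hD hd hT1 hT2 A.obs h0 d h1,
      fact_int hLM hT hη hG' hD hd hT1 hT2 A.obs h0 d h1',
      Finset.prod_eq_zero (Finset.mem_image_of_mem u hz),
      Finset.prod_eq_zero (Finset.mem_image_of_mem u hz)]
    · simp only [← hd', h3, integral_zero]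
    · simp only [← hd', h3, integral_zero]
  have adm : ∀ U ∈ 𝒱, ∀ c', ∑ z ∈ Z.filter (· ∈ U), (1 + d' z) ≤ c' →
      UQ.Adm η U (Z.filter (· ∈ U)) d' g c' := by
    intro U hU c' hc
    refine ⟨hD U hU, fun z hz => (Finset.mem_filter.1 hz).2, A.obs, fun l hl h => ?_,
      fun z hz => hpos z (Finset.mem_filter.1 hz).1, hc⟩
    obtain ⟨h3, z, hz, h4⟩ := A.supp l (lin_mono hl (hsub U hU)) h
    exact ⟨h3, z, Finset.mem_filter.2 ⟨hz, mem_of_sur hT (hD U hU) hl h4⟩, h4⟩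
  by_cases hall : ∀ z ∈ Z, z ∈ U₁
  swap
  · refine of_eq ?_
    rw [fact_int hLM hT hη hG hD hd hT1 hT2 A.obs h0 d h1,
      fact_int hLM hT hη hG' hD hd hT1 hT2 A.obs h0 d h1']
    congr 1
    refine Finset.prod_congr rfl fun U hU => ?_
    obtain ⟨z₀, hz₀, hz₀'⟩ : ∃ z₀ ∈ Z, z₀ ∉ U := by
      by_cases e : U = U₁
      · push Not at hall
        exact e ▸ hall
      · exact ⟨z₁, hz₁, fun h => (hd (hT1 U hU) hU₁ e).notMem_of_mem_left h hzU⟩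
    refine sub_eq_zero.1 (norm_le_zero_iff.1 (IH U _ d' g (adm U (hT1 U hU) c ?_)))
    have h3 : ∑ z ∈ Z.filter (· ∈ U), (1 + d' z) ≤ ∑ z ∈ Z.erase z₀, (1 + d' z) := by
      refine Finset.sum_le_sum_of_subset_of_nonneg (fun z hz => ?_) fun z hz _ => ?_
      · rw [Finset.mem_filter] at hz
        exact Finset.mem_erase.2 ⟨fun e => hz₀' (e ▸ hz.2), hz.1⟩
      · linarith [hpos z (Finset.mem_of_mem_erase hz)]
    have h4 : ∑ z ∈ Z.erase z₀, (1 + d' z) ≤ ∑ z ∈ Z.erase z₀, (1 + d z) :=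
      Finset.sum_le_sum fun z _ => by linarith [hle z]
    have h5 := Finset.add_sum_erase Z (fun z => 1 + d z) hz₀
    linarith [A.cx, A.pos z₀ hz₀]
  have hT1' : ∀ U ∈ ({U₁} : Finset (Set ℂ)), U ∈ 𝒱 := by simpa using hU₁
  have hT2' : ∀ z ∈ Z, ∃ U ∈ ({U₁} : Finset (Set ℂ)), z ∈ U := by simpa using hall
  have hf : Z.filter (· ∈ U₁) = Z := Finset.filter_true_of_mem hall
  have adm' : ∀ c', ∑ z ∈ Z, (1 + d' z) ≤ c' → UQ.Adm η U₁ Z d' g c' := by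
    intro c' hc
    have := adm U₁ hU₁ c' (by rwa [hf])
    rwa [hf] at this
  have h4 : ∑ z ∈ Z, (1 + d' z) ≤ ∑ z ∈ Z, (1 + d z) :=
    Finset.sum_le_sum fun z _ => by linarith [hle z]
  rw [fact_int hLM hT hη hG hD hd hT1' hT2' A.obs h0 d h1,
    fact_int hLM hT hη hG' hD hd hT1' hT2' A.obs h0 d h1', Finset.prod_singleton,
    Finset.prod_singleton, ← hd', hf]
  refine ⟨?_, fun hs => ?_⟩
  · rw [← mul_sub, norm_mul, norm_exp, one_mul]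
    exact HB U₁ Z d' g (adm' _ (h4.trans A.cx))
  congr 1
  obtain ⟨γ, hγ⟩ := hG.jordan U₁ hs
  by_cases hbig : η < Loop.diam (SeparationQuotient.mk γ)
  · refine sub_eq_zero.1 (norm_le_zero_iff.1 (IH U₁ Z d' g (adm' c ?_)))
    have h5 : Γ₀.mult (SeparationQuotient.mk γ) = 1 := by
      rw [h2 _ (UQ.outer (fun V hV => (hD V hV).1) hd hU₁ hγ.2)]
      exact ncard_one hD hd hS hs hγ
    have h6 := le_sm (obs_ind hLM hη z₁) (ind_nonneg η z₁) Γ₀ (SeparationQuotient.mk γ)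
    have h7 : ind η z₁ (SeparationQuotient.mk γ) = 1 :=
      if_pos ⟨hbig, sur_of_mem (hD U₁ hU₁).1 (hD U₁ hU₁).2.1 hγ.2 hzU⟩
    rw [h5, h7] at h6
    have h8 : ∑ z ∈ Z.erase z₁, (1 + d' z) ≤ ∑ z ∈ Z.erase z₁, (1 + d z) :=
      Finset.sum_le_sum fun z _ => by linarith [hle z]
    have h9 := Finset.add_sum_erase Z (fun z => 1 + d z) hz₁
    have h10 := Finset.add_sum_erase Z (fun z => 1 + d' z) hz₁
    have h11 : d' z₁ = d z₁ - sm (ind η z₁) Γ₀ := rfl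
    push_cast at h6
    linarith [A.cx]
  · have h5 : ∀ l, NCLE.LIn l U₁ → η < l.diam → ∀ z ∈ Z, ¬ Sur z l := by
      intro l hl h
      exact absurd (h.trans_le (diam_le_of_lin (hD U₁ hU₁).1 (hD U₁ hU₁).2.1 hγ.2 hl)) hbig
    rw [triv2 hμ (adm' _ le_rfl) h5, triv2 hν (adm' _ le_rfl) h5]

theorem bd_empty2 {μ ν : Set ℂ → Measure LoopColl} (hμ : Base μ) (hν : Base ν) {η c : ℝ}
    {Ω : Set ℂ} {d : ℂ → ℝ} {g : Loop → ℝ} (A : UQ.Adm η Ω ∅ d g c) :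
    ‖∫ Γ, FF η ∅ d g Γ ∂(μ Ω) - ∫ Γ, FF η ∅ d g Γ ∂(ν Ω)‖ = 0 := by
  rw [triv2 hμ A (by simp), triv2 hν A (by simp), sub_self, norm_zero]

theorem lim2 (hLM : LM) {μ : Set ℂ → Measure LoopColl} (hμ : Base μ) {Ω : Set ℂ} (hΩ : Dom Ω)
    {g : Loop → ℝ} (hg : Obs g) {η : ℝ} (hη : 0 < η) (h0 : ∀ l : Loop, l.diam ≤ η → g l = 0) :
    Tendsto (fun k : ℕ => ∫ Γ, FF η (pts Ω k) (fun _ => k + 1) (cut η (pts Ω k) g) Γ ∂(μ Ω))
      atTop (𝓝 (∫ Γ, Complex.exp (Complex.I * sm g Γ) ∂(μ Ω))) := by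
  classical
  have := hμ.prob Ω hΩ
  refine tendsto_integral_of_dominated_convergence (fun _ => 1)
    (fun k => (meas_FF hLM hη _ _ (obs_cut hLM hη _ hg)).aestronglyMeasurable)
    (integrable_const _) (fun k => ae_of_all _ (norm_FF _ _ _ _)) ?_
  filter_upwards [hμ.simple Ω hΩ] with Γ hΓ
  refine tendsto_const_nhds.congr' ?_
  have hb : Obs fun l : Loop => if η < l.diam then (1 : ℝ) else 0 := by
    let : MeasurableSpace Loop := borel Loop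
    exact ⟨Measurable.ite (meas_big η) measurable_const measurable_const, η, hη,
      fun l hl => if_neg hl.not_gt⟩
  have h1 : ∀ z, sm (ind η z) Γ ≤ sm (fun l : Loop => if η < l.diam then (1 : ℝ) else 0) Γ := by
    intro z
    refine finsum_le_finsum' (fin_supp (obs_ind hLM hη z) Γ) (fin_supp hb Γ) fun l => ?_
    refine mul_le_mul_of_nonneg_left ?_ (Nat.cast_nonneg _)
    beta_reduce
    by_cases h2 : ind η z l = 0
    · rw [h2]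
      split_ifs <;> simp
    · rw [if_pos (ind_ne h2).1, ind, if_pos (ind_ne h2)]
  have h2 : ∀ᶠ k : ℕ in atTop, ∀ l ∈ {l | Γ.mult l ≠ 0 ∧ η < l.diam},
      ∃ z ∈ pts Ω k, Sur z l := by
    refine (eventually_all_finite (Γ.fin η hη)).2 fun l hl => ?_
    obtain ⟨γ, U, hU, hne, h1, h2, rfl⟩ := hΓ l hl.1
    obtain ⟨j, hj⟩ := (denseRange_denseSeq ℂ).exists_mem_open hU hne
    have hUΩ : U ⊆ Ω := subset_closure.trans h1
    filter_upwards [eventually_gt_atTop j] with k hk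
    exact ⟨denseSeq ℂ j, Finset.mem_filter.2
      ⟨Finset.mem_image_of_mem _ (Finset.mem_range.2 hk), hUΩ hj⟩,
      sur_of_mem hU (hΩ.2.1.subset hUΩ) h2.2 hj⟩
  filter_upwards [h2, tendsto_natCast_atTop_atTop.eventually_ge_atTop
    (sm (fun l : Loop => if η < l.diam then (1 : ℝ) else 0) Γ)] with k hk hk'
  have h3 : sm (cut η (pts Ω k) g) Γ = sm g Γ := by
    refine sm_congr fun l hl => ?_
    by_cases h : η < l.diam
    · exact if_pos ⟨h, hk l ⟨hl, h⟩⟩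
    · rw [h0 l (not_lt.1 h)]
      exact if_neg fun h' => h h'.1
  unfold FF
  rw [if_pos fun z _ => by linarith [h1 z], h3]

end Vale.Agent.P155.Soup.Uqs
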